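import Crest.Agent.N250.B1.Stm

/-!
# Row 250, block B1 (helper29): small balls of jets are regular

`RegS` of `B1/Stm` needs the mode `0` of `w_θ` to vanish (`IsJet`); this is `RegS2`.
-/

set_option autoImplicit false
open Set Complex

noncomputable section

namespace Crest.Agent.N250.B1

/-- `RegS` for honest jets -/
def RegS2 : Prop :=
  ∀ g g', Ex g g' → ∃ R1 K1 e1 : ℝ, 0 < e1 ∧ ∀ R K, R1 ≤ R → K1 ≤ K → ∀ (ℓ : Ell) (ε : ℝ) (z : Par ℓ),
    z ∈ Dom R K g g' ε → ∀ (c : CI) (J : Jt ℓ), IsJet c J → InB R K g g' z.1.re z.2.1 e1 J →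
      RegJ R z.1 z.2.1 J

namespace Rg

variable {ℓ : Ell}

theorem hasSum_val (u : Wi (om ℓ)) (s : II) (θ : ℝ) :
    HasSum (fun m => Wi.ex m θ * Wi.co u m s) (val u s θ) := by
  have h := (Wi.hasSum_syn u θ).mapL (ContinuousMap.evalCLM ℂ s)
  simpa [val] using h

/-- coefficientwise form of `WB` -/
theorem WB.coef {R X M : ℝ} {f0 f : ℝ → ℝ} {u : Wi (om ℓ)} (h : WB R X f0 f u M) (s : II) {F : ℝ}
    (p0 : 0 < f0 (xr R X s)) (p1 : 0 < f (xr R X s))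
    (h0 : f0 (xr R X s) ≤ F ∨ Wi.co u 0 s = 0) (h1 : f (xr R X s) ≤ F) :
    ∃ β : ℤ → ℝ, Summable β ∧ ∑' m, β m ≤ M ∧ (∀ m, 0 ≤ β m) ∧ ∀ m, ‖Wi.co u m s‖ ≤ β m * F := by
  obtain ⟨β, hs, hM, hb0, hb⟩ := h
  have hF : 0 ≤ F := p1.le.trans h1
  have hle : ∀ m, m ≠ 0 → ‖Wi.co u m s‖ ≤ β m * f (xr R X s) := fun m hm => by
    refine le_trans (le_mul_of_one_le_left (norm_nonneg _) (Real.one_le_exp ?_)) (hb m hm s)
    exact mul_nonneg (sig_nonneg (by have := s.2.1; positivity)) (ℓ.nonneg m)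
  have hβ : ∀ m, 0 ≤ β m := fun m => by
    by_cases hm : m = 0
    · subst hm; exact nonneg_of_mul_nonneg_left ((norm_nonneg _).trans (hb0 s)) p0
    · exact nonneg_of_mul_nonneg_left ((norm_nonneg _).trans (hle m hm)) p1
  refine ⟨β, hs, hM, hβ, fun m => ?_⟩
  by_cases hm : m = 0
  · subst hm
    rcases h0 with h0 | h0
    · exact (hb0 s).trans (mul_le_mul_of_nonneg_left h0 (hβ 0))
    · rw [h0, norm_zero]; exact mul_nonneg (hβ 0) hF
  · exact (hle m hm).trans (mul_le_mul_of_nonneg_left h1 (hβ m))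

/-- pointwise bound from a weighted `ℓ¹` bound -/
theorem val_le {R X M : ℝ} {f0 f : ℝ → ℝ} {u : Wi (om ℓ)} (h : WB R X f0 f u M) (s : II) (θ : ℝ)
    {F : ℝ} (p0 : 0 < f0 (xr R X s)) (p1 : 0 < f (xr R X s))
    (h0 : f0 (xr R X s) ≤ F ∨ Wi.co u 0 s = 0) (h1 : f (xr R X s) ≤ F) : ‖val u s θ‖ ≤ M * F := by
  obtain ⟨β, hs, hM, -, hb⟩ := WB.coef h s p0 p1 h0 h1
  have := (hasSum_val u s θ).norm_le_of_bounded (hs.hasSum.mul_right F) fun m => by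
    rw [norm_mul, Wi.norm_ex, one_mul]; exact hb m
  exact this.trans (mul_le_mul_of_nonneg_right hM (p1.le.trans h1))

/-- the oscillating part: `val u - co u 0` -/
theorem val_sub_le {R X M : ℝ} {f0 f : ℝ → ℝ} {u : Wi (om ℓ)} (h : WB R X f0 f u M) (s : II) (θ : ℝ)
    (p0 : 0 < f0 (xr R X s)) (p1 : 0 < f (xr R X s)) :
    ‖val u s θ - Wi.co u 0 s‖ ≤ M * f (xr R X s) := by
  have h' : WB R X f0 f (u - Wi.single _ 0 (Wi.co u 0)) M := by
    obtain ⟨β, hs, hM, hb0, hb⟩ := h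
    refine ⟨β, hs, hM, fun t => ?_, fun m hm t => ?_⟩
    · simp only [Wi.co_sub, Wi.co_single_self, sub_self, ContinuousMap.zero_apply, norm_zero]
      exact (norm_nonneg _).trans (hb0 t)
    · rw [Wi.co_sub, Wi.co_single_ne hm, sub_zero]; exact hb m hm t
  have e : val (u - Wi.single _ 0 (Wi.co u 0)) s θ = val u s θ - Wi.co u 0 s := by
    have := map_sub (Wi.ev (om ℓ) θ) u (Wi.single _ 0 (Wi.co u 0))
    simp only [Wi.ev_apply, Wi.syn_single, Wi.ex_zero, one_smul] at this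
    simp only [val, this, ContinuousMap.sub_apply]
  rw [← e]
  exact val_le h' s θ p0 p1 (Or.inr (by simp)) le_rfl

theorem WB.nonneg {R X M : ℝ} {f0 f : ℝ → ℝ} {u : Wi (om ℓ)} (h : WB R X f0 f u M) (s : II)
    (p0 : 0 < f0 (xr R X s)) (p1 : 0 < f (xr R X s)) : 0 ≤ M := by
  obtain ⟨β, -, hM, hβ, -⟩ := WB.coef h s p0 p1 (Or.inl (le_max_left _ _)) (le_max_right _ _)
  exact (tsum_nonneg hβ).trans hM

theorem cub_mem (s : II) : 0 ≤ cub s ∧ cub s ≤ 1 :=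
  ⟨le_max_right _ _, max_le (by linarith [s.2.2]) zero_le_one⟩

theorem xr_mem {R X : ℝ} (h : R + 2 ≤ X) (s : II) : xr R X s ∈ Icc R X := by
  have h0 : 0 ≤ cub s ^ 3 := pow_nonneg (cub_mem s).1 3
  have h1 : cub s ^ 3 ≤ 1 := pow_le_one₀ (cub_mem s).1 (cub_mem s).2
  have := s.2.1
  have := s.2.2
  unfold xr
  constructor <;> nlinarith

theorem gam_eq (R : ℝ) (X : ℂ) (s : II) :
    gam R X s = (xr R X.re s : ℝ) + ((X.im * cub s ^ 3 : ℝ) : ℂ) * I := by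
  conv_lhs => rw [← re_add_im X]
  simp only [gam, xr, ContinuousMap.coe_mk]
  push_cast; ring

/-- the facts about `η` at a real point `x ∈ [R, X]` -/
structure Pt (K X : ℝ) (a : ℂ) (x : ℝ) : Prop where
  x2 : 2 ≤ x
  xX : x ≤ X
  K1 : 1 ≤ K
  KX : 4 * K ≤ X ^ 2
  adm : Adm K X a

namespace Pt

variable {K X x : ℝ} {a : ℂ} (h : Pt K X a x)
include h

theorem X_pos : 0 < X := by linarith [h.x2, h.xX]

theorem x_pos : 0 < x := by linarith [h.x2]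

theorem t_mem : 0 ≤ (x ^ 2 - 2) / X ^ 2 ∧ (x ^ 2 - 2) / X ^ 2 ≤ 1 := by
  have := h.X_pos
  refine ⟨div_nonneg (by nlinarith [h.x2]) (by positivity), ?_⟩
  rw [div_le_one (by positivity)]
  nlinarith [h.x2, h.xX]

theorem k_mem : 0 < 2 * K / X ^ 2 ∧ 2 * K / X ^ 2 ≤ 1 / 2 := by
  have := h.X_pos
  have := h.K1
  refine ⟨by positivity, ?_⟩
  rw [div_le_iff₀ (by positivity)]
  linarith [h.KX]

theorem k_le_rho : 2 * K / X ^ 2 ≤ rho K X x := by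
  have := h.t_mem
  have := h.k_mem
  unfold rho; nlinarith

theorem rho_pos : 0 < rho K X x := h.k_mem.1.trans_le h.k_le_rho

theorem rho_le_one : rho K X x ≤ 1 := by
  have := h.t_mem
  have := h.k_mem
  unfold rho; nlinarith

theorem et_eq : et a x = 1 + (((x ^ 2 - 2) / X ^ 2 : ℝ) : ℂ) * (a * X ^ 2 / 2) := by
  have : (X : ℂ) ≠ 0 := by exact_mod_cast h.X_pos.ne'
  unfold et; push_cast; field_simp

theorem rho_le : rho K X x ≤ (et a x).re := by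
  have h1 := h.adm
  have h2 := (abs_le.1 ((abs_re_le_norm (a * X ^ 2 / 2 - 1 / 8)).trans le_rfl)).1
  have e : (a * X ^ 2 / 2 - 1 / 8 : ℂ).re = (a * X ^ 2 / 2 : ℂ).re - 1 / 8 := by
    rw [sub_re]; norm_num
  rw [h.et_eq, add_re, re_ofReal_mul, one_re]
  unfold Adm at h1
  unfold rho
  nlinarith [h.t_mem.1]

theorem re_pos : 0 < (et a x).re := h.rho_pos.trans_le h.rho_le

theorem norm_pos : 0 < ‖et a x‖ := h.re_pos.trans_le (re_le_norm _)

theorem disc : ‖et a x - 9 / 8‖ ≤ 9 / 8 := by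
  obtain ⟨t0, t1⟩ := h.t_mem
  have h1 := h.adm
  unfold Adm at h1
  have e0 := h.et_eq
  generalize (x ^ 2 - 2) / X ^ 2 = t at t0 t1 e0
  have e : et a x - 9 / 8 = (t : ℂ) * (a * X ^ 2 / 2 - 1 / 8) - (((1 - t) / 8 : ℝ) : ℂ) := by
    rw [e0]; push_cast; ring
  rw [e]
  refine (norm_sub_le _ _).trans ?_
  rw [norm_mul, norm_real, norm_real, Real.norm_of_nonneg t0, Real.norm_of_nonneg (by linarith)]
  nlinarith [h.k_mem.1]

theorem sq_le : ‖et a x‖ ^ 2 ≤ 9 / 4 * (et a x).re := by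
  have h1 := pow_le_pow_left₀ (norm_nonneg _) h.disc 2
  rw [Complex.sq_norm, normSq_apply] at h1 ⊢
  have e1 : (et a x - 9 / 8).re = (et a x).re - 9 / 8 := by rw [sub_re]; norm_num
  have e2 : (et a x - 9 / 8).im = (et a x).im := by rw [sub_im]; norm_num
  rw [e1, e2] at h1
  nlinarith

theorem norm_le : ‖et a x‖ ≤ 9 / 4 := by
  have h1 := h.sq_le
  have h2 := re_le_norm (et a x)
  have h3 := h.norm_pos
  nlinarith

theorem a_le : ‖a‖ * X ^ 2 ≤ 5 / 2 := by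
  have h1 := h.adm
  unfold Adm at h1
  have h2 := norm_add_le (a * X ^ 2 / 2 - 1 / 8) (1 / 8)
  rw [sub_add_cancel, norm_div, norm_mul, norm_pow, norm_real, Real.norm_of_nonneg h.X_pos.le] at h2
  norm_num at h2
  linarith [h.k_mem.1]

theorem one_le_rho : 1 ≤ x ^ 2 * rho K X x := by
  have hX := h.X_pos
  have hx := h.x2
  rcases le_total ((x ^ 2 - 2) / X ^ 2) (1 / 2) with ht | ht
  · have : 1 / 2 ≤ rho K X x := by
      have := h.t_mem
      have := h.k_mem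
      unfold rho; nlinarith
    nlinarith
  · have h1 := h.k_le_rho
    rw [le_div_iff₀ (by positivity)] at ht
    rw [div_le_iff₀ (by positivity)] at h1
    have h2 := h.rho_pos
    have h3 := h.K1
    nlinarith

theorem W_pos (g g' : ℝ) : 0 < W g g' a x :=
  mul_pos (Real.rpow_pos_of_pos h.x_pos _) (Real.rpow_pos_of_pos h.norm_pos _)

/-- `W ≤ |η|² / √x` -/
theorem W_le {g g' : ℝ} (hg : 3 / 2 ≤ g) (h1 : 3 / 2 ≤ g') (h2 : g' ≤ 2) :
    W g g' a x ≤ x ^ (-(1 / 2 : ℝ)) * ‖et a x‖ ^ 2 := by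
  have hx := h.x_pos
  have hn := h.norm_pos
  have hl : x ^ (-2 : ℝ) ≤ ‖et a x‖ := by
    rw [Real.rpow_neg hx.le, Real.rpow_two, inv_le_iff_one_le_mul₀' (by positivity)]
    exact h.one_le_rho.trans (mul_le_mul_of_nonneg_left (h.rho_le.trans (re_le_norm _)) (by positivity))
  have h3 : ‖et a x‖ ^ (g' - 2) ≤ (x ^ (-2 : ℝ)) ^ (g' - 2) :=
    Real.rpow_le_rpow_of_nonpos (Real.rpow_pos_of_pos hx _) hl (by linarith)
  have e : ‖et a x‖ ^ g' = ‖et a x‖ ^ (g' - 2) * ‖et a x‖ ^ 2 := by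
    rw [← Real.rpow_two, ← Real.rpow_add hn]; ring_nf
  rw [W, e, ← mul_assoc]
  refine mul_le_mul_of_nonneg_right ?_ (by positivity)
  refine (mul_le_mul_of_nonneg_left h3 (by positivity)).trans ?_
  rw [← Real.rpow_mul hx.le, ← Real.rpow_add hx]
  exact Real.rpow_le_rpow_of_exponent_le (by linarith [h.x2]) (by linarith)

theorem W_le_sq {g g' : ℝ} (hg : 3 / 2 ≤ g) (h1 : 3 / 2 ≤ g') (h2 : g' ≤ 2) :
    W g g' a x ≤ ‖et a x‖ ^ 2 :=
  (h.W_le hg h1 h2).trans (mul_le_of_le_one_left (by positivity)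
    (Real.rpow_le_one_of_one_le_of_nonpos (by linarith [h.x2]) (by norm_num)))

theorem W_le_re {g g' : ℝ} (hg : 3 / 2 ≤ g) (h1 : 3 / 2 ≤ g') (h2 : g' ≤ 2) :
    W g g' a x ≤ 9 / 4 * (et a x).re := (h.W_le_sq hg h1 h2).trans h.sq_le

theorem W_div_le {g g' : ℝ} (hg : 3 / 2 ≤ g) (h1 : 3 / 2 ≤ g') (h2 : g' ≤ 2) :
    W g g' a x / (x * ‖et a x‖) ≤ 9 / 4 * x⁻¹ := by
  have hx := h.x_pos
  have hn := h.norm_pos
  rw [div_le_iff₀ (by positivity)]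
  have e : 9 / 4 * x⁻¹ * (x * ‖et a x‖) = 9 / 4 * ‖et a x‖ := by field_simp
  rw [e]
  nlinarith [h.W_le_sq hg h1 h2, h.norm_le]

/-- moving the point by `i δ`, `|δ| ≤ 1 / X` -/
theorem et_shift {δ : ℝ} (hδ : |δ| ≤ X⁻¹) :
    ‖et a (x + δ * I) - et a x‖ ≤ 2 / K * (et a x).re := by
  have hX := h.X_pos
  have hx := h.x_pos
  have hK := h.K1
  have hX2 : 2 ≤ X := h.x2.trans h.xX
  have e : et a (x + δ * I) - et a x = a * (δ * I * (x + δ * I / 2)) := by unfold et; ring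
  have h1 : ‖(x + δ * I / 2 : ℂ)‖ ≤ X + X⁻¹ / 2 := by
    refine (norm_add_le _ _).trans (add_le_add ?_ ?_)
    · rw [norm_real, Real.norm_of_nonneg hx.le]; exact h.xX
    · simp only [norm_div, norm_mul, norm_real, norm_I, mul_one, Real.norm_eq_abs, norm_ofNat]
      linarith
  have h2 : ‖(δ * I * (x + δ * I / 2) : ℂ)‖ ≤ 3 / 2 := by
    rw [norm_mul, norm_mul, norm_real, norm_I, mul_one, Real.norm_eq_abs]
    refine (mul_le_mul hδ h1 (norm_nonneg _) (by positivity)).trans ?_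
    have h3 : X⁻¹ ≤ 1 := inv_le_one_of_one_le₀ (by linarith)
    have h4 : X⁻¹ * X = 1 := inv_mul_cancel₀ hX.ne'
    have h5 : 0 < X⁻¹ := by positivity
    nlinarith
  rw [e, norm_mul]
  have h3 := h.k_le_rho.trans h.rho_le
  have h4 := h.a_le
  rw [div_le_iff₀ (by positivity)] at h3
  have h5 : ‖a‖ * (3 / 2) * (K * X ^ 2) ≤ 2 * (et a x).re * X ^ 2 := by nlinarith
  refine (mul_le_mul_of_nonneg_left h2 (norm_nonneg _)).trans ?_
  rw [div_mul_eq_mul_div, le_div_iff₀ (by positivity)]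
  exact le_of_mul_le_mul_right (by linarith) (show 0 < X ^ 2 by positivity)

theorem a_mul_le {δ : ℝ} (hδ : |δ| ≤ X⁻¹) : ‖a * (x + δ * I)‖ ^ 2 ≤ 5 / K * (et a x).re := by
  have hX := h.X_pos
  have hx := h.x_pos
  have hK := h.K1
  have hX2 : 2 ≤ X := h.x2.trans h.xX
  have h0 : X⁻¹ ≤ X / 4 := by
    rw [inv_le_iff_one_le_mul₀ hX]; nlinarith
  have h1 : ‖(x + δ * I : ℂ)‖ ≤ 5 / 4 * X := by
    refine (norm_add_le _ _).trans ?_
    rw [norm_real, Real.norm_of_nonneg hx.le, norm_mul, norm_real, norm_I, mul_one, Real.norm_eq_abs]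
    linarith [h.xX]
  have h2 : ‖a * (x + δ * I)‖ * X ≤ 25 / 8 := by
    rw [norm_mul]
    have := mul_le_mul_of_nonneg_left h1 (norm_nonneg a)
    nlinarith [h.a_le]
  have h3 := h.k_le_rho.trans h.rho_le
  rw [div_le_iff₀ (by positivity)] at h3
  have h4 := pow_le_pow_left₀ (by positivity) h2 2
  rw [div_mul_eq_mul_div, le_div_iff₀ (by positivity)]
  refine le_of_mul_le_mul_right ?_ (show 0 < X ^ 2 by positivity)
  nlinarith

end Pt

theorem Ex.bounds {g g' : ℝ} (h : Ex g g') : 3 / 2 ≤ g ∧ 3 / 2 ≤ g' ∧ g' ≤ 2 := by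
  unfold Ex at h
  refine ⟨?_, ?_, ?_⟩ <;> linarith [h.1, h.2.1, h.2.2]

theorem pt_of_dom {R K g g' ε : ℝ} {z : Par ℓ} (hR : 2 ≤ R) (hK : 1 ≤ K) (hz : z ∈ Dom R K g g' ε)
    (s : II) : Pt K z.1.re z.2.1 (xr R z.1.re s) := by
  obtain ⟨h1, h2, -, h4, -⟩ := hz
  have hm := xr_mem (R := R) (X := z.1.re) (by linarith) s
  refine ⟨hR.trans hm.1, hm.2, hK, ?_, h4⟩
  have := pow_le_pow_left₀ (by positivity) h2.le 2
  rwa [mul_pow, Real.sq_sqrt (by linarith), show (2 : ℝ) ^ 2 = 4 by norm_num] at this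

theorem im_le {R K g g' ε : ℝ} {z : Par ℓ} (hz : z ∈ Dom R K g g' ε) (s : II) :
    |z.1.im * cub s ^ 3| ≤ z.1.re⁻¹ := by
  rw [abs_mul]
  refine (mul_le_of_le_one_right (abs_nonneg _) ?_).trans hz.2.2.1.le
  rw [abs_of_nonneg (pow_nonneg (cub_mem s).1 3)]
  exact pow_le_one₀ (cub_mem s).1 (cub_mem s).2

/-- pointwise size of the jet of `v` in the ball of radius `e`; `η₀` is taken at the real point -/
theorem jet_le {R K g g' ε e : ℝ} {z : Par ℓ} {J : Jt ℓ} (hg : Ex g g') (hR : 2 ≤ R) (hK : 1 ≤ K)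
    (hz : z ∈ Dom R K g g' ε) (h3 : Wi.co (J 3) 0 = 0) (hJ : InB R K g g' z.1.re z.2.1 e J)
    (s : II) (θ : ℝ) :
    ‖vj R z.1 z.2.1 J s θ 0 - et z.2.1 (xr R z.1.re s)‖ ≤
        (2 / K + 9 / 4 * e) * (et z.2.1 (xr R z.1.re s)).re ∧
      ‖vj R z.1 z.2.1 J s θ 1‖ ^ 2 ≤ (10 / K + 11 * e ^ 2) * (et z.2.1 (xr R z.1.re s)).re ∧
      ‖vj R z.1 z.2.1 J s θ 3‖ ≤ 9 / 4 * e * (et z.2.1 (xr R z.1.re s)).re := by
  obtain ⟨g1, g2, g3⟩ := Ex.bounds hg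
  have P := pt_of_dom hR hK hz s
  have hδ := im_le hz s
  have hx := P.x_pos
  have hn := P.norm_pos
  have hW := P.W_pos g g'
  have hr := P.re_pos
  have b0 := val_le hJ.b0 s θ P.rho_pos hW (F := 9 / 4 * (et z.2.1 (xr R z.1.re s)).re)
    (Or.inl (by linarith [P.rho_le])) (P.W_le_re g1 g2 g3)
  have b1 := val_le hJ.b1 s θ (F := 9 / 4 * (xr R z.1.re s)⁻¹) (by positivity) (by positivity)
    (Or.inl (by have : 0 < (xr R z.1.re s)⁻¹ := by positivity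
                linarith)) (P.W_div_le g1 g2 g3)
  have b3 := val_le hJ.b3 s θ one_pos hW (F := 9 / 4 * (et z.2.1 (xr R z.1.re s)).re)
    (Or.inr (by rw [h3]; rfl)) (P.W_le_re g1 g2 g3)
  have c0 := P.et_shift hδ
  have c1 := P.a_mul_le hδ
  rw [← gam_eq] at c0 c1
  refine ⟨?_, ?_, ?_⟩
  · have e : vj R z.1 z.2.1 J s θ 0 - et z.2.1 (xr R z.1.re s) =
        (et z.2.1 (gam R z.1 s) - et z.2.1 (xr R z.1.re s)) + val (J 0) s θ := by
      simp only [vj, Matrix.cons_val_zero]; ring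
    rw [e]
    refine (norm_add_le _ _).trans ?_
    linarith
  · have e1 : vj R z.1 z.2.1 J s θ 1 = z.2.1 * gam R z.1 s + val (J 1) s θ := rfl
    have h1 := pow_le_pow_left₀ (norm_nonneg _) (norm_add_le (z.2.1 * gam R z.1 s) (val (J 1) s θ)) 2
    have h2 := pow_le_pow_left₀ (norm_nonneg _) b1 2
    have h4 : (xr R z.1.re s)⁻¹ ^ 2 ≤ (et z.2.1 (xr R z.1.re s)).re := by
      rw [inv_pow, inv_le_iff_one_le_mul₀' (by positivity)]
      exact P.one_le_rho.trans (mul_le_mul_of_nonneg_left P.rho_le (by positivity))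
    have h5 := mul_le_mul_of_nonneg_left h4 (sq_nonneg e)
    have h6 := mul_nonneg (sq_nonneg e) hr.le
    have e2 : 10 / K = 2 * (5 / K) := by ring
    rw [e1, e2]
    nlinarith [sq_nonneg (‖z.2.1 * gam R z.1 s‖ - ‖val (J 1) s θ‖)]
  · have e : vj R z.1 z.2.1 J s θ 3 = val (J 3) s θ := rfl
    rw [e]; linarith

/-- the algebra: small perturbations of `η` have `Q` close to `2 η` -/
theorem QQ_near {η v vx vt : ℂ} {r : ℝ} (hr : 0 < r) (h : r ≤ η.re) (h0 : ‖v - η‖ ≤ r / 8)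
    (h1 : ‖vx‖ ^ 2 ≤ r / 2) (h3 : ‖vt‖ ≤ r / 8) :
    7 / 8 * r ≤ v.re ∧ ‖Po.QQ v vx vt - 2 * η‖ ≤ r * (3 / 4 + 1 / 100) := by
  have hv : 7 / 8 * r ≤ v.re := by
    have := (abs_le.1 ((abs_re_le_norm (v - η)).trans h0)).1
    rw [sub_re] at this; linarith
  refine ⟨hv, ?_⟩
  have hn : 7 / 8 * r ≤ ‖v‖ := hv.trans (re_le_norm _)
  have e : Po.QQ v vx vt - 2 * η = 2 * (v - η) + vx ^ 2 + vt ^ 2 / (2 * v) := by unfold Po.QQ; ring
  have h4 : ‖vt ^ 2 / (2 * v)‖ ≤ r / 100 := by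
    rw [norm_div, norm_pow, norm_mul, norm_ofNat, div_le_iff₀ (by linarith)]
    nlinarith [norm_nonneg vt]
  rw [e]
  refine (norm_add₃_le).trans ?_
  rw [norm_mul, norm_ofNat, norm_pow]
  linarith

/-- quantitative regularity -/
theorem reg_q {R K g g' ε e : ℝ} {z : Par ℓ} {J : Jt ℓ} (hg : Ex g g') (hR : 2 ≤ R) (hK : 32 ≤ K)
    (he : e ≤ 1 / 36) (hz : z ∈ Dom R K g g' ε) (h3 : Wi.co (J 3) 0 = 0)
    (hJ : InB R K g g' z.1.re z.2.1 e J) (s : II) (θ : ℝ) :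
    7 / 8 * (et z.2.1 (xr R z.1.re s)).re ≤ (vj R z.1 z.2.1 J s θ 0).re ∧
      ‖Po.QQ (vj R z.1 z.2.1 J s θ 0) (vj R z.1 z.2.1 J s θ 1) (vj R z.1 z.2.1 J s θ 3) -
        2 * et z.2.1 (xr R z.1.re s)‖ ≤ (et z.2.1 (xr R z.1.re s)).re * (3 / 4 + 1 / 100) := by
  have P := pt_of_dom hR (by linarith) hz s
  have hr := P.re_pos
  have he0 : 0 ≤ e := WB.nonneg hJ.b0 s P.rho_pos (P.W_pos g g')
  obtain ⟨h0, h1, h2⟩ := jet_le hg hR (by linarith) hz h3 hJ s θ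
  have k1 : 2 / K ≤ 1 / 16 := by rw [div_le_iff₀ (by linarith)]; linarith
  have k2 : 10 / K ≤ 5 / 16 := by rw [div_le_iff₀ (by linarith)]; linarith
  have k3 : e ^ 2 ≤ 1 / 100 := by nlinarith
  exact QQ_near hr le_rfl (h0.trans (by nlinarith)) (h1.trans (by nlinarith)) (h2.trans (by nlinarith))

theorem regJ {R K g g' ε e : ℝ} {z : Par ℓ} {J : Jt ℓ} (hg : Ex g g') (hR : 2 ≤ R) (hK : 32 ≤ K)
    (he : e ≤ 1 / 36) (hz : z ∈ Dom R K g g' ε) (h3 : Wi.co (J 3) 0 = 0)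
    (hJ : InB R K g g' z.1.re z.2.1 e J) : RegJ R z.1 z.2.1 J := fun s θ => by
  obtain ⟨h1, h2⟩ := reg_q hg hR hK he hz h3 hJ s θ
  have hr := (pt_of_dom hR (by linarith : (1 : ℝ) ≤ K) hz s).re_pos
  refine ⟨fun h0 => ?_, Or.inl ?_⟩
  · rw [h0, zero_re] at h1; linarith
  · have := (abs_le.1 ((abs_re_le_norm _).trans h2)).1
    rw [sub_re, show (2 : ℂ) = ((2 : ℝ) : ℂ) by norm_num, re_ofReal_mul] at this
    linarith

theorem IsJet.co3 {c : CI} {J : Jt ℓ} (h : IsJet c J) : Wi.co (J 3) 0 = 0 := by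
  rw [h.t0, Int.cast_zero, zero_mul]; ext s; simp

end Rg

theorem regS2_holds : RegS2 := fun _ _ hg =>
  ⟨2, 32, 1 / 36, by norm_num, fun _ _ hR hK _ _ _ hz _ _ hj hJ =>
    Rg.regJ hg hR hK le_rfl hz (Rg.IsJet.co3 hj) hJ⟩

end Crest.Agent.N250.B1

end
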