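import Crest.Agent.N250.Wi.Alg
import Crest.Agent.N250.B1.Bar
import Crest.Agent.N250.Po.Pol

/-!
# Row 250, block B1 (helper6): FROZEN definitions of the end solver

`v = r²/2 = η + w`, `η = 1 + a (x² - 2)/2`, `x = γ_X(s)`, `s ∈ [0,1]`, strip `s ≤ 1/2` (`x = R + 2 s`).
A jet `J : Jt ℓ` is `(w, w_x, w_xx, w_θ, w_xθ, w_θθ)` in the Wiener algebra with the smoothing weight
`exp (ς(s) ℓ(m))`.  All real weights are functions of the real point `x = xr R X s` of the cut `Re X`.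
-/

set_option autoImplicit false
open Set Complex

noncomputable section

namespace Crest.Agent.N250.B1

/-- the parameter interval -/
abbrev II : Type := Icc (0 : ℝ) 1

/-- `(2 s - 1)₊` -/
def cub (s : ℝ) : ℝ := max (2 * s - 1) 0

theorem continuous_cub : Continuous cub := by unfold cub; fun_prop

/-- the path `x = γ_X(s)` -/
def gam (R : ℝ) (X : ℂ) : CI :=
  ⟨fun s => R + 2 * ((s : ℝ) : ℂ) + (X - R - 2) * ((cub s : ℝ) : ℂ) ^ 3, by
    have := continuous_cub; fun_prop⟩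

/-- its speed -/
def dgam (R : ℝ) (X : ℂ) : CI :=
  ⟨fun s => 2 + 6 * (X - R - 2) * ((cub s : ℝ) : ℂ) ^ 2, by have := continuous_cub; fun_prop⟩

/-- the real point for a real cut `X` -/
def xr (R X s : ℝ) : ℝ := R + 2 * s + (X - R - 2) * cub s ^ 3

/-- `η = 1 + a (x² - 2) / 2` -/
def et (a x : ℂ) : ℂ := 1 + a * (x ^ 2 - 2) / 2

/-- lower barrier for `Re η` -/
def rho (K X x : ℝ) : ℝ := 1 - (x ^ 2 - 2) / X ^ 2 * (1 - 2 * K / X ^ 2)

/-- `μ = Re (1/η)` -/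
def mu (a : ℂ) (x : ℝ) : ℝ := ((et a x)⁻¹).re

/-- the weight `W = x^{-g} |η|^{g'}` of the non symmetric modes -/
def W (g g' : ℝ) (a : ℂ) (x : ℝ) : ℝ := x ^ (-g) * ‖et a x‖ ^ g'

/-- admissible `a` for the real cut `X`: a disc in `a X²/2` (it gives `ρ ≤ Re η`, `μ ≥ 4/9`,
`|a| X² ≤ 5/2` on `[R, X]`; it contains `|a| (X²/2 + 2K) < 1` when `4K < X²`) -/
def Adm (K X : ℝ) (a : ℂ) : Prop := ‖a * X ^ 2 / 2 - 1 / 8‖ + 2 * K / X ^ 2 < 9 / 8

/-- admissible exponents, e.g. `(13/8, 7/4)` and `(19/10, 39/20)` -/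
def Ex (g g' : ℝ) : Prop := 3 / 2 < g ∧ g' < 2 ∧ 9 * g + 2 < 10 * g'

/-- smoothing profile as a function of `u = x - R` -/
def sig (u : ℝ) : ℝ := 1 - max (1 - u) 0 ^ 3

/-- subadditive symbol: `0`, `c |m|`, `k log (1 + |m|/M)` -/
structure Ell where
  l : ℤ → ℝ
  zero : l 0 = 0
  nonneg : ∀ m, 0 ≤ l m
  sub : ∀ j k, l (j + k) ≤ l j + l k
  neg : ∀ m, l (-m) = l m

/-- the trivial symbol -/
def Ell.triv : Ell := ⟨fun _ => 0, rfl, fun _ => le_rfl, fun _ _ => by simp, fun _ => rfl⟩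

theorem sig_nonneg {u : ℝ} (hu : 0 ≤ u) : 0 ≤ sig u := by
  have h0 : 0 ≤ max (1 - u) 0 := le_max_right _ _
  have h1 : max (1 - u) 0 ≤ 1 := max_le (by linarith) zero_le_one
  have := pow_le_one₀ (n := 3) h0 h1
  unfold sig; linarith

theorem continuous_sig : Continuous sig := by unfold sig; fun_prop

/-- `exp (ς(2 s) t)` -/
def eW (t : ℝ) : CI :=
  ⟨fun s => ((Real.exp (sig (2 * s) * t) : ℝ) : ℂ), by have := continuous_sig; fun_prop⟩

theorem eW_mul (t u : ℝ) : eW t * eW u = eW (t + u) := by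
  ext s; simp only [eW, ContinuousMap.mul_apply, ContinuousMap.coe_mk]
  rw [← ofReal_mul, ← Real.exp_add, mul_add]

theorem eW_zero : eW 0 = 1 := by ext s; simp [eW]

theorem norm_eW_le {t : ℝ} (ht : t ≤ 0) : ‖eW t‖ ≤ 1 :=
  (ContinuousMap.norm_le _ zero_le_one).2 fun s => by
    have h := sig_nonneg (u := 2 * s) (by have := s.2.1; positivity)
    simp only [eW, ContinuousMap.coe_mk, norm_real, Real.norm_eq_abs, abs_of_pos (Real.exp_pos _)]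
    exact Real.exp_le_one_iff.2 (mul_nonpos_of_nonneg_of_nonpos h ht)

/-- the smoothing weight on the strip -/
def om (ℓ : Ell) : WiW CI where
  w m := eW (ℓ.l m)
  wi m := eW (-ℓ.l m)
  mul_inv m := by rw [eW_mul, add_neg_cancel, eW_zero]
  zero := by rw [ℓ.zero, eW_zero]
  sub j k := by rw [eW_mul, eW_mul]; exact norm_eW_le (by linarith [ℓ.sub j k])
  inv_le m := norm_eW_le (by linarith [ℓ.nonneg m])

/-- a scalar weight from a positive submultiplicative sequence -/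
def scW (f : ℤ → ℝ) (h0 : f 0 = 1) (h1 : ∀ m, 1 ≤ f m) (hs : ∀ j k, f (j + k) ≤ f j * f k) :
    WiW ℂ where
  w m := f m
  wi m := (f m : ℂ)⁻¹
  mul_inv m := mul_inv_cancel₀ (by exact_mod_cast (zero_lt_one.trans_le (h1 m)).ne')
  zero := by simp [h0]
  sub j k := by
    have hj := zero_lt_one.trans_le (h1 j)
    have hk := zero_lt_one.trans_le (h1 k)
    have hjk := zero_lt_one.trans_le (h1 (j + k))
    simp only [norm_mul, norm_inv, norm_real, Real.norm_eq_abs, abs_of_pos hj, abs_of_pos hk,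
      abs_of_pos hjk]
    rw [← mul_inv, ← div_eq_mul_inv, div_le_one (mul_pos hj hk)]
    exact hs j k
  inv_le m := by
    have hj := zero_lt_one.trans_le (h1 m)
    simp only [norm_inv, norm_real, Real.norm_eq_abs, abs_of_pos hj]
    exact inv_le_one_of_one_le₀ (h1 m)

theorem one_add_abs_le (j k : ℤ) : 1 + |((j + k : ℤ) : ℝ)| ≤ (1 + |(j : ℝ)|) * (1 + |(k : ℝ)|) := by
  have := abs_add_le (j : ℝ) k
  push_cast
  nlinarith [abs_nonneg (j : ℝ), abs_nonneg (k : ℝ), mul_nonneg (abs_nonneg (j : ℝ)) (abs_nonneg (k : ℝ))]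

/-- weight `(1 + |m|)^k` -/
def omP (k : ℕ) : WiW ℂ :=
  scW (fun m => (1 + |(m : ℝ)|) ^ k) (by simp)
    (fun m => one_le_pow₀ (by linarith [abs_nonneg (m : ℝ)])) fun j l => by
      rw [← mul_pow]; exact pow_le_pow_left₀ (by positivity) (one_add_abs_le j l) k

/-- weight `(1 + |m|) exp (ℓ m)` of the far slopes -/
def omF (ℓ : Ell) : WiW ℂ :=
  scW (fun m => (1 + |(m : ℝ)|) * Real.exp (ℓ.l m)) (by simp [ℓ.zero])
    (fun m => one_le_mul_of_one_le_of_one_le (by linarith [abs_nonneg (m : ℝ)])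
      (Real.one_le_exp (ℓ.nonneg m))) fun j l => by
      rw [mul_mul_mul_comm, ← Real.exp_add]
      exact mul_le_mul (one_add_abs_le j l) (Real.exp_le_exp.2 (ℓ.sub j l)) (Real.exp_pos _).le
        (by positivity)

/-- jets `(w, w_x, w_xx, w_θ, w_xθ, w_θθ)` -/
abbrev Jt (ℓ : Ell) : Type := Fin 6 → Wi (om ℓ)

/-- data: inner Dirichlet datum `b` (modes `|m| ≥ 2` are used), far slopes `H` (all modes, `H_0 = h`),
far values `β₊, β₋` of the modes `± 1` -/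
abbrev Dat (ℓ : Ell) : Type := Wi (omP 2) × Wi (omF ℓ) × ℂ × ℂ

/-- parameters `(X, a, data)` -/
abbrev Par (ℓ : Ell) : Type := ℂ × ℂ × Dat ℓ

variable {ℓ : Ell}

/-- point values -/
def val (u : Wi (om ℓ)) (s : II) (θ : ℝ) : ℂ := Wi.syn u θ s

/-- the six components are the derivatives of one function, `c = dx/ds` -/
structure IsJet (c : CI) (J : Jt ℓ) : Prop where
  d0 : ∀ m, Der (Wi.co (J 0) m) (c * Wi.co (J 1) m)
  d1 : ∀ m, Der (Wi.co (J 1) m) (c * Wi.co (J 2) m)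
  t0 : ∀ m : ℤ, Wi.co (J 3) m = (m * I : ℂ) • Wi.co (J 0) m
  t1 : ∀ m : ℤ, Wi.co (J 4) m = (m * I : ℂ) • Wi.co (J 1) m
  t2 : ∀ m : ℤ, Wi.co (J 5) m = (-(m : ℂ) ^ 2) • Wi.co (J 0) m

/-- boundary conditions -/
structure BC (D : Dat ℓ) (J : Jt ℓ) : Prop where
  inner : ∀ m : ℤ, 2 ≤ |m| → Wi.co (J 0) m i0 = Wi.co D.1 m
  slope : ∀ m, Wi.co (J 1) m i1 = Wi.co D.2.1 m
  far0 : Wi.co (J 0) 0 i1 = 0
  farp : Wi.co (J 0) 1 i1 = D.2.2.1
  farm : Wi.co (J 0) (-1) i1 = D.2.2.2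

/-- the jet of `v = η + w` at a point: `(v, v_x, v_xx, v_θ, v_xθ, v_θθ)` -/
def vj (R : ℝ) (X a : ℂ) (J : Jt ℓ) (s : II) (θ : ℝ) : Fin 6 → ℂ :=
  ![et a (gam R X s) + val (J 0) s θ, a * gam R X s + val (J 1) s θ, a + val (J 2) s θ,
    val (J 3) s θ, val (J 4) s θ, val (J 5) s θ]

/-- the shrinker equation on the end, with the boundary conditions -/
structure Sol (R : ℝ) (z : Par ℓ) (J : Jt ℓ) : Prop where
  jet : IsJet (dgam R z.1) J
  bc : BC z.2.2 J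
  eq : ∀ s θ, Po.EL (gam R z.1 s) (vj R z.1 z.2.1 J s θ 0) (vj R z.1 z.2.1 J s θ 1)
    (vj R z.1 z.2.1 J s θ 3) (vj R z.1 z.2.1 J s θ 2) (vj R z.1 z.2.1 J s θ 4)
    (vj R z.1 z.2.1 J s θ 5) = 0

/-- weighted `ℓ¹` bound: mode `0` against `f0`, the other modes against `f exp (-ς ℓ)`,
both functions of the real point `x = xr R X s` -/
def WB (R X : ℝ) (f0 f : ℝ → ℝ) (u : Wi (om ℓ)) (M : ℝ) : Prop :=
  ∃ β : ℤ → ℝ, Summable β ∧ ∑' m, β m ≤ M ∧ (∀ s : II, ‖Wi.co u 0 s‖ ≤ β 0 * f0 (xr R X s)) ∧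
    ∀ m, m ≠ 0 → ∀ s : II, Real.exp (sig (2 * s) * ℓ.l m) * ‖Wi.co u m s‖ ≤ β m * f (xr R X s)

/-- the ball of radius `M` at the base point `(X, a)`, `X` real -/
structure InB (R K g g' X : ℝ) (a : ℂ) (M : ℝ) (J : Jt ℓ) : Prop where
  b0 : WB R X (rho K X) (W g g' a) (J 0) M
  b1 : WB R X (fun x => x⁻¹) (fun x => W g g' a x / (x * ‖et a x‖)) (J 1) M
  b2 : WB R X (fun _ => 1) (fun x => W g g' a x / ‖et a x‖) (J 2) M
  b3 : WB R X (fun _ => 1) (W g g' a) (J 3) M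
  b4 : WB R X (fun _ => 1) (fun x => x * W g g' a x) (J 4) M
  b5 : WB R X (fun _ => 1) (W g g' a) (J 5) M

/-- size of the data at the base point `(X, a)` -/
def dn (R g g' X : ℝ) (a : ℂ) (D : Dat ℓ) : ℝ :=
  R ^ g * ‖D.1‖ + X * ‖Wi.co D.2.1 0‖ +
    (X * ‖D.2.1 - Wi.single _ 0 (Wi.co D.2.1 0)‖ + ‖D.2.2.1‖ + ‖D.2.2.2‖) /
      (W g g' a X * (et a X).re)

/-- the domain of the family -/
def Dom (R K g g' ε : ℝ) : Set (Par ℓ) :=
  {z | 2 * R + 4 < z.1.re ∧ 2 * √K < z.1.re ∧ |z.1.im| < z.1.re⁻¹ ∧ Adm K z.1.re z.2.1 ∧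
    dn R g g' z.1.re z.2.1 z.2.2 < ε}

/-- the linear operator on the mode `m` at a real base point, as a relation -/
def Lin (R X : ℝ) (a : ℂ) (J : Jt ℓ) (G : Wi (om ℓ)) : Prop :=
  IsJet (dgam R X) J ∧ ∀ (m : ℤ) (s : II), Wi.co (J 2) m s - gam R X s / 2 * Wi.co (J 1) m s -
    ((m : ℂ) ^ 2 / (2 * et a (gam R X s)) - 1) * Wi.co (J 0) m s = Wi.co G m s

/-- `√Q e^{-x²/4 - v/2}` -/
def Lag (x v vx vt : ℂ) : ℂ := (Po.QQ v vx vt) ^ (1 / 2 : ℂ) * cexp (-x ^ 2 / 4 - v / 2)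

/-- `∂ Lag / ∂ v_x` -/
def Mom (x v vx vt : ℂ) : ℂ := vx * (Po.QQ v vx vt) ^ (-1 / 2 : ℂ) * cexp (-x ^ 2 / 4 - v / 2)

/-- the action of the end -/
def act (R : ℝ) (X a : ℂ) (J : Jt ℓ) : ℂ :=
  ∫ s in (0 : ℝ)..1, ∫ θ in (0 : ℝ)..(2 * Real.pi),
    Lag (gam R X (projIcc 0 1 zero_le_one s)) (vj R X a J (projIcc 0 1 zero_le_one s) θ 0)
      (vj R X a J (projIcc 0 1 zero_le_one s) θ 1) (vj R X a J (projIcc 0 1 zero_le_one s) θ 3) *
      dgam R X (projIcc 0 1 zero_le_one s)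

end Crest.Agent.N250.B1

end
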