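import Crest.Agent.N250.B1.Stm
import Crest.Agent.N250.B1.Gam
import Crest.Agent.N250.B1.Wt
import Crest.Agent.N250.Gi.Defs

/-!
# Row 250, block B1, S10 (helper33): statements for the drift of the far parameter
-/

set_option autoImplicit false
open Set Complex Filter Topology

noncomputable section

namespace Crest.Agent.N250.B1

open Gi (Lam hat)

/-- the symmetric nonlinearity `v_x² (1 + v_xx) / (2 v + v_x²)`, `v = η + w` -/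
def g0 (x : ℝ) (a w p q : ℂ) : ℂ :=
  (a * x + p) ^ 2 * (1 + a + q) / (2 * (et a x + w) + (a * x + p) ^ 2)

/-- the mode `m` of the component `i` of a jet, as a function of `x ∈ [R, X]` -/
def mo {ℓ : Ell} (R X : ℝ) (J : Jt ℓ) (i : Fin 6) (m : ℤ) (x : ℝ) : ℂ := fx R X (Wi.co (J i) m) x

/-- (Ap) the equations of the modes `0, ±1` up to the square of the non symmetric part -/
def ApS : Prop := ∃ C : ℝ, 0 < C ∧ ∀ (ℓ : Ell) (R K g g' c ε M X : ℝ) (a : ℂ) (D : Dat ℓ) (J : Jt ℓ),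
  GG g g' c → R + 2 ≤ X → Ok ε a R X → (∀ x ∈ Icc R X, 0 < rho K X x ∧ rho K X x ≤ (et a x).re) →
  M ≤ 1 / 100 →
  Sol R ((X : ℂ), a, D) J → InB R K g g' X a M J → ∀ x ∈ Icc R X,
    ‖mo R X J 2 0 x - x / 2 * mo R X J 1 0 x + mo R X J 0 0 x -
        g0 x a (mo R X J 0 0 x) (mo R X J 1 0 x) (mo R X J 2 0 x)‖ ≤
      C * (W g g' a x / ‖et a x‖) ^ 2 ∧
    ∀ m : ℤ, m ^ 2 = 1 →
      ‖mo R X J 2 m x - x / 2 * mo R X J 1 m x - Vm a m x * mo R X J 0 m x‖ ≤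
        C * ((M + ε) * ((et a x).re / ‖et a x‖) *
          (‖mo R X J 0 m x‖ / ‖et a x‖ + x * ‖mo R X J 1 m x‖ + ‖mo R X J 2 m x‖) +
          (W g g' a x / ‖et a x‖) ^ 2)

/-- (LOG) the scalar lemma: drift of `a(x) = (v₀ - 1)/J` along one solution -/
def LogS : Prop := ∀ Ch Cn : ℝ, 0 ≤ Ch → 0 ≤ Cn → ∃ C : ℝ, 0 < C ∧
  ∀ (ε X X' : ℝ) (a : ℂ) (w p q : ℝ → ℂ), X ≤ X' → (∀ x ∈ Icc X X', Pt ε a x) →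
    ‖a‖ * X ^ 2 ≤ 1 / 4 → Dv X X' w p → Dv X X' p q → w X' = 0 →
    ‖p X'‖ ≤ Ch / (X' ^ 3 * ‖et a X'‖) →
    (∀ x ∈ Icc X X', ‖w x‖ ≤ (et a x).re / 100 ∧ x * ‖p x‖ ≤ 1 / 100 ∧ ‖q x‖ ≤ 1 / 100 ∧
      ‖q x - x / 2 * p x + w x - g0 x a (w x) (p x) (q x)‖ ≤ Cn / x ^ 3) →
    ‖hat X (a + w X / ((X ^ 2 - 2) / 2)) - hat X' a‖ ≤ C * (1 / (X ^ 6 * (et a X').re) + 1 / X ^ 5) ∧
    ‖p X - X * (w X / ((X ^ 2 - 2) / 2))‖ ≤ C / X ^ 3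

/-- (M1) the modes `±1` with zero Cauchy data at the cut are quadratically small -/
def M1S : Prop := ∀ g g', Ex g g' → ∃ C e0 : ℝ, 0 < C ∧ 0 < e0 ∧
  ∀ (ℓ : Ell) (R K ε M X : ℝ) (a : ℂ) (D : Dat ℓ) (J : Jt ℓ),
    R + 2 ≤ X → Ok ε a R X → (∀ x ∈ Icc R X, 0 < rho K X x ∧ rho K X x ≤ (et a x).re) →
    ε ≤ e0 → M ≤ e0 →
    Sol R ((X : ℂ), a, D) J → InB R K g g' X a M J → D.2.2 = 0 →
    ∀ m : ℤ, m ^ 2 = 1 → Wi.co D.2.1 m = 0 → ∀ x ∈ Icc R X,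
      ‖mo R X J 0 m x‖ + x * ‖mo R X J 1 m x‖ ≤ C * x ^ (-(2 * g))

/-- weak closeness of two jets: half smoothing weight, growth `x^{7/8}`, layer at the cut -/
def Wc {ℓ : Ell} (R X : ℝ) (J J' : Jt ℓ) (N : ℝ) : Prop :=
  ∀ i : Fin 6, ∃ β : ℤ → ℝ, Summable β ∧ ∑' m, β m ≤ N ∧ ∀ (m : ℤ) (s : II),
    Real.exp (sig (2 * s) * ℓ.l m / 2) * ‖Wi.co (J i - J' i) m s‖ ≤
      β m * (xr R X s ^ (7 / 8 : ℝ) * xr R X s ^ (![0, 1, 2, 0, 1, 0] i : ℕ))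

/-- (S12) a-priori estimate for two solutions with the same `X, a, b`, away from the tip -/
def WkS : Prop := ∀ g g', Ex g g' → ∃ R1 c0 e0 c1 C : ℝ, 0 < c0 ∧ 0 < e0 ∧ 0 < c1 ∧ 0 < C ∧
  ∀ (ℓ : Ell) (R K X : ℝ) (a : ℂ) (D D' : Dat ℓ) (J J' : Jt ℓ) (γ : ℤ → ℝ),
    R1 ≤ R → ℓ.Sm c0 R → 2 * R + 4 ≤ X → 0 ≤ K → 4 * K ≤ X ^ 2 → ‖a‖ * X ^ 2 ≤ c1 →
    Sol R ((X : ℂ), a, D) J → InB R K g g' X a e0 J →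
    Sol R ((X : ℂ), a, D') J' → InB R K g g' X a e0 J' → D.1 = D'.1 → Summable γ →
    (∀ m : ℤ, (1 + |(m : ℝ)|) ^ 2 * Real.exp (ℓ.l m / 2) * ‖Wi.co (D.2.1 - D'.2.1) m‖ ≤ γ m) →
    Wc R X J J' (C * (X ^ (-15 / 8 : ℝ) * ∑' m, γ m +
      X ^ (-7 / 8 : ℝ) * (‖D.2.2.1 - D'.2.2.1‖ + ‖D.2.2.2 - D'.2.2.2‖)))

/-- the jet of `v = η + w` in the Wiener algebra -/
def vJ {ℓ : Ell} (R : ℝ) (X a : ℂ) (J : Jt ℓ) : Jt ℓ :=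
  J + ![Wi.cst _ (1 + (a / 2) • (gam R X ^ 2 - 2)), Wi.cst _ (a • gam R X), Wi.cst _ (a • 1), 0, 0, 0]

/-- weak closeness on `[R, X]` of a jet cut at `X'` and a jet cut at `X ≤ X'` -/
def Xc {ℓ : Ell} (R X X' : ℝ) (J' J : Jt ℓ) (N : ℝ) : Prop :=
  ∀ i : Fin 6, ∃ β : ℤ → ℝ, Summable β ∧ ∑' m, β m ≤ N ∧ ∀ (m : ℤ), ∀ x ∈ Icc R X,
    Real.exp (sig (x - R) * ℓ.l m / 2) * ‖mo R X' J' i m x - mo R X J i m x‖ ≤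
      β m * (x ^ (7 / 8 : ℝ) * x ^ (![0, 1, 2, 0, 1, 0] i : ℕ))

/-- the working data: slope `h` of the mode `0`, no other far data -/
def wd {ℓ : Ell} (b : Wi (omP 2)) (h : ℂ) : Dat ℓ := (b, Wi.single _ 0 h, 0, 0)

/-- the far parameter at `X` of a solution cut at `X'` -/
def tauX {ℓ : Ell} (R X X' : ℝ) (a : ℂ) (J' : Jt ℓ) : ℂ := a + mo R X' J' 0 0 X / ((X ^ 2 - 2) / 2)

/-- (DRIFT) `CD`, `c1`, `e0` do not depend on `R, K` -/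
def DriftS : Prop := ∀ Ch : ℝ, 0 ≤ Ch → ∃ R1 K1 c0 e0 c1 CD : ℝ, 0 < c0 ∧ 0 < e0 ∧ 0 < c1 ∧ 0 < CD ∧
  ∀ (ℓ : Ell) (R c : ℝ), R1 ≤ R → ℓ.Sm c0 R → 0 < c → (∀ m : ℤ, c * |(m : ℝ)| ≤ ℓ.l m) →
    ∃ C : ℝ, 0 < C ∧ ∀ (K X X' : ℝ) (a h' : ℂ) (b : Wi (omP 2)) (J' : Jt ℓ),
      K1 ≤ K → 2 * R + 4 ≤ X → 2 * √K ≤ X → X ≤ X' → Adm K X' a → ‖a‖ * X ^ 2 ≤ c1 →
      ‖h'‖ ≤ Ch / (X' ^ 3 * ‖et a X'‖) →
      Sol R ((X' : ℂ), a, wd b h') J' → InB R K (13 / 8) (7 / 4) X' a e0 J' →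
      ‖hat X (tauX R X X' a J') - hat X' a‖ ≤ CD * (1 / (X ^ 6 * (et a X').re) + 1 / X ^ 5) ∧
      ‖tauX R X X' a J' - a‖ ≤ c1 / X ^ 2 ∧
      ∀ (h : ℂ) (J : Jt ℓ), ‖h‖ ≤ 2 * Ch / X ^ 3 → Sol R ((X : ℂ), tauX R X X' a J', wd b h) J →
        InB R K (13 / 8) (7 / 4) X (tauX R X X' a J') e0 J →
        Xc R X X' (vJ R X' a J') (vJ R X (tauX R X X' a J') J) (C * X ^ (-33 / 8 : ℝ))

end Crest.Agent.N250.B1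

end
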