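import Crest.Agent.N250.B1.End0
import Crest.Agent.N250.B1.Gam

/-!
# Row 250, B1 (helper64): conversion of jets between the speeds of two cuts (half of `CvS`)
-/

set_option autoImplicit false
open Set Complex Filter Topology

noncomputable section

namespace Crest.Agent.N250.B1.Cv

variable {ℓ : Ell} {R K g g' X0 ν δ A M : ℝ} {a0 X a : ℂ}

theorem dgam0_ne (h : R + 2 ≤ X0) (s : II) : dgam R X0 s ≠ 0 := dgam_ne (by simpa using h) s

theorem iv_dgam (h : R + 2 ≤ X0) : iv (dgam R X0) = idg R X0 := by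
  ext s
  rw [iv_apply (dgam0_ne h), idg_apply h, dgam_real]

theorem eC_eq (h : R + 2 ≤ X0) (X : ℂ) : eC R X0 X = 1 + kap R X0 X := by
  rw [eC, iv_dgam h, dgam_eq_kap h X, mul_right_comm, dgam_mul_idg h, one_mul]

theorem kC_eq (h : R + 2 ≤ X0) (X : ℂ) : kC R X0 X = kapx R X0 X := by
  rw [kC, iv_dgam h, kapx, kapx1, smul_mul_assoc, smul_smul, mul_comm (48 : ℂ)]; rfl

theorem dgam_eC (h : R + 2 ≤ X0) (X : ℂ) : dgam R X = dgam R X0 * eC R X0 X := by
  rw [eC_eq h, dgam_eq_kap h X]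

theorem der_eC (h : R + 2 ≤ X0) (X : ℂ) : Der (eC R X0 X) (dgam R X0 * kC R X0 X) := by
  rw [eC_eq h, kC_eq h]
  have h1 : Der (1 : CI) 0 := by
    have e : cst 1 = (1 : CI) := by ext s; simp
    exact e ▸ der_cst 1
  exact (h1.add (der_kap h X)).congr (zero_add _)

theorem der_iv {y y' : CI} (h : Der y y') (h0 : ∀ s, y s ≠ 0) : Der (iv y) (-(y' * iv y ^ 2)) := by
  have e : ∀ t, ex (iv y) t = (ex y t)⁻¹ := fun t => iv_apply h0 _
  refine der_of_at fun t ht => ?_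
  have h1 := (h.at ht).fun_inv (h0 _)
  rw [funext e]
  refine h1.congr_deriv ?_
  rw [sq (iv y), ex_neg, ex_mul, ex_mul, e]
  have : ex y t ≠ 0 := h0 _
  field_simp

theorem eC_ne (hN : Nr R X0 a0 δ A X a) (s : II) : eC R X0 X s ≠ 0 := fun e => by
  have := (hN s).n6'
  rw [e, norm_zero] at this
  linarith

theorem eC_mul_iv (hN : Nr R X0 a0 δ A X a) : eC R X0 X * iv (eC R X0 X) = 1 := mul_iv (eC_ne hN)

theorem norm_iv_eC (hN : Nr R X0 a0 δ A X a) (s : II) : ‖iv (eC R X0 X) s‖ ≤ 2 := by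
  have := (hN s).n6'
  rw [iv_apply (eC_ne hN), norm_inv]
  exact inv_le_of_inv_le₀ two_pos (by linarith)

theorem cst_eC (hN : Nr R X0 a0 δ A X a) :
    Wi.cst (om ℓ) (eC R X0 X) * Wi.cst (om ℓ) (iv (eC R X0 X)) = 1 := by
  rw [← map_mul, eC_mul_iv hN, map_one]

theorem of_to (hN : Nr R X0 a0 δ A X a) (J : Jt ℓ) : ofB R X0 X (toB R X0 X J) = J := by
  have h := cst_eC (ℓ := ℓ) hN
  funext i
  fin_cases i
  · rfl
  · change cm _ (cm _ (J 1)) = J 1
    linear_combination (J 1) * h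
  · change cm _ (cm _ (J 2) + cm _ (J 1) - cm _ (cm _ (J 1))) = J 2
    simp only [cm, map_mul, map_pow]
    linear_combination ((Wi.cst (om ℓ) (eC R X0 X) * Wi.cst (om ℓ) (iv (eC R X0 X)) + 1) * J 2 -
      Wi.cst (om ℓ) (iv (eC R X0 X)) ^ 2 * Wi.cst (om ℓ) (kC R X0 X) * J 1) * h
  · rfl
  · change cm _ (cm _ (J 4)) = J 4
    linear_combination (J 4) * h
  · rfl

theorem to_of (hN : Nr R X0 a0 δ A X a) (J : Jt ℓ) : toB R X0 X (ofB R X0 X J) = J := by
  have h := cst_eC (ℓ := ℓ) hN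
  funext i
  fin_cases i
  · rfl
  · change cm _ (cm _ (J 1)) = J 1
    linear_combination (J 1) * h
  · change cm _ (cm _ (J 2 - cm _ (J 1))) + cm _ (cm _ (J 1)) = J 2
    simp only [cm, map_mul, map_pow]
    linear_combination ((Wi.cst (om ℓ) (eC R X0 X) * Wi.cst (om ℓ) (iv (eC R X0 X)) + 1) * (J 2 -
      Wi.cst (om ℓ) (kC R X0 X) * Wi.cst (om ℓ) (iv (eC R X0 X)) * J 1)) * h
  · rfl
  · change cm _ (cm _ (J 4)) = J 4
    linear_combination (J 4) * h
  · rfl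

theorem inB_ofB (hB : Bs R K g g' X0 a0 ν) (hN : Nr R X0 a0 δ A X a) {J : Jt ℓ}
    (h : InB R K g g' X0 a0 M J) : InB R K g g' X0 a0 (12 * M) (ofB R X0 X J) := by
  have hx := fun s => (hB.2 s).x_pos
  have hW := fun s => (hB.2 s).W_pos
  have he := fun s => (hB.2 s).norm_pos
  have hM : 0 ≤ M := h.b3.nonneg (fun _ => one_pos) hW
  have hi := norm_iv_eC hN
  have p1 : ∀ s : II, 0 < (xr R X0 s)⁻¹ := fun s => inv_pos.2 (hx s)
  have p1' : ∀ s : II, 0 < W g g' a0 (xr R X0 s) / (xr R X0 s * ‖et a0 (xr R X0 s)‖) := fun s =>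
    div_pos (hW s) (mul_pos (hx s) (he s))
  have p2 : ∀ s : II, 0 < W g g' a0 (xr R X0 s) / ‖et a0 (xr R X0 s)‖ := fun s =>
    div_pos (hW s) (he s)
  have p4 : ∀ s : II, 0 < xr R X0 s * W g g' a0 (xr R X0 s) := fun s => mul_pos (hx s) (hW s)
  have hk : ∀ s : II, ‖(kC R X0 X * iv (eC R X0 X)) s‖ ≤ 2 * xr R X0 s := fun s => by
    rw [ContinuousMap.mul_apply, norm_mul, mul_comm 2]
    exact mul_le_mul (hN s).n7.le (hi s) (norm_nonneg _) (hx s).le
  have hi2 : ∀ s : II, ‖(iv (eC R X0 X) ^ 2) s‖ ≤ 4 := fun s => by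
    rw [ContinuousMap.pow_apply, norm_pow]
    exact (pow_le_pow_left₀ (norm_nonneg _) (hi s) 2).trans (by norm_num)
  refine ⟨h.b0.mono (by linarith), ?_, ?_, h.b3.mono (by linarith), ?_, h.b5.mono (by linarith)⟩
  · exact (h.b1.cm p1 p1' (φ := iv (eC R X0 X)) zero_le_two
      (Or.inr fun s => mul_le_mul_of_nonneg_right (hi s) (p1 s).le)
      fun s => mul_le_mul_of_nonneg_right (hi s) (p1' s).le).mono (by linarith)
  · have h1 : WB R X0 (fun _ => 1) (fun x => W g g' a0 x / ‖et a0 x‖)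
        (cm (kC R X0 X * iv (eC R X0 X)) (J 1)) (2 * M) := by
      refine h.b1.cm p1 p1' zero_le_two (Or.inr fun s => ?_) fun s => ?_
      · refine (mul_le_mul_of_nonneg_right (hk s) (p1 s).le).trans_eq ?_
        have := (hx s).ne'
        field_simp
      · refine (mul_le_mul_of_nonneg_right (hk s) (p1' s).le).trans_eq ?_
        have := (hx s).ne'
        have := (he s).ne'
        field_simp
    exact ((h.b2.sub h1).cm (fun _ => one_pos) p2 (φ := iv (eC R X0 X) ^ 2) zero_le_four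
      (Or.inr fun s => mul_le_mul_of_nonneg_right (hi2 s) zero_le_one)
      fun s => mul_le_mul_of_nonneg_right (hi2 s) (p2 s).le).mono (by linarith)
  · exact (h.b4.cm (fun _ => one_pos) p4 (φ := iv (eC R X0 X)) zero_le_two
      (Or.inr fun s => mul_le_mul_of_nonneg_right (hi s) zero_le_one)
      fun s => mul_le_mul_of_nonneg_right (hi s) (p4 s).le).mono (by linarith)

theorem dn_datB (hB : Bs R K g g' X0 a0 ν) (hN : Nr R X0 a0 δ A X a) (D : Dat ℓ) :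
    dn R g g' X0 a0 (datB R X0 X D) ≤ 2 * dn R g g' X0 a0 D := by
  have h0 := hB.2 i0
  have h1 := hB.2 i1
  rw [xr_i0] at h0
  rw [xr_i1] at h1
  have he := (hN i1).n6.le
  have hd := mul_pos h1.W_pos h1.re_pos
  have hX := h1.x_pos
  have hR := mul_nonneg (Real.rpow_nonneg h0.x_pos.le g) (norm_nonneg D.1)
  have e : eC R X0 X i1 • D.2.1 - Wi.single _ 0 (Wi.co (eC R X0 X i1 • D.2.1) 0) =
      eC R X0 X i1 • (D.2.1 - Wi.single _ 0 (Wi.co D.2.1 0)) := by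
    rw [smul_sub, Wi.co_smul, ← Wi.cst_apply, ← Wi.cst_apply, map_smul]
  simp only [dn, datB]
  rw [e, Wi.co_smul, norm_smul, norm_smul]
  have a1 := norm_nonneg (Wi.co D.2.1 0)
  have a2 := norm_nonneg (D.2.1 - Wi.single _ 0 (Wi.co D.2.1 0))
  have a3 := norm_nonneg D.2.2.1
  have a4 := norm_nonneg D.2.2.2
  have b1 := mul_le_mul_of_nonneg_left (mul_le_mul_of_nonneg_right he a1) hX.le
  have b2 := mul_le_mul_of_nonneg_left (mul_le_mul_of_nonneg_right he a2) hX.le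
  have b3 := div_le_div_of_nonneg_right (c := W g g' a0 X0 * (et a0 X0).re)
    (show X0 * (‖eC R X0 X i1‖ * ‖D.2.1 - Wi.single _ 0 (Wi.co D.2.1 0)‖) + ‖D.2.2.1‖ + ‖D.2.2.2‖ ≤
      2 * (X0 * ‖D.2.1 - Wi.single _ 0 (Wi.co D.2.1 0)‖ + ‖D.2.2.1‖ + ‖D.2.2.2‖) by linarith) hd.le
  rw [mul_div_assoc] at b3
  linarith

theorem co_to1 (J : Jt ℓ) (m : ℤ) : Wi.co (toB R X0 X J 1) m = eC R X0 X * Wi.co (J 1) m :=
  Wi.co_cst_mul _ _ _

theorem co_to2 (J : Jt ℓ) (m : ℤ) : Wi.co (toB R X0 X J 2) m =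
    eC R X0 X ^ 2 * Wi.co (J 2) m + kC R X0 X * Wi.co (J 1) m := by
  change Wi.co (cm _ (J 2) + cm _ (J 1)) m = _
  rw [Wi.co_add, Wi.co_cst_mul, Wi.co_cst_mul]

theorem co_to4 (J : Jt ℓ) (m : ℤ) : Wi.co (toB R X0 X J 4) m = eC R X0 X * Wi.co (J 4) m :=
  Wi.co_cst_mul _ _ _

theorem isJet_toB (h : R + 2 ≤ X0) (hN : Nr R X0 a0 δ A X a) (J : Jt ℓ) :
    IsJet (dgam R X) J ↔ IsJet (dgam R X0) (toB R X0 X J) := by
  have hu := eC_mul_iv hN
  constructor
  · intro j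
    refine ⟨fun m => ?_, fun m => ?_, j.t0, fun m => ?_, j.t2⟩
    · exact (j.d0 m).congr (by rw [co_to1, dgam_eC h X, mul_assoc])
    · rw [co_to1, co_to2]
      exact ((der_eC h X).mul (j.d1 m)).congr (by rw [dgam_eC h X]; ring)
    · rw [co_to4, co_to1, j.t1, mul_smul_comm]
  · intro j
    refine ⟨fun m => ?_, fun m => ?_, j.t0, fun m => ?_, j.t2⟩
    · exact (j.d0 m).congr (by rw [co_to1, dgam_eC h X, mul_assoc])
    · have h1 := (der_iv (der_eC h X) (eC_ne hN)).mul (j.d1 m)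
      rw [co_to1, co_to2, ← mul_assoc, mul_comm (iv _), hu, one_mul] at h1
      refine h1.congr ?_
      rw [dgam_eC h X]
      linear_combination (dgam R X0 * (eC R X0 X * Wi.co (J 2) m -
        kC R X0 X * iv (eC R X0 X) * Wi.co (J 1) m)) * hu
    · have h1 := j.t1 m
      rw [co_to4, co_to1, ← mul_smul_comm] at h1
      exact (unit_of_ne (eC_ne hN)).mul_left_cancel h1

theorem bc_toB (hN : Nr R X0 a0 δ A X a) (D : Dat ℓ) (J : Jt ℓ) :
    BC D J ↔ BC (datB R X0 X D) (toB R X0 X J) := by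
  have e : ∀ m, Wi.co (toB R X0 X J 1) m i1 = Wi.co (datB R X0 X D).2.1 m ↔
      Wi.co (J 1) m i1 = Wi.co D.2.1 m := fun m => by
    rw [co_to1, ContinuousMap.mul_apply, datB, Wi.co_smul, smul_eq_mul,
      mul_right_inj' (eC_ne hN i1)]
  exact ⟨fun b => ⟨b.inner, fun m => (e m).2 (b.slope m), b.far0, b.farp, b.farm⟩,
    fun b => ⟨b.inner, fun m => (e m).1 (b.slope m), b.far0, b.farp, b.farm⟩⟩

end Crest.Agent.N250.B1.Cv

end
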