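import Crest.Agent.N250.B1.EndCv0
import Crest.Agent.N250.B1.EndCv1

/-!
# Row 250, B1 (helper45): `CvS`, the shrinker equation as the base equation with source `src`
-/

set_option autoImplicit false
set_option linter.unusedSectionVars false
open Set Complex Filter Topology

noncomputable section

namespace Crest.Agent.N250.B1

variable {ℓ : Ell} {R K g g' X0 ν δ A M : ℝ} {a0 X a : ℂ} {J : Jt ℓ}

variable (ℓ) in
/-- evaluation at a point of the cylinder -/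
def evP (s : II) (θ : ℝ) : Wi (om ℓ) →ₐ[ℂ] ℂ :=
  (ContinuousMap.evalAlgHom ℂ ℂ s).comp (Wi.ev (om ℓ) θ).toAlgHom

theorem evP_apply (s : II) (θ : ℝ) (u : Wi (om ℓ)) : evP ℓ s θ u = val u s θ := rfl

theorem evP_cst (s : II) (θ : ℝ) (φ : CI) : evP ℓ s θ (Wi.cst _ φ) = φ s := by
  rw [evP_apply, val, Wi.syn_cst]

theorem evP_cm (s : II) (θ : ℝ) (φ : CI) (u : Wi (om ℓ)) :
    evP ℓ s θ (cm φ u) = φ s * val u s θ := by rw [map_mul, evP_cst, evP_apply]

theorem val_cm (φ : CI) (u : Wi (om ℓ)) (s : II) (θ : ℝ) : val (cm φ u) s θ = φ s * val u s θ :=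
  evP_cm s θ φ u

theorem ext_val {u v : Wi (om ℓ)} (h : ∀ s θ, val u s θ = val v s θ) : u = v :=
  Wi.ext_syn fun θ => ContinuousMap.ext fun s => h s θ

/-- the linear part of the equation -/
def Lop (R : ℝ) (X a : ℂ) (J : Jt ℓ) : Wi (om ℓ) :=
  J 2 - cm ((1 / 2 : ℂ) • gam R X) (J 1) + J 0 + cm ((1 / 2 : ℂ) • iv (etC R X a)) (J 5)

/-- the Euler–Lagrange expression is `Lop - GJ` -/
theorem EL_eq (hx : ∀ s, gam R X s ≠ 0) (hη : ∀ s, etC R X a s ≠ 0)
    (h1 : IsUnit (1 + cm (iv (etC R X a)) (J 0)))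
    (h2 : IsUnit (1 + Nl.Qm (cm (iv (etC R X a)) (J 0)) (cm (iv (etC R X a)) (J 3))
      (Wi.cst _ (a • gam R X ^ 2) + cm (gam R X) (J 1))
      (Wi.cst _ (iv (gam R X ^ 2 * etC R X a))))) (s : II) (θ : ℝ) :
    Po.EL (gam R X s) (vj R X a J s θ 0) (vj R X a J s θ 1) (vj R X a J s θ 3) (vj R X a J s θ 2)
      (vj R X a J s θ 4) (vj R X a J s θ 5) = val (Lop R X a J - GJ R X a J) s θ := by
  have hη' : et a (gam R X s) ≠ 0 := by rw [← etC_apply]; exact hη s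
  have hx' := hx s
  have i1 : iv (etC R X a) s = (et a (gam R X s))⁻¹ := by rw [iv_apply hη, etC_apply]
  have i2 : iv (gam R X * etC R X a) s = (gam R X s * et a (gam R X s))⁻¹ := by
    rw [iv_apply fun s => mul_ne_zero (hx s) (hη s), ContinuousMap.mul_apply, etC_apply]
  have i3 : iv (gam R X ^ 2 * etC R X a) s = 1 / (gam R X s ^ 2 * et a (gam R X s)) := by
    rw [iv_apply fun s => mul_ne_zero (pow_ne_zero 2 (hx s)) (hη s), ContinuousMap.mul_apply,
      ContinuousMap.pow_apply, etC_apply, one_div]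
  have e0 : ∀ u : Wi (om ℓ), evP ℓ s θ (cm (iv (etC R X a)) u) = val u s θ / et a (gam R X s) :=
    fun u => by rw [evP_cm, i1, div_eq_inv_mul]
  have e1 : evP ℓ s θ (Wi.cst _ (a • gam R X ^ 2) + cm (gam R X) (J 1)) =
      gam R X s * (a * gam R X s + val (J 1) s θ) := by
    rw [map_add, evP_cst, evP_cm, ContinuousMap.smul_apply, ContinuousMap.pow_apply, smul_eq_mul]
    ring
  have e2 : evP ℓ s θ (cm (iv (gam R X * etC R X a)) (J 4)) =
      val (J 4) s θ / (gam R X s * et a (gam R X s)) := by rw [evP_cm, i2, div_eq_inv_mul]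
  have e3 : evP ℓ s θ (Wi.cst _ (cst a) + J 2) = a + val (J 2) s θ := by
    rw [map_add, evP_cst, cst_apply, evP_apply]
  have hv : et a (gam R X s) + val (J 0) s θ ≠ 0 := by
    have := (h1.map (evP ℓ s θ)).ne_zero
    rw [map_add, map_one, e0] at this
    intro h0
    apply this
    field_simp
    rw [h0, mul_zero]
  have hQ : Po.QQ (et a (gam R X s) + val (J 0) s θ) (a * gam R X s + val (J 1) s θ)
      (val (J 3) s θ) ≠ 0 := by
    have := (h2.map (evP ℓ s θ)).ne_zero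
    rw [map_add, map_one, Nl.map_Qm _ h1, e0, e0, e1, evP_cst, i3, Nl.Qm_C hx' hη' hv] at this
    exact fun h0 => this (by rw [Po.QQ] at h0; rw [h0, zero_div])
  rw [← evP_apply s θ (Lop R X a J - GJ R X a J), map_sub, GJ, Nl.map_G _ _ _ _ h1 h2, e0, e0, e0, e1,
    e2, e3, evP_cst, i3, Nl.G_C hx' hη' hv hQ rfl rfl rfl rfl, Lop, map_add, map_add, map_sub, evP_cm,
    evP_cm, evP_apply, evP_apply]
  simp only [vj, Po.EL, Matrix.cons_val, ContinuousMap.smul_apply, smul_eq_mul, i1]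
  rw [div_eq_mul_inv (val (J 5) s θ) (2 * et a (gam R X s)), mul_inv]
  have : et a (gam R X s) = 1 + a * (gam R X s ^ 2 - 2) / 2 := rfl
  linear_combination this

theorem eq_iff (hx : ∀ s, gam R X s ≠ 0) (hη : ∀ s, etC R X a s ≠ 0)
    (h1 : IsUnit (1 + cm (iv (etC R X a)) (J 0)))
    (h2 : IsUnit (1 + Nl.Qm (cm (iv (etC R X a)) (J 0)) (cm (iv (etC R X a)) (J 3))
      (Wi.cst _ (a • gam R X ^ 2) + cm (gam R X) (J 1))
      (Wi.cst _ (iv (gam R X ^ 2 * etC R X a))))) :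
    (∀ s θ, Po.EL (gam R X s) (vj R X a J s θ 0) (vj R X a J s θ 1) (vj R X a J s θ 3)
      (vj R X a J s θ 2) (vj R X a J s θ 4) (vj R X a J s θ 5) = 0) ↔
      Lop R X a J = GJ R X a J := by
  simp only [EL_eq hx hη h1 h2]
  rw [← sub_eq_zero (a := Lop R X a J)]
  exact ⟨fun h => ext_val fun s θ => by rw [h, ← evP_apply, map_zero],
    fun h s θ => by rw [h, ← evP_apply, map_zero]⟩

theorem co_Lop {c : CI} (hη : ∀ s, etC R X a s ≠ 0) (hJ : IsJet c J) (m : ℤ) (s : II) :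
    Wi.co (Lop R X a J) m s = Wi.co (J 2) m s - gam R X s / 2 * Wi.co (J 1) m s -
      ((m : ℂ) ^ 2 / (2 * et a (gam R X s)) - 1) * Wi.co (J 0) m s := by
  simp only [Lop, Wi.co_add, Wi.co_sub, Wi.co_cst_mul, hJ.t2, ContinuousMap.add_apply,
    ContinuousMap.sub_apply, ContinuousMap.mul_apply, ContinuousMap.smul_apply, smul_eq_mul,
    iv_apply hη, etC_apply]
  rw [div_eq_mul_inv _ (2 * _), mul_inv]
  ring

/-- the linear problem in the algebra -/
theorem lin_iff (hη : ∀ s, etC R X0 a0 s ≠ 0) (G : Wi (om ℓ)) :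
    Lin R X0 a0 J G ↔ IsJet (dgam R X0) J ∧ Lop R X0 a0 J = G := by
  refine and_congr_right fun hJ => ⟨fun h => Wi.ext fun m => ContinuousMap.ext fun s => ?_,
    fun h m s => ?_⟩
  · rw [co_Lop hη hJ, h]
  · rw [← h, co_Lop hη hJ]

theorem Lop_toB (R X0 : ℝ) (a0 X a : ℂ) (J : Jt ℓ) :
    Lop R X0 a0 (toB R X0 X J) - src R X0 a0 X a J =
      cm (eC R X0 X ^ 2) (Lop R X a J - GJ R X a J) := by
  have hs : ∀ f : CI, (1 / 2 : ℂ) • f = cst (1 / 2) * f := fun f => by ext s; simp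
  simp only [Lop, toB, src, cm, Matrix.cons_val, hs, map_add, map_sub, map_mul, map_pow, map_one]
  ring

theorem Lop_toB_iff (he : ∀ s, eC R X0 X s ≠ 0) :
    Lop R X0 a0 (toB R X0 X J) = src R X0 a0 X a J ↔ Lop R X a J = GJ R X a J := by
  rw [← sub_eq_zero, Lop_toB, ((unit_of_ne he).pow 2 |>.map (Wi.cst (om ℓ))).mul_right_eq_zero,
    sub_eq_zero]

/-- solutions in the ball solve the equation in the algebra -/
theorem sol_iff {z : Par ℓ} (hb : Bs R K g g' X0 a0 ν) (h : Nr R X0 a0 δ A z.1 z.2.1)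
    (hν : ν ≤ 1 / 1000) (hJ : InB R K g g' X0 a0 M J) (hM : 32 * M ≤ 1) :
    Sol R z J ↔ IsJet (dgam R z.1) J ∧ BC z.2.2 J ∧ Lop R z.1 z.2.1 J = GJ R z.1 z.2.1 J := by
  have key : IsJet (dgam R z.1) J → _ := fun hj =>
    eq_iff (h.gam_ne hb) (h.etC_ne hb) (unitsJ hb h hν hJ hM hj.co3).1
      (unitsJ hb h hν hJ hM hj.co3).2
  exact ⟨fun hs => ⟨hs.jet, hs.bc, (key hs.jet).1 hs.eq⟩,
    fun hs => ⟨hs.1, hs.2.1, (key hs.1).2 hs.2.2⟩⟩

theorem cvS_holds : CvS := by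
  intro ℓ R K g g' X0 a0 ν δ A z hb h hν
  refine ⟨fun J => ⟨Cv.of_to h J, Cv.to_of h J⟩, fun J M hJ => Cv.inB_ofB hb h hJ,
    fun D => Cv.dn_datB hb h D, fun J M hJ hM => ?_⟩
  rw [sol_iff hb h hν hJ hM, lin_iff hb.etC_ne, Lop_toB_iff h.eC_ne, ← Cv.isJet_toB hb.1 h J,
    ← Cv.bc_toB h z.2.2 J]
  tauto

end Crest.Agent.N250.B1

end
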