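import Crest.Agent.N250.B1.Ex
import Crest.Agent.N250.B1.Bar

/-!
Row 250, helper75 (S2).  Low modes on a real interval: a priori estimate for
`w'' = B w' + V w + g` from data at the right end point, through `q = w' - l w`.
-/

set_option autoImplicit false

open Set Filter Topology

namespace Crest.Agent.N250.B1

variable {a b : ℝ}

lemma Dv.left {F : Type*} [NormedAddCommGroup F] [NormedSpace ℝ F] {w w1 : ℝ → F}
    (h : Dv a b w w1) {t : ℝ} (ht : t ∈ Ioc a b) : HasDerivWithinAt w (w1 t) (Iic t) t :=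
  (h t (Ioc_subset_Icc_self ht)).mono_of_mem_nhdsWithin (Icc_mem_nhdsLE_of_mem ht)

lemma Dv.right {F : Type*} [NormedAddCommGroup F] [NormedSpace ℝ F] {w w1 : ℝ → F}
    (h : Dv a b w w1) {t : ℝ} (ht : t ∈ Ico a b) : HasDerivWithinAt w (w1 t) (Ici t) t :=
  (h t (Ico_subset_Icc_self ht)).mono_of_mem_nhdsWithin (Icc_mem_nhdsGE_of_mem ht)

/-- non strict backward barrier -/
theorem Dv.back {y G β : ℝ → ℂ} {Ω Ω1 γ : ℝ → ℝ} {M : ℝ} (hβ : ContinuousOn β (Icc a b))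
    (hy : Dv a b y fun x => β x * y x + G x) (hΩ : Dv a b Ω Ω1) (hM : 0 ≤ M)
    (hsup : ∀ x ∈ Icc a b, γ x + Ω1 x ≤ (β x).re * Ω x)
    (hG : ∀ x ∈ Icc a b, ‖G x‖ ≤ M * γ x) (hb : ‖y b‖ ≤ M * Ω b) :
    ∀ x ∈ Icc a b, ‖y x‖ ≤ M * Ω x :=
  bar_bwd (w := fun x => M * Ω x) (w' := fun x => M * Ω1 x) hβ hy.cont (fun _ ht => hy.left ht)
    (continuousOn_const.mul hΩ.cont) (fun _ ht => (hΩ.left ht).const_mul M) hb (fun t ht => by
      have h1 := mul_le_mul_of_nonneg_left (hsup t (Ioc_subset_Icc_self ht)) hM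
      have h2 := hG t (Ioc_subset_Icc_self ht)
      nlinarith)

/-- non strict forward barrier -/
theorem Dv.fwd {y G β : ℝ → ℂ} {Ω Ω1 γ : ℝ → ℝ} {M : ℝ} (hβ : ContinuousOn β (Icc a b))
    (hy : Dv a b y fun x => β x * y x + G x) (hΩ : Dv a b Ω Ω1) (hM : 0 ≤ M)
    (hsup : ∀ x ∈ Icc a b, γ x + (β x).re * Ω x ≤ Ω1 x)
    (hG : ∀ x ∈ Icc a b, ‖G x‖ ≤ M * γ x) (ha : ‖y a‖ ≤ M * Ω a) :
    ∀ x ∈ Icc a b, ‖y x‖ ≤ M * Ω x :=
  bar_fwd (w := fun x => M * Ω x) (w' := fun x => M * Ω1 x) hβ hy.cont (fun _ ht => hy.right ht)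
    (continuousOn_const.mul hΩ.cont) (fun _ ht => (hΩ.right ht).const_mul M) ha (fun t ht => by
      have h1 := mul_le_mul_of_nonneg_left (hsup t (Ico_subset_Icc_self ht)) hM
      have h2 := hG t (Ico_subset_Icc_self ht)
      nlinarith)

/-- barriers for a low mode: approximate slow exponent `l` (`l' = l1`), source weight `Γ`,
weight `Θ` of `w' - l w`, weight `Ω` of `w`; the residual is at most `Γ / (2 Ω)` -/
structure LoB (a b : ℝ) (B V l l1 : ℝ → ℂ) (Γ Θ Θ1 Ω Ω1 : ℝ → ℝ) : Prop where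
  cB : ContinuousOn B (Icc a b)
  dl : Dv a b l l1
  dΘ : Dv a b Θ Θ1
  dΩ : Dv a b Ω Ω1
  pos : ∀ x ∈ Icc a b, 0 < Ω x
  nn : 0 ≤ Θ b
  bq : ∀ x ∈ Icc a b, Γ x + Θ1 x ≤ (B x - l x).re * Θ x
  bw : ∀ x ∈ Icc a b, Θ x + Ω1 x ≤ (l x).re * Ω x
  res : ∀ x ∈ Icc a b, 2 * (‖V x - (l1 x + l x * l x - B x * l x)‖ * Ω x) ≤ Γ x

/-- **a priori estimate for the low modes** -/
theorem LoB.le {B V l l1 : ℝ → ℂ} {Γ Θ Θ1 Ω Ω1 : ℝ → ℝ} (h : LoB a b B V l l1 Γ Θ Θ1 Ω Ω1)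
    {g w w1 : ℝ → ℂ} (hs : Sol2 a b B V g w w1) {M : ℝ} (hM : 0 ≤ M)
    (hg : ∀ x ∈ Icc a b, ‖g x‖ ≤ M * Γ x) (h0 : ‖w b‖ ≤ 2 * M * Ω b)
    (h1 : ‖w1 b - l b * w b‖ ≤ 2 * M * Θ b) :
    ∀ x ∈ Icc a b, ‖w x‖ ≤ 2 * M * Ω x ∧ ‖w1 x - l x * w x‖ ≤ 2 * M * Θ x := by
  intro x hx
  have hab : a ≤ b := hx.1.trans hx.2
  have step : ∀ N : ℝ, 2 * M ≤ N → (∀ x ∈ Icc a b, ‖w x‖ ≤ N * Ω x) → ∀ N' : ℝ,
      2 * M ≤ N' → M + N / 2 ≤ N' → ∀ x ∈ Icc a b,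
        ‖w x‖ ≤ N' * Ω x ∧ ‖w1 x - l x * w x‖ ≤ N' * Θ x := by
    intro N hN hw N' hN' hN''
    have hb : b ∈ Icc a b := right_mem_Icc.2 hab
    have hΓ : ∀ x ∈ Icc a b, 0 ≤ Γ x := fun x hx =>
      le_trans (by have := h.pos x hx; positivity) (h.res x hx)
    have hq : Dv a b (fun x => w1 x - l x * w x) fun x => (B x - l x) * (w1 x - l x * w x) +
        (g x + (V x - (l1 x + l x * l x - B x * l x)) * w x) :=
      (hs.d1.sub (h.dl.mul hs.d0)).congr (fun _ _ => rfl) (fun x _ => by ring)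
    have k0 : ‖w1 b - l b * w b‖ ≤ N' * Θ b := h1.trans (mul_le_mul_of_nonneg_right hN' h.nn)
    have k1 := hq.back (h.cB.sub h.dl.cont) h.dΘ (M := N') (by linarith) h.bq (fun x hx => by
      refine (norm_add_le _ _).trans ?_
      rw [norm_mul]
      have a1 := hg x hx
      have a2 := mul_le_mul_of_nonneg_left (hw x hx)
        (norm_nonneg (V x - (l1 x + l x * l x - B x * l x)))
      have a3 := mul_le_mul_of_nonneg_left (h.res x hx) (show 0 ≤ N by linarith)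
      have a4 := mul_le_mul_of_nonneg_right hN'' (hΓ x hx)
      nlinarith) k0
    have hw' : Dv a b w fun x => l x * w x + (w1 x - l x * w x) :=
      hs.d0.congr (fun _ _ => rfl) (fun x _ => by ring)
    have k2 := hw'.back h.dl.cont h.dΩ (M := N') (by linarith) h.bw k1
      (h0.trans (by have := h.pos b hb; nlinarith))
    exact fun x hx => ⟨k2 x hx, k1 x hx⟩
  obtain ⟨x0, hx0, N, -, -, e1, -, hle, -⟩ := exists_max_quot hab hs.d0.cont h.dΩ.cont h.pos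
  have hN : N ≤ 2 * M := by
    by_contra hN
    push Not at hN
    have := (step N hN.le hle (M + N / 2) (by linarith) le_rfl x0 hx0).1
    rw [e1] at this
    have := h.pos x0 hx0
    nlinarith
  exact step (2 * M) le_rfl (fun y hy => (hle y hy).trans
    (mul_le_mul_of_nonneg_right hN (h.pos y hy).le)) (2 * M) le_rfl (by linarith) x hx

end Crest.Agent.N250.B1
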