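import Crest.Agent.N250.B1.Sys

/-! # Row 250, block B1 (S1): Neumann far end with a decreasing barrier; the Gaussian barrier -/

set_option autoImplicit false

open Set Filter Topology

namespace Crest.Agent.N250.B1

variable {a b : ℝ}

/-- the layer factor `exp(-k (X² - x²))` -/
noncomputable def lay (k X x : ℝ) : ℝ := Real.exp (-k * (X ^ 2 - x ^ 2))

lemma lay_pos (k X x : ℝ) : 0 < lay k X x := Real.exp_pos _

@[simp] lemma lay_self (k X : ℝ) : lay k X X = 1 := by simp [lay]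

lemma lay_le_one {k X x : ℝ} (hk : 0 ≤ k) (h : x ^ 2 ≤ X ^ 2) : lay k X x ≤ 1 :=
  Real.exp_le_one_iff.2 (by nlinarith)

lemma Dv.lay {x c : ℝ → ℝ} (hx : Dv a b x c) (k X : ℝ) :
    Dv a b (fun s => lay k X (x s)) fun s => c s * (2 * k * x s * lay k X (x s)) := fun s hs => by
  have h := ((((hx s hs).fun_pow 2).const_sub (X ^ 2)).const_mul (-k)).exp
  refine h.congr_deriv ?_
  simp only [B1.lay]
  norm_num
  ring

lemma Dv.rmul {w w1 u u1 : ℝ → ℝ} (h : Dv a b w w1) (k : Dv a b u u1) :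
    Dv a b (fun x => w x * u x) (fun x => w1 x * u x + w x * u1 x) :=
  fun x hx => (h x hx).mul (k x hx)

/-- A barrier `W` for the drift `x/2` times `1 + exp(-(X² - x²)/8)` is again a barrier, and it
increases at the far end `x = X` as soon as `-2 W1 < W X/4`. -/
theorem BarS.boost {c x W W1 W2 γ : ℝ → ℝ} {V : ℝ → ℂ}
    (h : BarS a b c (fun s => x s / 2) V W W1 W2 γ) (hx : Dv a b x c) (X : ℝ)
    (hW : ∀ s ∈ Icc a b, x s * W1 s / 2 ≤ (x s ^ 2 / 16 - 1 / 4) * W s) :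
    BarS a b c (fun s => x s / 2) V (fun s => W s * (1 + lay (1 / 8) X (x s)))
      (fun s => W1 s * (1 + lay (1 / 8) X (x s)) + W s * (x s / 4 * lay (1 / 8) X (x s)))
      (fun s => W2 s * (1 + lay (1 / 8) X (x s)) + 2 * W1 s * (x s / 4 * lay (1 / 8) X (x s)) +
        W s * ((1 / 4 + x s ^ 2 / 16) * lay (1 / 8) X (x s))) γ := by
  have h1 : Dv a b (fun s => 1 + lay (1 / 8) X (x s))
      fun s => c s * (x s / 4 * lay (1 / 8) X (x s)) := fun s hs => by
    refine ((hx.lay (1 / 8) X s hs).const_add 1).congr_deriv ?_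
    beta_reduce; ring
  have h2 : Dv a b (fun s => x s / 4 * lay (1 / 8) X (x s))
      fun s => c s * ((1 / 4 + x s ^ 2 / 16) * lay (1 / 8) X (x s)) := fun s hs => by
    refine (((hx s hs).div_const 4).mul (hx.lay (1 / 8) X s hs)).congr_deriv ?_
    beta_reduce; ring
  refine ⟨h.lt, h.cpos, (h.d0.rmul h1).congr (fun _ _ => rfl) fun _ _ => by ring,
    ((h.d1.rmul h1).add (h.d0.rmul h2)).congr (fun _ _ => rfl) fun _ _ => by ring,
    fun s hs => mul_pos (h.pos s hs) (by linarith [lay_pos (1 / 8) X (x s)]), h.γpos,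
    fun s hs => ?_⟩
  have h3 := h.sup s hs
  have h4 := hW s hs
  have h5 := lay_pos (1 / 8) X (x s)
  have h6 := h.γpos s hs
  set φ := lay (1 / 8) X (x s)
  have h7 := mul_le_mul_of_nonneg_right h3 h5.le
  have h8 := mul_le_mul_of_nonneg_right h4 h5.le
  nlinarith [mul_pos h6 h5]

/-- **Neumann far end.** `W` any barrier with `|x W1| ≤ (x²/16 - 1/2) W`-type bounds:
`‖w‖ ≤ 2 M W`. -/
theorem BarS.le_neu {c x W W1 W2 γ : ℝ → ℝ} {V g w p : ℝ → ℂ} {M : ℝ}
    (h : BarS a b c (fun s => x s / 2) V W W1 W2 γ) (hx : Dv a b x c)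
    (hxb : ∀ s ∈ Icc a b, x s ^ 2 ≤ x b ^ 2) (hb0 : 0 < x b)
    (hW : ∀ s ∈ Icc a b, x s * W1 s / 2 ≤ (x s ^ 2 / 16 - 1 / 4) * W s)
    (hWb : -(x b * W b / 16) ≤ W1 b)
    (s : Sys a b (fun t => c t) (fun t => ((x t / 2 : ℝ) : ℂ)) V g w p)
    (hg : ∀ t ∈ Icc a b, ‖g t‖ ≤ M * γ t) (ha : ‖w a‖ ≤ M * W a)
    (hb : ‖p b‖ ≤ M * (x b * W b / 8)) : ∀ t ∈ Icc a b, ‖w t‖ ≤ 2 * M * W t := by
  have hb' := right_mem_Icc.2 h.lt.le
  have ha' := left_mem_Icc.2 h.lt.le
  have hM : 0 ≤ M := nonneg_of_mul_nonneg_left ((norm_nonneg _).trans ha) (h.pos a ha')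
  have hWp := h.pos b hb'
  have key := (h.boost hx (x b) hW).le (κ := 0) (δ := x b * W b / 8) (M := M) (by positivity)
    (by simp only [lay_self, Complex.zero_re]; nlinarith) s hg
    (ha.trans (mul_le_mul_of_nonneg_left (le_mul_of_one_le_right (h.pos a ha').le
      (by linarith [lay_pos (1 / 8) (x b) (x a)])) hM)) (by simpa using hb)
  intro t ht
  refine (key t ht).trans ?_
  have h1 := lay_le_one (k := 1 / 8) (by norm_num) (hxb t ht)
  have h2 := mul_nonneg hM (h.pos t ht).le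
  nlinarith

/-- The Gaussian barrier `exp(-k (X² - x²))`, `0 < k < 1/4`, for the drift `x/2` and any potential
with `re V ≥ -A`: margin `(k (1 - 4k) x² - 2k - A + (re V + A))`. -/
theorem barS_lay {c x : ℝ → ℝ} {V : ℝ → ℂ} (hab : a < b) (hc : ∀ s ∈ Icc a b, 0 < c s)
    (hx : Dv a b x c) (k X : ℝ)
    (hpos : ∀ s ∈ Icc a b, 0 < k * (1 - 4 * k) * x s ^ 2 - 2 * k + (V s).re) :
    BarS a b c (fun s => x s / 2) V (fun s => lay k X (x s))
      (fun s => 2 * k * x s * lay k X (x s))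
      (fun s => (2 * k + 4 * k ^ 2 * x s ^ 2) * lay k X (x s))
      fun s => (k * (1 - 4 * k) * x s ^ 2 - 2 * k + (V s).re) * lay k X (x s) := by
  refine ⟨hab, hc, hx.lay k X, fun s hs => ?_, fun s _ => lay_pos _ _ _,
    fun s hs => mul_pos (hpos s hs) (lay_pos _ _ _), fun s _ => le_of_eq (by ring)⟩
  refine (((hx s hs).const_mul (2 * k)).mul (hx.lay k X s hs)).congr_deriv ?_
  beta_reduce; ring

end Crest.Agent.N250.B1
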