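import Crest.Agent.N250.B1.Lin3
import Crest.Agent.N250.B1.Low
import Crest.Agent.N250.B1.Neu

/-!
# Row 250, B1 (helper15): one mode in the weak weight `x^γ`, far from the tip
-/

set_option autoImplicit false

open Set Filter Topology

noncomputable section

namespace Crest.Agent.N250.B1

/-- the weak weight of a mode with symbol value `t` -/
def Ww (γ R t x : ℝ) : ℝ := x ^ γ * Real.exp (-(sig (x - R) * t))

namespace Wk

theorem ld_rpow {R X : ℝ} (γ : ℝ) (hR : 0 < R) : LD R X (fun x => x ^ γ) fun x => γ / x :=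
  ⟨fun x hx => Real.rpow_pos_of_pos (hR.trans_le hx.1) _, fun x hx => by
    have h0 := hR.trans_le hx.1
    refine (Real.hasDerivAt_rpow_const (p := γ) (Or.inl h0.ne')).hasDerivWithinAt.congr_deriv ?_
    rw [Real.rpow_sub_one h0.ne']
    field_simp⟩

theorem hd_max (n : ℕ) (R x : ℝ) : HasDerivAt (fun x => max (1 - (x - R)) 0 ^ (n + 2))
    (-((n + 2 : ℕ) * max (1 - (x - R)) 0 ^ (n + 1))) x := by
  have h1 : HasDerivAt (fun x : ℝ => 1 - (x - R)) (-1) x := by
    simpa using ((hasDerivAt_id x).sub_const R).const_sub 1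
  exact ((hasDerivAt_posPow n _).comp x h1).congr_deriv (by ring)

theorem ld_Ww {R X : ℝ} (γ t : ℝ) (hR : 0 < R) :
    LD R X (Ww γ R t) fun x => γ / x - 3 * max (1 - (x - R)) 0 ^ 2 * t := by
  have h : LD R X (fun x => Real.exp (-(sig (x - R) * t)))
      fun x => -(3 * max (1 - (x - R)) 0 ^ 2 * t) :=
    ⟨fun _ _ => Real.exp_pos _, fun x _ => by
      refine ((((hd_max 1 R x).const_sub 1).mul_const t).fun_neg.exp).hasDerivWithinAt.congr_deriv ?_
      simp only [sig]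
      push_cast
      ring⟩
  exact (ld_rpow γ hR).mul h

theorem et_near {R X x : ℝ} {a : ℂ} (hR : 23 ≤ R) (hx : x ∈ Icc R X) (ha : ‖a‖ * X ^ 2 ≤ 1 / 100) :
    ‖et a x - 1‖ ≤ 1 / 200 := by
  have e : et a x - 1 = a * (((x ^ 2 - 2) / 2 : ℝ) : ℂ) := by rw [et]; push_cast; ring
  have h1 : x ^ 2 ≤ X ^ 2 := pow_le_pow_left₀ (by linarith [hx.1]) hx.2 2
  rw [e, norm_mul, Complex.norm_real, Real.norm_of_nonneg (by nlinarith [hx.1])]
  nlinarith [norm_nonneg a]

theorem inv_near {z : ℂ} (h : ‖z - 1‖ ≤ 1 / 200) : z ≠ 0 ∧ ‖z⁻¹ - 1‖ ≤ 1 / 128 := by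
  have h1 : 199 / 200 ≤ ‖z‖ := by
    have := norm_sub_norm_le (1 : ℂ) z
    rw [norm_one, norm_sub_rev] at this
    linarith
  have h0 : z ≠ 0 := norm_pos_iff.1 (by linarith)
  refine ⟨h0, ?_⟩
  rw [show z⁻¹ - 1 = -(z - 1) / z by field_simp; ring, norm_div, norm_neg,
    div_le_iff₀ (by linarith)]
  linarith

/-- high modes -/
theorem high {R X γ t k M : ℝ} {V G w p : ℝ → ℂ} (hR : 23 ≤ R) (hX : R + 2 ≤ X) (h0 : 0 ≤ γ)
    (h1 : γ ≤ 1) (hk : 2 ≤ k) (ht0 : 0 ≤ t) (ht : t ≤ k / (100 * R)) (hM : 0 ≤ M)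
    (hV : ∀ x ∈ Icc R X, 9 / 20 * k ^ 2 - 1 ≤ (V x).re ∧ ‖V x‖ ≤ k ^ 2 + 1)
    (s : Sol2 R X dr V G w p) (hG : ∀ x ∈ Icc R X, ‖G x‖ ≤ M * Ww γ R t x)
    (hw : k ^ 2 * ‖w R‖ ≤ M * Ww γ R t R) (hp : k ^ 2 * ‖p X‖ ≤ M * ((X + k) * Ww γ R t X)) :
    ∀ x ∈ Icc R X, k ^ 2 * ‖w x‖ ≤ 12 * (M * Ww γ R t x) ∧
      k * ‖p x‖ ≤ 37 * (M * (x * Ww γ R t x)) ∧ ‖V x * w x + G x‖ ≤ 16 * (M * Ww γ R t x) := by
  have hR0 : 0 < R := by linarith
  have hk0 : 0 < k := by linarith
  have hRX : R ≤ X := by linarith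
  have hW := ld_Ww (X := X) γ t hR0
  set W := Ww γ R t with hWd
  set u : ℝ → ℝ := fun x => max (1 - (x - R)) 0 with hu
  set l : ℝ → ℝ := fun x => γ / x - 3 * u x ^ 2 * t with hl
  set l1 : ℝ → ℝ := fun x => -γ / x ^ 2 + 6 * u x * t with hl1
  have dl : Dv R X l l1 := fun x hx => by
    have hx0 : x ≠ 0 := by linarith [hx.1]
    refine (((hasDerivAt_const x γ).fun_div (hasDerivAt_id' x) hx0).fun_sub
      (((hd_max 0 R x).const_mul 3).mul_const t)).hasDerivWithinAt.congr_deriv ?_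
    simp only [hl1, hu]
    push_cast
    ring
  have tR : t * R ≤ k / 100 := by
    rw [le_div_iff₀ (by positivity)] at ht
    linarith
  have bl : ∀ x ∈ Icc R X, l x ≤ k / 40 ∧ -(k / 100) ≤ l x ∧ l1 x ≤ k / 100 ∧
      -(x / 2 * l x) ≤ 3 * k / 100 := by
    intro x hx
    have hx0 : 0 < x := by linarith [hx.1]
    have u0 : 0 ≤ u x := le_max_right _ _
    have u1 : u x ≤ 1 := max_le (by linarith [hx.1]) zero_le_one
    have u2 : u x ^ 2 ≤ 1 := pow_le_one₀ u0 u1
    have g0 : 0 ≤ γ / x := by positivity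
    have g1 : γ / x ≤ 1 / 20 := by rw [div_le_iff₀ hx0]; linarith [hx.1]
    have t1 : 23 * t ≤ k / 100 := by nlinarith
    have a1 : 0 ≤ u x ^ 2 * t := by positivity
    have a2 : u x ^ 2 * t ≤ t := mul_le_of_le_one_left ht0 u2
    have a3 : u x * t ≤ t := mul_le_of_le_one_left ht0 u1
    have a4 : -γ / x ^ 2 ≤ 0 := div_nonpos_of_nonpos_of_nonneg (by linarith) (sq_nonneg _)
    have a5 : x * (u x ^ 2 * t) ≤ 2 * (t * R) := by
      rcases le_total x (R + 1) with h | h
      · nlinarith [mul_le_mul h a2 a1 (by linarith : 0 ≤ R + 1)]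
      · have : u x = 0 := max_eq_right (by linarith)
        rw [this]
        nlinarith
    have a6 : x / 2 * l x = γ / 2 - 3 / 2 * (x * (u x ^ 2 * t)) := by
      simp only [hl]; field_simp
    refine ⟨?_, ?_, ?_, ?_⟩
    · simp only [hl]; linarith
    · simp only [hl]; linarith
    · simp only [hl1]; linarith
    · rw [a6]; linarith
  set φ : ℝ → ℝ := fun x => Real.exp (-(X ^ 2 - x ^ 2) / 8 - k * (X - x) / 4) with hφ
  have hφ1 : ∀ x ∈ Icc R X, φ x ≤ 1 := fun x hx => Real.exp_le_one_iff.2 (by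
    have := pow_le_pow_left₀ (by linarith [hx.1]) hx.2 2
    have := mul_nonneg hk0.le (sub_nonneg.2 hx.2)
    linarith)
  have lφ : LD R X φ fun x => x / 4 + k / 4 := ⟨fun _ _ => Real.exp_pos _, fun x _ => by
    refine ((((hasDerivAt_pow 2 x).const_sub (X ^ 2)).fun_neg.div_const 8).fun_sub
      ((((hasDerivAt_id' x).const_sub X).const_mul k).div_const 4)).exp.hasDerivWithinAt.congr_deriv ?_
    simp only [hφ]
    push_cast
    ring⟩
  have lWφ := hW.mul lφ
  have dν : Dv R X (fun x => l x + (x / 4 + k / 4)) fun x => l1 x + 1 / 4 :=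
    dl.add fun x _ => (((hasDerivAt_id' x).div_const 4).add_const (k / 4)).hasDerivWithinAt
  have hXm : X ∈ Icc R X := right_mem_Icc.2 hRX
  have hRm : R ∈ Icc R X := left_mem_Icc.2 hRX
  have bar : Bar R X (fun x => x / 2) V 0 (fun x => W x + W x * φ x)
      (fun x => l x * W x + (l x + (x / 4 + k / 4)) * (W x * φ x))
      (fun x => (l1 x * W x + l x * (l x * W x)) + ((l1 x + 1 / 4) * (W x * φ x) +
        (l x + (x / 4 + k / 4)) * ((l x + (x / 4 + k / 4)) * (W x * φ x))))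
      (fun x => k ^ 2 / 6 * W x) ((X + k) * W X / 4) :=
    { lt := by linarith
      d0 := hW.dv.add lWφ.dv
      d1 := (dl.rmul hW.dv).add (dν.rmul lWφ.dv)
      pos := fun x hx => add_pos (hW.pos x hx) (lWφ.pos x hx)
      γpos := fun x hx => mul_pos (by positivity) (hW.pos x (Ioo_subset_Icc_self hx))
      sup := fun x hx => by
        have hx := Ioo_subset_Icc_self hx
        obtain ⟨b1, b2, b3, b4⟩ := bl x hx
        have b5 := (hV x hx).1
        have k4 : 2 * k ≤ k ^ 2 := by nlinarith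
        have c1 : l1 x + l x ^ 2 - x / 2 * l x - (V x).re ≤ -(k ^ 2 / 6) := by
          have : l x ^ 2 ≤ (k / 40) ^ 2 := sq_le_sq' (by linarith) b1
          nlinarith
        have c2 : l1 x + 1 / 4 + (l x + k / 4) ^ 2 - x ^ 2 / 16 - (V x).re ≤ 0 := by
          have : (l x + k / 4) ^ 2 ≤ (k / 40 + k / 4) ^ 2 := sq_le_sq' (by linarith) (by linarith)
          nlinarith [sq_nonneg x]
        have d1 := mul_le_mul_of_nonneg_right c1 (hW.pos x hx).le
        have d2 := mul_le_mul_of_nonneg_right c2 (lWφ.pos x hx).le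
        linarith
      δpos := by have := hW.pos X hXm; have : 0 < X + k := by linarith
                 positivity
      rob := by
        have e1 : φ X = 1 := by simp [hφ]
        have e2 : u X = 0 := max_eq_right (by linarith)
        have e3 : 0 ≤ l X := by
          simp only [hl, e2]
          have : 0 ≤ γ / X := div_nonneg h0 (by linarith)
          linarith
        have := mul_nonneg e3 (hW.pos X hXm).le
        simp only [e1, Complex.zero_re]
        linarith }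
  have k2 : 0 < k ^ 2 := by positivity
  have key := bar.le (M := 6 * M / k ^ 2) s
    (fun x hx => (hG x (Ioo_subset_Icc_self hx)).trans (le_of_eq (by field_simp)))
    (by
      rw [div_mul_eq_mul_div, le_div_iff₀' k2]
      have := mul_nonneg hM (hW.pos R hRm).le
      have := mul_nonneg hM (lWφ.pos R hRm).le
      linarith)
    (by
      rw [zero_mul, sub_zero, div_mul_eq_mul_div, le_div_iff₀' k2]
      have := mul_nonneg hM (mul_nonneg (by linarith : 0 ≤ X + k) (hW.pos X hXm).le)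
      linarith)
  have hw' : ∀ x ∈ Icc R X, k ^ 2 * ‖w x‖ ≤ 12 * (M * W x) := fun x hx => by
    have a1 := key x hx
    rw [div_mul_eq_mul_div, le_div_iff₀' k2] at a1
    have := mul_le_mul_of_nonneg_left (hφ1 x hx) (mul_nonneg hM (hW.pos x hx).le)
    linarith
  have hS : ∀ x ∈ Icc R X, ‖V x * w x + G x‖ ≤ 16 * (M * W x) := fun x hx => by
    refine (norm_add_le _ _).trans ?_
    rw [norm_mul]
    have a1 := mul_le_mul_of_nonneg_right (hV x hx).2 (norm_nonneg (w x))
    have a2 := mul_le_mul_of_nonneg_right (show 4 ≤ k ^ 2 by nlinarith) (norm_nonneg (w x))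
    have := hw' x hx
    have := hG x hx
    linarith
  have dπ : Dv R X (fun x => p x + (k : ℂ) * ((x : ℂ) * w x)) fun x =>
      (dr x + ((k * x : ℝ) : ℂ)) * (p x + (k : ℂ) * ((x : ℂ) * w x)) +
        (V x * w x + G x + ((k - k * x * (x / 2 + k * x) : ℝ) : ℂ) * w x) := by
    have hi : Dv R X (fun x => (x : ℂ)) fun _ => ((1 : ℝ) : ℂ) :=
      Dv.ofReal (w := fun x => x) fun x _ => hasDerivWithinAt_id x _
    exact (s.d1.add ((hi.mul s.d0).cmul k)).congr (fun _ _ => rfl) fun x _ => by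
      simp only [dr]; push_cast; ring
  have nπ : ∀ x ∈ Icc R X, ‖(k : ℂ) * ((x : ℂ) * w x)‖ = k * (x * ‖w x‖) := fun x hx => by
    simp [abs_of_pos hk0, abs_of_pos (hR0.trans_le hx.1)]
  have hπ := ((LD.id hR0).mul hW).back (r := fun x => k * x) (M := 25 * M / k) hRX dπ
    (fun x h => mul_pos hk0 (hR0.trans_le h.1))
    (fun x h => by
      have a1 : γ / x ≤ 1 := by rw [div_le_iff₀ (hR0.trans_le h.1)]; linarith [h.1]
      have a2 : x⁻¹ ≤ 1 := inv_le_one_of_one_le₀ (by linarith [h.1])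
      have a3 : 0 ≤ max (1 - (x - R)) 0 ^ 2 * t := by positivity
      rw [Complex.add_re, dr_re, Complex.ofReal_re]
      linarith [h.1])
    (fun x h => by
      have hx0 := hR0.trans_le h.1
      have e : 25 * M / k * (k * x * (x * W x)) = 25 * (x ^ 2 * (M * W x)) := by field_simp
      rw [e]
      refine (norm_add_le _ _).trans ?_
      have x16 : 16 ≤ x ^ 2 := by nlinarith [h.1]
      have h3 : |k - k * x * (x / 2 + k * x)| ≤ 2 * (x ^ 2 * k ^ 2) := by
        have : k * 2 ≤ k ^ 2 := by nlinarith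
        have : 0 ≤ k * x ^ 2 := by positivity
        have : k * 2 * x ^ 2 ≤ k ^ 2 * x ^ 2 := by gcongr
        have : k * 16 ≤ k * x ^ 2 := by gcongr
        rw [abs_le]; constructor <;> nlinarith
      rw [norm_mul, Complex.norm_real, Real.norm_eq_abs]
      have h4 := mul_le_mul_of_nonneg_right h3 (norm_nonneg (w x))
      have h5 := mul_le_mul_of_nonneg_left (hw' x h) (sq_nonneg x)
      have h6 := mul_le_mul_of_nonneg_right x16 (mul_nonneg hM (hW.pos x h).le)
      linarith [hS x h])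
    (by
      rw [div_mul_eq_mul_div, le_div_iff₀' hk0]
      have h2 := mul_le_mul_of_nonneg_left ((norm_add_le (p X) _).trans_eq
        (congrArg _ (nπ X hXm))) hk0.le
      have h4 := mul_le_mul_of_nonneg_left (hw' X hXm) (by linarith : 0 ≤ X)
      have h5 := mul_nonneg hM (hW.pos X hXm).le
      have h6 : k * ‖p X‖ ≤ 2 * (X * (M * W X)) := by
        refine le_of_mul_le_mul_left ?_ hk0
        have : X + k ≤ k * (2 * X) := by nlinarith
        have := mul_le_mul_of_nonneg_right this h5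
        linarith
      have h7 := mul_nonneg (by linarith : 0 ≤ X) h5
      linarith)
  refine fun x hx => ⟨hw' x hx, ?_, hS x hx⟩
  have h2 := hπ x hx
  rw [div_mul_eq_mul_div, le_div_iff₀' hk0] at h2
  have h3 := mul_le_mul_of_nonneg_left ((norm_le_add_norm_add (p x) _).trans_eq
    (congrArg _ (nπ x hx))) hk0.le
  have h5 := mul_le_mul_of_nonneg_left (hw' x hx) (hR0.trans_le hx.1).le
  linarith

/-- low modes -/
theorem low {R X γ c M : ℝ} {V G w p : ℝ → ℂ} (hR : 23 ≤ R) (hX : R ≤ X) (h0 : 0 ≤ γ)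
    (h1 : γ ≤ 7 / 8) (hc1 : 1 ≤ c) (hc2 : c ≤ 2) (hM : 0 ≤ M)
    (hV : ∀ x ∈ Icc R X, ‖V x + (c / 2 : ℝ)‖ ≤ 1 / 256)
    (s : Sol2 R X dr V G w p) (hG : ∀ x ∈ Icc R X, ‖G x‖ ≤ M * x ^ γ)
    (hw : ‖w X‖ ≤ M * X ^ γ) (hp : ‖p X‖ ≤ M * (2 * X * X ^ γ)) :
    ∀ x ∈ Icc R X, ‖w x‖ ≤ 128 * (M * x ^ γ) ∧ ‖p x‖ ≤ 33 * (M * (x * x ^ γ)) := by
  have hR0 : 0 < R := by linarith
  have hW := ld_rpow (X := X) γ hR0
  have hid := LD.id (b := X) hR0
  have lφ : LD R X (lay (1 / 8) X) fun x => x / 4 := ⟨fun _ _ => lay_pos _ _ _,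
    (Dv.lay (x := fun x => x) (c := fun _ => 1) (fun x _ => hasDerivWithinAt_id x _) (1 / 8) X).congr
      (fun _ _ => rfl) fun x _ => by ring⟩
  have hφ1 : ∀ x ∈ Icc R X, lay (1 / 8) X x ≤ 1 := fun x hx =>
    lay_le_one (by norm_num) (pow_le_pow_left₀ (by linarith [hx.1]) hx.2 2)
  have l1 := hW.mul hid.inv
  have l2 := (hW.mul hid).mul lφ
  have l3 := hW.mul lφ
  have hXm : X ∈ Icc R X := right_mem_Icc.2 hX
  have lob : LoB R X dr V (fun x => ((c * x⁻¹ : ℝ) : ℂ)) (fun x => ((-(c * x⁻¹ ^ 2) : ℝ) : ℂ))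
      (fun x => x ^ γ / 32) (fun x => x ^ γ * x⁻¹ / 8 + x ^ γ * x * lay (1 / 8) X x / 4)
      (fun x => (γ / x + -x⁻¹) * (x ^ γ * x⁻¹) / 8 +
        (γ / x + x⁻¹ + x / 4) * (x ^ γ * x * lay (1 / 8) X x) / 4)
      (fun x => 2 * x ^ γ - x ^ γ * lay (1 / 8) X x)
      (fun x => 2 * (γ / x * x ^ γ) - (γ / x + x / 4) * (x ^ γ * lay (1 / 8) X x)) :=
    { cB := dr_cont.continuousOn
      dl := Dv.ofReal fun x hx => ((hid.inv.dv x hx).const_mul c).congr_deriv (by ring)
      dΘ := fun x hx => ((l1.dv x hx).div_const 8).add ((l2.dv x hx).div_const 4)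
      dΩ := fun x hx => ((hW.dv x hx).const_mul 2).sub (l3.dv x hx)
      pos := fun x hx => by
        have := mul_le_mul_of_nonneg_left (hφ1 x hx) (hW.pos x hx).le
        have := hW.pos x hx
        linarith
      nn := by have := l1.pos X hXm; have := l2.pos X hXm; positivity
      bq := fun x hx => by
        have hx0 := hR0.trans_le hx.1
        have i0 : 0 < x⁻¹ := inv_pos.2 hx0
        have i1 : x⁻¹ ≤ 1 := inv_le_one_of_one_le₀ (by linarith [hx.1])
        have a1 : γ / x + -x⁻¹ + x / 4 ≤ x / 2 - c * x⁻¹ := by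
          rw [div_eq_mul_inv γ]; nlinarith [hx.1]
        have a2 : γ / x + x⁻¹ + x / 4 ≤ x / 2 - c * x⁻¹ := by
          rw [div_eq_mul_inv γ]; nlinarith [hx.1]
        have b1 := mul_le_mul_of_nonneg_right a1 (l1.pos x hx).le
        have b2 := mul_le_mul_of_nonneg_right a2 (l2.pos x hx).le
        have e : x / 4 * (x ^ γ * x⁻¹) = x ^ γ / 4 := by field_simp
        rw [Complex.sub_re, dr_re, Complex.ofReal_re]
        linarith
      bw := fun x hx => by
        have hx0 := hR0.trans_le hx.1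
        have a1 := mul_le_mul_of_nonneg_left (hφ1 x hx) (l1.pos x hx).le
        have a2 : 0 ≤ (c - γ - 1 / 8) * (2 * (x ^ γ * x⁻¹) - x ^ γ * x⁻¹ * lay (1 / 8) X x) :=
          mul_nonneg (by linarith) (by linarith [l1.pos x hx])
        rw [Complex.ofReal_re, div_eq_mul_inv γ]
        linarith
      res := fun x hx => by
        have hx0 := hR0.trans_le hx.1
        have e : V x - (((-(c * x⁻¹ ^ 2) : ℝ) : ℂ) + ((c * x⁻¹ : ℝ) : ℂ) * ((c * x⁻¹ : ℝ) : ℂ) -
            dr x * ((c * x⁻¹ : ℝ) : ℂ)) =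
            V x + (c / 2 : ℝ) - (((c ^ 2 - c) * x⁻¹ ^ 2 : ℝ) : ℂ) := by
          have : (x : ℂ) ≠ 0 := by exact_mod_cast hx0.ne'
          simp only [dr]; push_cast; field_simp; ring
        have i1 : x⁻¹ ≤ 1 / 23 := by
          rw [inv_eq_one_div]; exact one_div_le_one_div_of_le (by norm_num) (by linarith [hx.1])
        have i2 : x⁻¹ ^ 2 ≤ (1 / 23) ^ 2 := pow_le_pow_left₀ (inv_pos.2 hx0).le i1 2
        have a1 : ‖(((c ^ 2 - c) * x⁻¹ ^ 2 : ℝ) : ℂ)‖ ≤ 1 / 256 := by
          rw [Complex.norm_real, Real.norm_of_nonneg (mul_nonneg (by nlinarith) (sq_nonneg _))]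
          nlinarith [mul_le_mul (show c ^ 2 - c ≤ 2 by nlinarith) i2 (sq_nonneg _) zero_le_two]
        have a2 := (norm_sub_le _ _).trans (add_le_add (hV x hx) a1)
        rw [e]
        have a3 := l3.pos x hx
        have a4 := mul_le_mul a2 (show 2 * x ^ γ - x ^ γ * lay (1 / 8) X x ≤ 2 * x ^ γ by linarith)
          (by nlinarith [mul_le_mul_of_nonneg_left (hφ1 x hx) (hW.pos x hx).le, hW.pos x hx])
          (by norm_num)
        linarith }
  have nl : ∀ x ∈ Icc R X, ‖((c * x⁻¹ : ℝ) : ℂ) * w x‖ ≤ x / 8 * ‖w x‖ := fun x hx => by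
    have hx0 := hR0.trans_le hx.1
    rw [norm_mul, Complex.norm_real, Real.norm_of_nonneg (by positivity)]
    have i1 : x⁻¹ ≤ 1 := inv_le_one_of_one_le₀ (by linarith [hx.1])
    refine mul_le_mul_of_nonneg_right ?_ (norm_nonneg _)
    nlinarith [hx.1, inv_pos.2 hx0]
  have hMX := mul_nonneg hM (hW.pos X hXm).le
  have key := lob.le s (M := 32 * M) (by positivity)
    (fun x hx => (hG x hx).trans (le_of_eq (by ring)))
    (by simp only [lay_self]; linarith)
    (by
      have a1 := (norm_sub_le _ _).trans (add_le_add hp (nl X hXm))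
      have a2 := mul_le_mul_of_nonneg_left hw (by linarith : 0 ≤ X / 8)
      have a3 := mul_nonneg hM (l1.pos X hXm).le
      have a4 := mul_nonneg (by linarith : 0 ≤ X) hMX
      simp only [lay_self]
      linarith)
  intro x hx
  obtain ⟨a1, a2⟩ := key x hx
  have hx0 := hR0.trans_le hx.1
  have b0 := mul_nonneg hM (hW.pos x hx).le
  have b1 := mul_nonneg hM (l3.pos x hx).le
  have r0 : ‖w x‖ ≤ 128 * (M * x ^ γ) := by linarith
  refine ⟨r0, ?_⟩
  have b2 := norm_le_norm_sub_add (p x) (((c * x⁻¹ : ℝ) : ℂ) * w x)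
  have b3 := mul_le_mul_of_nonneg_left r0 (by linarith : 0 ≤ x / 8)
  have b4 := mul_le_mul_of_nonneg_left (hφ1 x hx) (mul_nonneg b0 hx0.le)
  have b5 : x⁻¹ ≤ x / 8 := (inv_le_one_of_one_le₀ (by linarith [hx.1])).trans (by linarith [hx.1])
  have b6 := mul_le_mul_of_nonneg_left b5 b0
  linarith [nl x hx]

end Wk

/-- the jet weights of the weak class -/
def wF (f : ℝ → ℝ) : Fin 6 → ℝ → ℝ :=
  ![f, fun x => x * f x, fun x => x ^ 2 * f x, f, fun x => x * f x, f]

/-- **all modes in the weak weight** -/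
theorem mestW {R X γ t : ℝ} {a : ℂ} (hR : 23 ≤ R) (hX : R + 2 ≤ X) (h0 : 0 ≤ γ) (h1 : γ ≤ 7 / 8)
    (ha : ‖a‖ * X ^ 2 ≤ 1 / 100) (m : ℤ) (ht0 : 0 ≤ t) (ht : t ≤ |(m : ℝ)| / (100 * R)) :
    MEst R X a m (Ww γ R t) (Ww γ R t (pt R X m) / (1 + (m : ℝ) ^ 2))
      ((X + |(m : ℝ)|) * Ww γ R t X / (1 + (m : ℝ) ^ 2)) fun i x => 400 * wF (Ww γ R t) i x := by
  intro G w p M hM s hG hw hp x hx
  have hR0 : 0 < R := by linarith
  have hx0 := hR0.trans_le hx.1
  have hW := (Wk.ld_Ww (X := X) γ t hR0).pos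
  have hi := fun x hx => Wk.inv_near (Wk.et_near (X := X) (x := x) hR hx ha)
  have m1 : 0 < 1 + (m : ℝ) ^ 2 := by positivity
  rw [← mul_div_assoc, le_div_iff₀' m1] at hw hp
  have eV : ∀ x : ℝ, Vx a m x = (((m : ℝ) ^ 2 / 2 : ℝ) : ℂ) * ((et a x)⁻¹ - 1) +
      (((m : ℝ) ^ 2 / 2 - 1 : ℝ) : ℂ) := fun x => by
    rw [Vx]; push_cast; ring
  have nV : ∀ x ∈ Icc R X, ‖(((m : ℝ) ^ 2 / 2 : ℝ) : ℂ) * ((et a x)⁻¹ - 1)‖ ≤ (m : ℝ) ^ 2 / 256 :=
    fun x hx => by
      rw [norm_mul, Complex.norm_real, Real.norm_of_nonneg (by positivity)]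
      nlinarith [(hi x hx).2, sq_nonneg (m : ℝ)]
  have b0 := mul_nonneg hM (hW x hx).le
  have b1 := mul_nonneg hx0.le b0
  have x16 := mul_le_mul_of_nonneg_right (show 16 ≤ x ^ 2 by nlinarith [hx.1]) b0
  have nq : ‖dr x * p x + Vx a m x * w x + G x‖ ≤ x / 2 * ‖p x‖ + ‖Vx a m x * w x + G x‖ := by
    rw [add_assoc]
    exact (norm_add_le _ _).trans (le_of_eq (by rw [norm_mul, norm_dr hx0.le]))
  simp only [wF, Matrix.cons_val]
  by_cases hm : 2 ≤ |m|
  · have hk : (2 : ℝ) ≤ |(m : ℝ)| := by exact_mod_cast hm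
    rw [pt, if_pos hm] at hw
    obtain ⟨r0, r1, r2⟩ := Wk.high hR hX h0 (by linarith) hk ht0 ht hM (fun x hx => by
        have a1 := nV x hx
        have a2 := (Complex.abs_re_le_norm _).trans a1
        have a3 : 4 ≤ (m : ℝ) ^ 2 := by rw [← sq_abs]; nlinarith
        rw [sq_abs, eV, Complex.add_re, Complex.ofReal_re]
        refine ⟨by linarith [(abs_le.1 a2).1], (norm_add_le _ _).trans ?_⟩
        rw [Complex.norm_real ((m : ℝ) ^ 2 / 2 - 1), Real.norm_of_nonneg (by linarith)]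
        linarith) s hG
      (by rw [sq_abs]; linarith [norm_nonneg (w R)]) (by rw [sq_abs]; linarith [norm_nonneg (p X)])
      x hx
    have c1 := mul_le_mul_of_nonneg_right hk (norm_nonneg (w x))
    have c2 := mul_le_mul_of_nonneg_right hk (norm_nonneg (p x))
    have c3 := mul_le_mul_of_nonneg_right (show 2 * |(m : ℝ)| ≤ |(m : ℝ)| ^ 2 by nlinarith)
      (norm_nonneg (w x))
    have c4 := mul_le_mul_of_nonneg_left (c2.trans r1) hx0.le
    refine ⟨by linarith, by linarith, by linarith, by linarith, by linarith, ?_⟩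
    rw [← sq_abs]
    linarith
  · have hk : |(m : ℝ)| ≤ 1 := by exact_mod_cast (by omega : |m| ≤ 1)
    have hk2 : (m : ℝ) ^ 2 = |(m : ℝ)| := by
      rcases small_cases hm with rfl | rfl | rfl <;> simp
    have k0 := abs_nonneg (m : ℝ)
    rw [pt, if_neg hm] at hw
    have up : ∀ y ∈ Icc R X, Ww γ R t y ≤ y ^ γ := fun y hy =>
      mul_le_of_le_one_right (Real.rpow_nonneg (by linarith [hy.1]) _) (Real.exp_le_one_iff.2
        (neg_nonpos.2 (mul_nonneg (sig_nonneg (by linarith [hy.1])) ht0)))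
    have dn : x ^ γ ≤ 3 * Ww γ R t x := by
      have a1 : t ≤ 1 / 2 := ht.trans (by rw [div_le_iff₀ (by positivity)]; linarith)
      have a2 : sig (x - R) ≤ 1 := sub_le_self _ (pow_nonneg (le_max_right _ _) _)
      have a3 := Real.add_one_le_exp (-(sig (x - R) * t))
      have a4 := mul_le_of_le_one_left ht0 a2
      have a5 := Real.rpow_nonneg hx0.le γ
      rw [Ww]
      nlinarith
    have hXm : X ∈ Icc R X := right_mem_Icc.2 (by linarith)
    have hV : ∀ x ∈ Icc R X, ‖Vx a m x + ((2 - (m : ℝ) ^ 2) / 2 : ℝ)‖ ≤ 1 / 256 := fun x hx => by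
      rw [eV, add_assoc, ← Complex.ofReal_add, show (m : ℝ) ^ 2 / 2 - 1 + (2 - (m : ℝ) ^ 2) / 2 = 0
        by ring, Complex.ofReal_zero, add_zero]
      linarith [nV x hx]
    obtain ⟨r0, r1⟩ := Wk.low (c := 2 - (m : ℝ) ^ 2) hR (by linarith) h0 h1 (by linarith)
      (by linarith) hM hV s (fun y hy => (hG y hy).trans (mul_le_mul_of_nonneg_left (up y hy) hM))
      (by
        have := mul_le_mul_of_nonneg_left (up X hXm) hM
        nlinarith [norm_nonneg (w X)])
      (by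
        have a1 := mul_le_mul (show X + |(m : ℝ)| ≤ 2 * X by linarith) (up X hXm) (hW X hXm).le
          (by linarith)
        have := mul_le_mul_of_nonneg_left a1 hM
        nlinarith [norm_nonneg (p X)]) x hx
    have c0 := mul_le_mul_of_nonneg_left dn hM
    have c1 := mul_le_mul_of_nonneg_left c0 hx0.le
    have q0 : ‖w x‖ ≤ 384 * (M * Ww γ R t x) := by linarith
    have q1 : ‖p x‖ ≤ 99 * (x * (M * Ww γ R t x)) := by linarith
    have c2 := mul_le_mul_of_nonneg_right hk (norm_nonneg (w x))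
    have c3 := mul_le_mul_of_nonneg_right hk (norm_nonneg (p x))
    have c4 := mul_le_mul_of_nonneg_left q1 hx0.le
    have c5 : ‖Vx a m x‖ ≤ 2 := by
      have := norm_le_add_norm_add (Vx a m x) (((2 - (m : ℝ) ^ 2) / 2 : ℝ) : ℂ)
      rw [Complex.norm_real, Real.norm_of_nonneg (by linarith)] at this
      linarith [hV x hx]
    have c6 := (norm_add_le (Vx a m x * w x) (G x)).trans (add_le_add
      ((norm_mul_le _ _).trans (mul_le_mul_of_nonneg_right c5 (norm_nonneg _))) (hG x hx))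
    refine ⟨by linarith, by linarith, by linarith, by linarith, by linarith, ?_⟩
    rw [hk2]
    linarith

end Crest.Agent.N250.B1

end
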