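import Crest.Agent.N250.B1.Wk0
import Crest.Agent.N250.B1.Wk1
import Crest.Agent.N250.B1.EndCv
import Crest.Agent.N250.B1.DrS

/-!
# Row 250, B1 (helper15): `WkS`, the weak a-priori estimate for two solutions
-/

set_option autoImplicit false

open Set Complex Filter Topology

noncomputable section

namespace Crest.Agent.N250.B1

namespace Wk

variable {ℓ : Ell} {R K g g' X γ M : ℝ} {a : ℂ} {J J' : Jt ℓ}

/-- half of a symbol -/
def half (ℓ : Ell) : Ell where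
  l m := ℓ.l m / 2
  zero := by rw [ℓ.zero, zero_div]
  nonneg m := by linarith [ℓ.nonneg m]
  sub j k := by linarith [ℓ.sub j k]
  neg m := by rw [ℓ.neg]

theorem half_w (ℓ : Ell) (m : ℤ) : ‖(om (half ℓ)).w m * (om ℓ).wi m‖ ≤ 1 := by
  change ‖eW (ℓ.l m / 2) * eW (-ℓ.l m)‖ ≤ 1
  rw [eW_mul]
  exact norm_eW_le (by linarith [ℓ.nonneg m])

/-- passage to the half symbol -/
abbrev tH (ℓ : Ell) : Wi (om ℓ) →A[ℂ] Wi (om (half ℓ)) := Nl.tr (half_w ℓ)

theorem norm_tH {u : Wi (om ℓ)} {c : ℝ} (h : ‖u‖ ≤ c) : ‖tH ℓ u‖ ≤ c :=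
  (Nl.norm_tr_le _ u).trans (by rwa [one_mul])

theorem IsJet.sub {c : CI} (h : IsJet c J) (h' : IsJet c J') : IsJet c (J - J') :=
  ⟨fun m => by simpa [mul_sub] using (h.d0 m).sub (h'.d0 m),
    fun m => by simpa [mul_sub] using (h.d1 m).sub (h'.d1 m),
    fun m => by simp [h.t0, h'.t0, smul_sub], fun m => by simp [h.t1, h'.t1, smul_sub],
    fun m => by simp only [Pi.sub_apply, Wi.co_sub, h.t2, h'.t2, smul_sub]⟩

theorem Lin.sub {G G' : Wi (om ℓ)} (h : Lin R X a J G) (h' : Lin R X a J' G') :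
    Lin R X a (J - J') (G - G') :=
  ⟨IsJet.sub h.1 h'.1, fun m s => by
    simp only [Pi.sub_apply, Wi.co_sub, ContinuousMap.sub_apply, ← h.2 m s, ← h'.2 m s]
    ring⟩

theorem BC.sub {D D' : Dat ℓ} (h : BC D J) (h' : BC D' J') : BC (D - D') (J - J') :=
  ⟨fun m hm => by simp [h.inner m hm, h'.inner m hm], fun m => by simp [h.slope, h'.slope],
    by simp [h.far0, h'.far0], by simp [h.farp, h'.farp], by simp [h.farm, h'.farm]⟩

/-- the easy regime -/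
structure Ez (R K g g' X : ℝ) (a : ℂ) : Prop where
  hR : 23 ≤ R
  hX : R + 2 ≤ X
  K0 : 0 ≤ K
  KX : 4 * K ≤ X ^ 2
  g1 : 1 ≤ g
  g0 : 0 ≤ g'
  g2 : g' ≤ 2
  ha : ‖a‖ * X ^ 2 ≤ 1 / 100

namespace Ez

variable (h : Ez R K g g' X a)
include h

theorem x_ge (s : II) : 23 ≤ xr R X s := h.hR.trans (xr_mem' h.hX s).1

theorem x_pos (s : II) : 0 < xr R X s := by linarith [h.x_ge s]

theorem et_bd (s : II) : 1 / 2 ≤ ‖et a (xr R X s)‖ ∧ ‖et a (xr R X s)‖ ≤ 2 := by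
  have h1 := et_near h.hR (xr_mem' h.hX s) h.ha
  have h2 := abs_le.1 ((abs_norm_sub_norm_le _ _).trans h1)
  rw [norm_one] at h2
  constructor <;> linarith [h2.1, h2.2]

theorem et_pos (s : II) : 0 < ‖et a (xr R X s)‖ := by linarith [(h.et_bd s).1]

theorem gam_ne (s : II) : gam R X s ≠ 0 := by
  rw [gam_xr]; exact_mod_cast (h.x_pos s).ne'

theorem etC_ne (s : II) : etC R X a s ≠ 0 := by
  rw [etC_apply, gam_xr]; exact norm_pos_iff.1 (h.et_pos s)

theorem norm_gam (s : II) : ‖gam R X s‖ = xr R X s := by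
  rw [gam_xr, norm_real, Real.norm_of_nonneg (h.x_pos s).le]

theorem norm_xi (s : II) : ‖iv (gam R X) s‖ = (xr R X s)⁻¹ := by
  rw [iv_apply h.gam_ne, norm_inv, h.norm_gam]

theorem xi_le (s : II) : ‖iv (gam R X) s‖ ≤ 1 := by
  rw [h.norm_xi]; exact inv_le_one_of_one_le₀ (by linarith [h.x_ge s])

theorem e_le (s : II) : ‖iv (etC R X a) s‖ ≤ 2 := by
  rw [iv_apply h.etC_ne, norm_inv, etC_apply, gam_xr, inv_le_comm₀ (h.et_pos s) two_pos]
  linarith [(h.et_bd s).1]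

theorem iv_xe : iv (gam R X * etC R X a) = iv (etC R X a) * iv (gam R X) := by
  ext s
  rw [iv_apply fun s => mul_ne_zero (h.gam_ne s) (h.etC_ne s), ContinuousMap.mul_apply,
    ContinuousMap.mul_apply, iv_apply h.gam_ne, iv_apply h.etC_ne, mul_inv, mul_comm]

theorem iv_xxe : iv (gam R X ^ 2 * etC R X a) = iv (etC R X a) * iv (gam R X) ^ 2 := by
  ext s
  rw [iv_apply fun s => mul_ne_zero (pow_ne_zero 2 (h.gam_ne s)) (h.etC_ne s),
    ContinuousMap.mul_apply, ContinuousMap.mul_apply, ContinuousMap.pow_apply,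
    ContinuousMap.pow_apply, iv_apply h.gam_ne, iv_apply h.etC_ne, mul_inv, mul_comm, inv_pow]

theorem rho_bd (s : II) : 0 < rho K X (xr R X s) ∧ rho K X (xr R X s) ≤ 1 := by
  have hx := h.x_ge s
  have hX : 0 < X ^ 2 := pow_pos (by linarith [h.hR, h.hX]) 2
  have h1 : xr R X s ^ 2 ≤ X ^ 2 := pow_le_pow_left₀ (by linarith) (xr_mem' h.hX s).2 2
  have t0 : 0 ≤ (xr R X s ^ 2 - 2) / X ^ 2 := div_nonneg (by nlinarith) hX.le
  have t1 : (xr R X s ^ 2 - 2) / X ^ 2 < 1 := (div_lt_one hX).2 (by linarith)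
  have k0 : 0 ≤ 2 * K / X ^ 2 := div_nonneg (by linarith [h.K0]) hX.le
  have k1 : 2 * K / X ^ 2 ≤ 1 := (div_le_one hX).2 (by linarith [h.KX, h.K0])
  unfold rho
  constructor <;> nlinarith

theorem W_pos (s : II) : 0 < W g g' a (xr R X s) :=
  mul_pos (Real.rpow_pos_of_pos (h.x_pos s) _) (Real.rpow_pos_of_pos (h.et_pos s) _)

theorem xW_le (s : II) : xr R X s * W g g' a (xr R X s) ≤ 4 := by
  have h1 : xr R X s ^ (-g) ≤ (xr R X s)⁻¹ := by
    rw [← Real.rpow_neg_one]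
    exact Real.rpow_le_rpow_of_exponent_le (by linarith [h.x_ge s]) (by linarith [h.g1])
  have h2 : ‖et a (xr R X s)‖ ^ g' ≤ 4 :=
    (Real.rpow_le_rpow (norm_nonneg _) (h.et_bd s).2 h.g0).trans
      ((Real.rpow_le_rpow_of_exponent_le one_le_two h.g2).trans (by norm_num))
  have h3 := mul_le_mul h1 h2 (Real.rpow_nonneg (norm_nonneg _) _) (inv_pos.2 (h.x_pos s)).le
  have h4 := mul_le_mul_of_nonneg_left h3 (h.x_pos s).le
  rw [← mul_assoc (xr R X s) _ 4, mul_inv_cancel₀ (h.x_pos s).ne', one_mul] at h4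
  exact h4

theorem W_le (s : II) : W g g' a (xr R X s) ≤ 1 := by
  nlinarith [h.xW_le s, h.x_ge s, h.W_pos s]

theorem Wd_le (s : II) : W g g' a (xr R X s) / ‖et a (xr R X s)‖ ≤ 2 := by
  rw [div_le_iff₀ (h.et_pos s)]; linarith [h.W_le s, (h.et_bd s).1]

/-- sizes of the arguments of the nonlinearity -/
theorem small {c : CI} (hj : IsJet c J) (hJ : InB R K g g' X a M J) :
    ‖cm (iv (etC R X a)) (J 0)‖ ≤ 8 * M ∧ ‖cm (iv (etC R X a)) (J 3)‖ ≤ 8 * M ∧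
    ‖cm (iv (etC R X a)) (J 5)‖ ≤ 8 * M ∧ ‖cm (iv (etC R X a) * iv (gam R X)) (J 4)‖ ≤ 8 * M ∧
    ‖Wi.cst (om ℓ) (a • gam R X ^ 2) + cm (gam R X) (J 1)‖ ≤ ‖a‖ * X ^ 2 + 8 * M ∧
    ‖Wi.cst (om ℓ) (cst a) + J 2‖ ≤ 1 / 100 + 8 * M ∧
    ‖cm (gam R X * iv (etC R X a)) (J 3)‖ ≤ 8 * M ∧ ‖cm (iv (etC R X a)) (J 4)‖ ≤ 8 * M := by
  have one : ∀ s : II, (0 : ℝ) < (fun _ : ℝ => (1 : ℝ)) (xr R X s) := fun _ => one_pos
  have nb : ∀ {f0 f : ℝ → ℝ} {u : Wi (om ℓ)} {φ : CI}, WB R X f0 f u M →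
      (∀ s : II, 0 < f0 (xr R X s)) → (∀ s : II, 0 < f (xr R X s)) →
      (Wi.co u 0 = 0 ∨ ∀ s : II, ‖φ s‖ * f0 (xr R X s) ≤ 8) →
      (∀ s : II, ‖φ s‖ * f (xr R X s) ≤ 8) → ‖cm φ u‖ ≤ 8 * M := fun hu p0 p1 e0 e1 =>
    (wb_one_iff (R := R) (X := X)).1 (hu.cm p0 p1 (by norm_num)
      (e0.imp (fun e => ⟨e, fun _ => zero_le_one⟩) fun e s => by simpa using e s)
      fun s => by simpa using e1 s)
  have eW : ∀ s : II, ‖iv (etC R X a) s‖ * W g g' a (xr R X s) ≤ 8 := fun s => by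
    nlinarith [h.e_le s, h.W_le s, h.W_pos s, norm_nonneg (iv (etC R X a) s)]
  have exW : ∀ s : II, ‖iv (etC R X a) s‖ * (xr R X s * W g g' a (xr R X s)) ≤ 8 := fun s => by
    nlinarith [h.e_le s, h.xW_le s, mul_pos (h.x_pos s) (h.W_pos s), norm_nonneg (iv (etC R X a) s)]
  have pxW : ∀ s : II, 0 < xr R X s * W g g' a (xr R X s) := fun s => mul_pos (h.x_pos s) (h.W_pos s)
  refine ⟨nb hJ.b0 (fun s => (h.rho_bd s).1) h.W_pos (Or.inr fun s => ?_) eW,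
    nb hJ.b3 one h.W_pos (Or.inl hj.co3) eW, nb hJ.b5 one h.W_pos (Or.inl hj.co5) eW,
    nb hJ.b4 one pxW (Or.inl hj.co4) fun s => ?_, Nl.add_le ?_ ?_, Nl.add_le ?_ ?_,
    nb hJ.b3 one h.W_pos (Or.inl hj.co3) fun s => ?_, nb hJ.b4 one pxW (Or.inl hj.co4) exW⟩
  · nlinarith [h.e_le s, h.rho_bd s, norm_nonneg (iv (etC R X a) s)]
  · rw [ContinuousMap.mul_apply, norm_mul, mul_right_comm]
    exact (mul_le_of_le_one_right (mul_nonneg (norm_nonneg _) (pxW s).le) (h.xi_le s)).trans (exW s)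
  · refine (Wi.norm_cst _).le.trans (norm_le_pt fun s => ?_)
    rw [ContinuousMap.smul_apply, norm_smul, ContinuousMap.pow_apply, norm_pow, h.norm_gam]
    exact mul_le_mul_of_nonneg_left (pow_le_pow_left₀ (h.x_pos s).le (xr_mem' h.hX s).2 2)
      (norm_nonneg _)
  · refine nb hJ.b1 (fun s => inv_pos.2 (h.x_pos s))
      (fun s => div_pos (h.W_pos s) (mul_pos (h.x_pos s) (h.et_pos s))) (Or.inr fun s => ?_)
      fun s => ?_
    · rw [h.norm_gam, mul_inv_cancel₀ (h.x_pos s).ne']; norm_num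
    · rw [h.norm_gam, ← mul_div_assoc, mul_div_mul_left _ _ (h.x_pos s).ne']
      linarith [h.Wd_le s]
  · refine (Wi.norm_cst _).le.trans (norm_le_pt fun s => ?_)
    have h1 : ‖cst a s‖ = ‖a‖ := by simp [cst]
    have h2 : 1 ≤ X ^ 2 := by nlinarith [h.hR, h.hX]
    rw [h1]
    nlinarith [h.ha, norm_nonneg a]
  · have := nb (φ := 1) hJ.b2 one (fun s => div_pos (h.W_pos s) (h.et_pos s))
      (Or.inr fun s => by simp) fun s => by simpa using (h.Wd_le s).trans (by norm_num)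
    rwa [cm, map_one, one_mul] at this
  · rw [ContinuousMap.mul_apply, norm_mul, h.norm_gam]
    linarith [exW s]

theorem units {c : CI} (hj : IsJet c J) (hJ : InB R K g g' X a M J) (hM : M ≤ 1 / 100) :
    IsUnit (1 + cm (iv (etC R X a)) (J 0)) ∧
    IsUnit (1 + Nl.Qm (cm (iv (etC R X a)) (J 0)) (cm (iv (etC R X a)) (J 3))
      (Wi.cst _ (a • gam R X ^ 2) + cm (gam R X) (J 1))
      (Wi.cst _ (iv (gam R X ^ 2 * etC R X a)))) := by
  obtain ⟨b0, b3, -, -, bZ, -⟩ := h.small hj hJ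
  refine ⟨Nl.unit_of (b0.trans (by linarith)), Nl.unit_of (Nl.Qm_le4 (b0.trans (by linarith))
    (b3.trans (by linarith)) (bZ.trans (by linarith [h.ha])) ?_)⟩
  refine (Wi.norm_cst _).le.trans (norm_le_pt fun s => ?_)
  rw [h.iv_xxe, ContinuousMap.mul_apply, ContinuousMap.pow_apply, norm_mul, norm_pow, h.norm_xi]
  have h1 : (xr R X s)⁻¹ ≤ 1 / 23 := by
    rw [inv_eq_one_div]; exact one_div_le_one_div_of_le (by norm_num) (h.x_ge s)
  have h2 := pow_le_pow_left₀ (inv_pos.2 (h.x_pos s)).le h1 2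
  nlinarith [h.e_le s, norm_nonneg (iv (etC R X a) s), sq_nonneg (xr R X s)⁻¹]

theorem lin {D : Dat ℓ} (hs : Sol R ((X : ℂ), a, D) J) (hJ : InB R K g g' X a M J)
    (hM : M ≤ 1 / 100) : Lin R X a J (GJ R X a J) :=
  (lin_iff h.etC_ne _).2 ⟨hs.jet, (eq_iff h.gam_ne h.etC_ne (h.units hs.jet hJ hM).1
    (h.units hs.jet hJ hM).2).1 hs.eq⟩

/-- `x^{-γ}` -/
def kx (γ : ℝ) : CI := cx h.hX (fun x => ((x ^ (-γ) : ℝ) : ℂ))
  (continuous_ofReal.comp_continuousOn (continuousOn_id.rpow_const fun x hx =>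
    Or.inl (by have := h.hR.trans hx.1; simp only [id]; linarith)))

/-- normalised by the weak weight `x^{γ + n}` -/
def nz (γ : ℝ) (n : ℕ) (u : Wi (om ℓ)) : Wi (om (half ℓ)) :=
  Wi.cst _ (h.kx γ) * Wi.cst _ (iv (gam R X)) ^ n * tH ℓ u

theorem nz_pt (n : ℕ) (u : Wi (om ℓ)) (m : ℤ) (s : II) :
    ‖((om (half ℓ)).w m * Wi.co (h.nz γ n u) m) s‖ *
      (xr R X s ^ n * Ww γ R (ℓ.l m / 2) (xr R X s)) = ‖Wi.co u m s‖ := by
  have hx := h.x_pos s
  rw [norm_w_mul, nz, ← map_pow, ← map_mul, Wi.co_cst_mul, Nl.co_tr, ContinuousMap.mul_apply,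
    ContinuousMap.mul_apply, ContinuousMap.pow_apply, norm_mul, norm_mul, norm_pow, h.norm_xi, kx,
    cx_apply, norm_real, Real.norm_of_nonneg (Real.rpow_nonneg hx.le _), Ww, sig_xr h.hX,
    Real.rpow_neg hx.le, Real.exp_neg, inv_pow]
  have := (Real.rpow_pos_of_pos hx γ).ne'
  change Real.exp (sig (2 * s) * (ℓ.l m / 2)) * _ * _ = _
  field_simp

/-- the nonlinear estimate -/
theorem G_le {c : CI} {ε μ : ℝ} (hj : IsJet c J) (hJ : InB R K g g' X a M J) (hj' : IsJet c J')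
    (hJ' : InB R K g g' X a M J') (hε : ‖a‖ * X ^ 2 + 8 * M ≤ ε) (hε1 : ε ≤ 1 / 64)
    (hμ : ∀ i, ‖h.nz γ (![0, 1, 2, 0, 1, 0] i) (J i - J' i)‖ ≤ μ) :
    ‖h.nz γ 0 (GJ R X a J - GJ R X a J')‖ ≤ 400 * ε * μ := by
  have h8 : 8 * M ≤ ε := by nlinarith [norm_nonneg a, sq_nonneg X]
  have hM : M ≤ 1 / 100 := by linarith
  obtain ⟨b0, b3, b5, b4, bZ, bV, bT, bS⟩ := h.small hj hJ
  obtain ⟨c0, c3, c5, c4, cZ, cV, -, -⟩ := h.small hj' hJ'
  have hμ0 : 0 ≤ μ := (norm_nonneg _).trans (hμ 0)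
  have hx : Wi.cst (om (half ℓ)) (gam R X) * Wi.cst _ (iv (gam R X)) = 1 := by
    rw [← map_mul, mul_iv h.gam_ne, map_one]
  have he : ‖Wi.cst (om (half ℓ)) (iv (etC R X a))‖ ≤ 2 :=
    (Wi.norm_cst _).le.trans (norm_le_pt h.e_le)
  have L : ∀ {u u' : Wi (om ℓ)}, ‖cm (iv (etC R X a)) u‖ ≤ 8 * M →
      ‖cm (iv (etC R X a)) u'‖ ≤ 8 * M → ‖h.nz γ 0 (u - u')‖ ≤ μ →
      Nl.Lp (Wi.cst _ (h.kx γ)) (tH ℓ (cm (iv (etC R X a)) u)) (tH ℓ (cm (iv (etC R X a)) u')) ε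
        (2 * μ) := fun {u u'} p q r => ⟨norm_tH (p.trans h8), norm_tH (q.trans h8), by
    refine le_of_eq_of_le (congrArg _ ?_) (Nl.mul_le he r)
    simp only [nz, map_mul, map_sub, Nl.tr_cst]
    ring⟩
  have key := Nl.G_lip (k := Wi.cst _ (h.kx γ)) hx
    ((Wi.norm_cst _).le.trans (norm_le_pt h.xi_le)) he hε1 (L b0 c0 (hμ 0)) (L b3 c3 (hμ 3))
    (L b5 c5 (hμ 5)) (S := tH ℓ (cm (iv (etC R X a) * iv (gam R X)) (J 4)))
    (S' := tH ℓ (cm (iv (etC R X a) * iv (gam R X)) (J' 4)))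
    ⟨norm_tH (b4.trans h8), norm_tH (c4.trans h8), by
      refine le_of_eq_of_le (congrArg _ ?_) (Nl.mul_le he (hμ 4))
      simp only [nz, map_mul, map_sub, Nl.tr_cst, Matrix.cons_val]
      ring⟩
    ⟨norm_tH (bZ.trans hε), norm_tH (cZ.trans hε), by
      refine le_of_eq_of_le (congrArg _ ?_) ((hμ 1).trans (by linarith))
      simp only [nz, map_mul, map_sub, map_add, Nl.tr_cst, Matrix.cons_val]
      linear_combination (Wi.cst _ (h.kx γ) * Wi.cst _ (iv (gam R X)) *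
        (tH ℓ (J 1) - tH ℓ (J' 1))) * hx⟩
    ⟨norm_tH (bV.trans (by linarith)), norm_tH (cV.trans (by linarith)), by
      refine le_of_eq_of_le (congrArg _ ?_) ((hμ 2).trans (by linarith))
      simp only [nz, map_sub, map_add, Matrix.cons_val]
      ring⟩
    (le_of_eq_of_le (congrArg _ (by simp only [map_mul, Nl.tr_cst]; ring)) (norm_tH (bT.trans h8)))
    (le_of_eq_of_le (congrArg _ (by
      simp only [map_mul, Nl.tr_cst]
      linear_combination (Wi.cst _ (iv (etC R X a)) * tH ℓ (J 4)) * hx)) (norm_tH (bS.trans h8)))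
  refine le_of_eq_of_le (congrArg _ ?_) (key.trans (le_of_eq (by ring)))
  rw [nz, pow_zero, mul_one, map_sub, GJ, GJ,
    Nl.map_G _ _ _ _ (h.units hj hJ hM).1 (h.units hj hJ hM).2,
    Nl.map_G _ _ _ _ (h.units hj' hJ' hM).1 (h.units hj' hJ' hM).2, h.iv_xe, h.iv_xxe, Nl.tr_cst,
    map_mul (Wi.cst (om (half ℓ))), map_pow]

/-- **the weak estimate**; `d m` majorises the data of the mode `m` -/
theorem core {D D' : Dat ℓ} {d : ℤ → ℝ} (h0 : 0 ≤ γ) (h1 : γ ≤ 7 / 8) (hℓ : ℓ.Sm (1 / 50) R)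
    (hs : Sol R ((X : ℂ), a, D) J) (hJ : InB R K g g' X a M J) (hs' : Sol R ((X : ℂ), a, D') J')
    (hJ' : InB R K g g' X a M J') (hε : ‖a‖ * X ^ 2 + 8 * M ≤ 1 / 320000) (hd : Summable d)
    (d0 : ∀ m, 0 ≤ d m)
    (d1 : ∀ m : ℤ, (1 + (m : ℝ) ^ 2) * ‖dw (D - D') m‖ ≤ d m * Ww γ R (ℓ.l m / 2) (pt R X m))
    (d2 : ∀ m : ℤ, (1 + (m : ℝ) ^ 2) * ‖Wi.co (D.2.1 - D'.2.1) m‖ ≤
      d m * ((X + |(m : ℝ)|) * Ww γ R (ℓ.l m / 2) X)) (i : Fin 6) :
    ‖h.nz γ (![0, 1, 2, 0, 1, 0] i) (J i - J' i)‖ ≤ 800 * ∑' m, d m := by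
  have hM : M ≤ 1 / 100 := by nlinarith [norm_nonneg a, sq_nonneg X]
  have hR0 : 0 < R := by linarith [h.hR]
  have hL := Lin.sub (h.lin hs hJ hM) (h.lin hs' hJ' hM)
  set G := GJ R X a J - GJ R X a J' with hG
  set N : Fin 6 → Wi (om (half ℓ)) := fun i => h.nz γ (![0, 1, 2, 0, 1, 0] i) (J i - J' i) with hN
  have hW := fun m : ℤ => (ld_Ww (X := X) γ (ℓ.l m / 2) hR0).pos
  have b1 : ∀ i, ‖N i‖ ≤ 400 * (‖h.nz γ 0 G‖ + ∑' m, d m) := by
    intro i
    refine Wi.norm_le_of (((Wi.hasSum_norm (h.nz γ 0 G)).add hd.hasSum).mul_left 400) fun m => ?_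
    set β := ‖(om (half ℓ)).w m * Wi.co (h.nz γ 0 G) m‖ with hβ
    have β0 : 0 ≤ β := norm_nonneg _
    have m1 : 0 < 1 + (m : ℝ) ^ 2 := by positivity
    have hpt : pt R X m ∈ Icc R X := by
      have := h.hX
      unfold pt; split_ifs <;> constructor <;> linarith
    have hXm : X ∈ Icc R X := ⟨by linarith [h.hX], le_rfl⟩
    refine norm_le_pt fun s => ?_
    have a1 := hL.mode (M := β + d m) (BC.sub hs.bc hs'.bc) h.hX
      (mestW h.hR h.hX h0 h1 h.ha m (t := ℓ.l m / 2) (by linarith [ℓ.nonneg m]) (by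
        have := hℓ m
        rw [div_le_iff₀ two_pos]
        exact this.trans (le_of_eq (by field_simp; ring))))
      (add_nonneg β0 (d0 m)) (fun s => by
        rw [← h.nz_pt (γ := γ) 0 G m s, pow_zero, one_mul]
        exact mul_le_mul_of_nonneg_right ((ContinuousMap.norm_coe_le_norm _ s).trans
          (le_add_of_nonneg_right (d0 m))) (hW m _ (xr_mem' h.hX s)).le)
      (by
        rw [← mul_div_assoc, le_div_iff₀' m1]
        exact (d1 m).trans (mul_le_mul_of_nonneg_right (le_add_of_nonneg_left β0) (hW m _ hpt).le))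
      (by
        rw [← mul_div_assoc, le_div_iff₀' m1]
        exact (d2 m).trans (mul_le_mul_of_nonneg_right (le_add_of_nonneg_left β0)
          (mul_nonneg (by linarith [abs_nonneg (m : ℝ), h.hX]) (hW m _ hXm).le))) i s
    have e : wF (Ww γ R (ℓ.l m / 2)) i (xr R X s) =
        xr R X s ^ (![0, 1, 2, 0, 1, 0] i : ℕ) * Ww γ R (ℓ.l m / 2) (xr R X s) := by
      fin_cases i <;> simp [wF]
    rw [e, Pi.sub_apply, ← h.nz_pt (γ := γ) (![0, 1, 2, 0, 1, 0] i)] at a1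
    refine le_of_mul_le_mul_right (a1.trans (le_of_eq (by ring)))
      (mul_pos (pow_pos (h.x_pos s) _) (hW m _ (xr_mem' h.hX s)))
  have b2 := h.G_le (γ := γ) hs.jet hJ hs'.jet hJ' hε (by norm_num) (norm_le_pi_norm N)
  have b0 : 0 ≤ ∑' m, d m := tsum_nonneg d0
  have b3 : ‖N‖ ≤ 400 * (‖h.nz γ 0 G‖ + ∑' m, d m) :=
    (pi_norm_le_iff_of_nonneg (by positivity)).2 b1
  exact (norm_le_pi_norm N i).trans (by linarith)

theorem wc {N : ℝ} (hN : ∀ i, ‖h.nz (7 / 8) (![0, 1, 2, 0, 1, 0] i) (J i - J' i)‖ ≤ N) :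
    Wc R X J J' N := fun i =>
  ⟨_, Wi.summable_w (h.nz (7 / 8) (![0, 1, 2, 0, 1, 0] i) (J i - J' i)),
    (Wi.norm_eq _).symm.trans_le (hN i), fun m s => by
      rw [← h.nz_pt (γ := 7 / 8) (![0, 1, 2, 0, 1, 0] i) (J i - J' i) m s, Ww, sig_xr h.hX,
        Real.exp_neg, mul_div_assoc]
      refine le_of_eq_of_le ?_ (mul_le_mul_of_nonneg_right (ContinuousMap.norm_coe_le_norm _ s)
        (by have := h.x_pos s; positivity))
      field_simp⟩

end Ez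

end Wk

open Wk in
theorem wkS_holds : WkS := by
  intro g g' hg
  refine ⟨23, 1 / 50, 1 / 5120000, 1 / 640000, 10000, by norm_num, by norm_num, by norm_num,
    by norm_num, fun ℓ R K X a D D' J J' γ hR hℓ hX hK hKX ha hs hJ hs' hJ' hb hγ hH => ?_⟩
  have h : Ez R K g g' X a := ⟨hR, by linarith, hK, hKX, by linarith [hg.1],
    by linarith [hg.1, hg.2.2], hg.2.1.le, by linarith⟩
  have hX0 : 0 < X := by linarith
  have γ0 : ∀ m, 0 ≤ γ m := fun m => le_trans (by positivity) (hH m)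
  set A := X ^ (-7 / 8 : ℝ) with hA
  set B := X ^ (-15 / 8 : ℝ) with hB
  have A0 : 0 < A := Real.rpow_pos_of_pos hX0 _
  have B0 : 0 < B := Real.rpow_pos_of_pos hX0 _
  have eA : A * X ^ (7 / 8 : ℝ) = 1 := by
    rw [hA, ← Real.rpow_add hX0]; norm_num
  have eB : B * (X * X ^ (7 / 8 : ℝ)) = 1 := by
    rw [hB, ← Real.rpow_one_add' hX0.le (by norm_num), ← Real.rpow_add hX0]; norm_num
  set p := ‖D.2.2.1 - D'.2.2.1‖ with hp
  set q := ‖D.2.2.2 - D'.2.2.2‖ with hq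
  have p0 : 0 ≤ p := norm_nonneg _
  have q0 : 0 ≤ q := norm_nonneg _
  have hsum : HasSum (fun m : ℤ => B * γ m + ((if m = 1 then 6 * A * p else 0) +
      if m = -1 then 6 * A * q else 0)) (B * ∑' m, γ m + (6 * A * p + 6 * A * q)) :=
    (hγ.hasSum.mul_left B).add ((hasSum_ite_eq 1 _).add (hasSum_ite_eq (-1) _))
  have i0 : ∀ m : ℤ, 0 ≤ (if m = 1 then 6 * A * p else 0) + if m = -1 then 6 * A * q else 0 :=
    fun m => add_nonneg (by split_ifs <;> positivity) (by split_ifs <;> positivity)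
  have hW : ∀ m : ℤ, X ^ (7 / 8 : ℝ) * Real.exp (-(ℓ.l m / 2)) ≤ Ww (7 / 8) R (ℓ.l m / 2) X :=
    fun m => mul_le_mul_of_nonneg_left (Real.exp_le_exp.2 (neg_le_neg (mul_le_of_le_one_left
      (by linarith [ℓ.nonneg m]) (sub_le_self _ (pow_nonneg (le_max_right _ _) _)))))
      (by positivity)
  have hW1 : ∀ m : ℤ, |(m : ℝ)| = 1 → 1 ≤ 3 * A * Ww (7 / 8) R (ℓ.l m / 2) X := fun m hm => by
    have a1 := hℓ m
    rw [hm, le_div_iff₀ (by linarith)] at a1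
    have a2 := Real.add_one_le_exp (-(ℓ.l m / 2))
    have a3 : ℓ.l m ≤ 1 := by nlinarith [ℓ.nonneg m]
    have a4 := mul_le_mul_of_nonneg_left (hW m) A0.le
    rw [← mul_assoc, eA] at a4
    linarith
  refine h.wc fun i => (h.core (by norm_num) le_rfl hℓ hs hJ hs' hJ' (by linarith) hsum.summable
    (fun m => add_nonneg (mul_nonneg B0.le (γ0 m)) (i0 m)) (fun m => ?_) (fun m => ?_) i).trans ?_
  · have W0 : 0 ≤ Ww (7 / 8) R (ℓ.l m / 2) (pt R X m) := by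
      have : 0 ≤ pt R X m := by unfold pt; split_ifs <;> linarith
      unfold Ww; positivity
    have Bγ := mul_nonneg (mul_nonneg B0.le (γ0 m)) W0
    by_cases hm : 2 ≤ |m|
    · have : dw (D - D') m = 0 := by simp [dw, hm, hb]
      rw [this, norm_zero, mul_zero]
      exact mul_nonneg (add_nonneg (mul_nonneg B0.le (γ0 m)) (i0 m)) W0
    · rw [pt, if_neg hm] at Bγ ⊢
      rcases small_cases hm with rfl | rfl | rfl
      · simpa [dw] using Bγ
      · have := mul_le_mul_of_nonneg_left (hW1 1 (by simp)) p0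
        have e : dw (D - D') 1 = D.2.2.1 - D'.2.2.1 := by simp [dw]
        rw [e, if_pos rfl, if_neg (by decide)]
        push_cast
        linarith
      · have := mul_le_mul_of_nonneg_left (hW1 (-1) (by simp)) q0
        have e : dw (D - D') (-1) = D.2.2.2 - D'.2.2.2 := by simp [dw]
        rw [e, if_neg (by decide), if_pos rfl]
        push_cast
        linarith
  · have a1 := mul_le_mul_of_nonneg_right (hH m) (Real.exp_pos (-(ℓ.l m / 2))).le
    rw [mul_right_comm, mul_assoc ((1 + |(m : ℝ)|) ^ 2), ← Real.exp_add, add_neg_cancel,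
      Real.exp_zero, mul_one] at a1
    have a2 : 1 + (m : ℝ) ^ 2 ≤ (1 + |(m : ℝ)|) ^ 2 := by
      rw [← sq_abs]; nlinarith [abs_nonneg (m : ℝ)]
    refine (mul_le_mul_of_nonneg_right a2 (norm_nonneg _)).trans (a1.trans ?_)
    calc γ m * Real.exp (-(ℓ.l m / 2))
        = B * γ m * (X * (X ^ (7 / 8 : ℝ) * Real.exp (-(ℓ.l m / 2)))) := by
          linear_combination (-(γ m * Real.exp (-(ℓ.l m / 2)))) * eB
      _ ≤ _ := mul_le_mul (le_add_of_nonneg_right (i0 m)) (mul_le_mul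
          (le_add_of_nonneg_right (abs_nonneg _)) (hW m) (by positivity) (by positivity))
          (by positivity) (add_nonneg (mul_nonneg B0.le (γ0 m)) (i0 m))
  · rw [hsum.tsum_eq]
    have : 0 ≤ B * ∑' m, γ m := mul_nonneg B0.le (tsum_nonneg γ0)
    have := mul_nonneg A0.le p0
    have := mul_nonneg A0.le q0
    linarith

end Crest.Agent.N250.B1

end
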