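import Crest.Agent.N250.B1.Drift1
import Crest.Agent.N250.B1.Wk2

/-! # Row 250, block B1, S10 (helper53): the drift statement -/

set_option autoImplicit false

namespace Crest.Agent.N250.B1

theorem driftS_holds : DriftS := driftS_of_wk wkS_holds

end Crest.Agent.N250.B1
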