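import Crest.Agent.N250.B1.End0
import Crest.Agent.N250.B1.Gam

/-!
# Row 250, B1 (helper3): holomorphy of the source and of the conversion
-/

set_option autoImplicit false
open Set Complex

noncomputable section

namespace Crest.Agent.N250.B1

namespace Hol

variable {ℓ : Ell} {R K g g' X0 ν δ A M : ℝ} {a0 X a : ℂ} {J : Jt ℓ}

theorem eC_ne (hN : Nr R X0 a0 δ A X a) (s : II) : eC R X0 X s ≠ 0 :=
  norm_pos_iff.1 (by linarith [(hN s).n6'])

theorem etC_ne (hN : Nr R X0 a0 δ A X a) (s : II) : etC R X a s ≠ 0 := by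
  rw [etC_apply]
  exact norm_pos_iff.1 (by linarith [(hN s).n4, norm_nonneg (et a0 (xr R X0 s))])

theorem gam_ne (hB : Bs R K g g' X0 a0 ν) (hN : Nr R X0 a0 δ A X a) (s : II) : gam R X s ≠ 0 :=
  norm_pos_iff.1 (by linarith [(hN s).n5', (hB.2 s).x_pos])

/-- `|1 / η| Re η₀ ≤ 2` -/
theorem iv_le (hB : Bs R K g g' X0 a0 ν) (hN : Nr R X0 a0 δ A X a) (s : II) {t : ℝ}
    (ht : t ≤ (et a0 (xr R X0 s)).re) : ‖iv (etC R X a) s‖ * t ≤ 2 * 1 := by
  have h1 := (hN s).n4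
  have h2 := re_le_norm (et a0 (xr R X0 s))
  rw [iv_apply (etC_ne hN), etC_apply, norm_inv, inv_mul_le_iff₀ (by linarith [(hB.2 s).norm_pos])]
  linarith

theorem y_le (hB : Bs R K g g' X0 a0 ν) (hN : Nr R X0 a0 δ A X a) (h : InB R K g g' X0 a0 M J) :
    ‖cm (iv (etC R X a)) (J 0)‖ ≤ 2 * M :=
  wb_one_iff.1 (h.b0.cm (X' := X0) (fun s => (hB.2 s).rho_pos) (fun s => (hB.2 s).W_pos) two_pos.le
    (.inr fun s => iv_le hB hN s (hB.2 s).rho_le) fun s => iv_le hB hN s (hB.2 s).W_le)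

theorem T_le (hB : Bs R K g g' X0 a0 ν) (hN : Nr R X0 a0 δ A X a) {u : Wi (om ℓ)}
    (h : WB R X0 (fun _ => 1) (W g g' a0) u M) (h0 : Wi.co u 0 = 0) :
    ‖cm (iv (etC R X a)) u‖ ≤ 2 * M :=
  wb_one_iff.1 (h.cm (X' := X0) (fun _ => one_pos) (fun s => (hB.2 s).W_pos) two_pos.le
    (.inl ⟨h0, fun _ => zero_le_one⟩) fun s => iv_le hB hN s (hB.2 s).W_le)

theorem xp_le (hB : Bs R K g g' X0 a0 ν) (hN : Nr R X0 a0 δ A X a) (h : InB R K g g' X0 a0 M J) :
    ‖cm (gam R X) (J 1)‖ ≤ 2 * M := by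
  refine wb_one_iff.1 (h.b1.cm (X' := X0) (fun s => inv_pos.2 (hB.2 s).x_pos) (fun s => div_pos
    (hB.2 s).W_pos (mul_pos (hB.2 s).x_pos (hB.2 s).norm_pos)) two_pos.le (.inr fun s => ?_)
    fun s => ?_)
  · rw [← div_eq_mul_inv, div_le_iff₀ (hB.2 s).x_pos]
    linarith [(hN s).n5]
  · rw [← mul_div_assoc, div_le_iff₀ (mul_pos (hB.2 s).x_pos (hB.2 s).norm_pos), mul_one, ← mul_assoc]
    exact mul_le_mul (hN s).n5.le ((hB.2 s).W_le.trans (re_le_norm _)) (hB.2 s).W_pos.le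
      (by linarith [(hB.2 s).x_pos])

theorem Z_le (hB : Bs R K g g' X0 a0 ν) (hN : Nr R X0 a0 δ A X a) (h : InB R K g g' X0 a0 M J) :
    ‖Wi.cst (om ℓ) (a • gam R X ^ 2) + cm (gam R X) (J 1)‖ ≤ 3 + 2 * M := by
  refine Nl.add_le ?_ (xp_le hB hN h)
  rw [Wi.norm_cst]
  exact (ContinuousMap.norm_le _ (by norm_num)).2 fun s => (hN s).n8.le

theorem n_le (hB : Bs R K g g' X0 a0 ν) (hN : Nr R X0 a0 δ A X a) :
    ‖Wi.cst (om ℓ) (iv (gam R X ^ 2 * etC R X a))‖ ≤ 8 * ν := by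
  have hν : ∀ s : II, 0 < ν := fun s => pos_of_mul_pos_left
    (one_pos.trans_le (hB.2 s).nu) (mul_pos (pow_pos (hB.2 s).x_pos 2) (hB.2 s).re_pos).le
  rw [Wi.norm_cst]
  refine (ContinuousMap.norm_le _ (by linarith [hν i0])).2 fun s => ?_
  have b := hB.2 s
  have h1 : xr R X0 s ^ 2 ≤ (2 * ‖gam R X s‖) ^ 2 := pow_le_pow_left₀ b.x_pos.le (hN s).n5'.le 2
  have h2 : (et a0 (xr R X0 s)).re ≤ 2 * ‖et a (gam R X s)‖ := (re_le_norm _).trans (hN s).n4.le
  have h3 := mul_le_mul_of_nonneg_left (mul_le_mul h1 h2 b.re_pos.le (sq_nonneg _)) (hν s).le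
  have h4 : ∀ s, (gam R X ^ 2 * etC R X a) s ≠ 0 := fun s =>
    mul_ne_zero (pow_ne_zero 2 (gam_ne hB hN s)) (etC_ne hN s)
  rw [iv_apply h4, norm_inv, ← one_div, div_le_iff₀ (norm_pos_iff.2 (h4 s)), ContinuousMap.mul_apply,
    ContinuousMap.pow_apply, etC_apply, norm_mul, norm_pow]
  linarith [b.nu]

/-- the two inverses in `GJ` are honest -/
theorem units (hB : Bs R K g g' X0 a0 ν) (hN : Nr R X0 a0 δ A X a) (hν : ν ≤ 1 / 1000)
    (h : InB R K g g' X0 a0 M J) (h3 : Wi.co (J 3) 0 = 0) (hM : 32 * M ≤ 1) :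
    ‖cm (iv (etC R X a)) (J 0)‖ ≤ 1 / 2 ∧ ‖Nl.Qm (cm (iv (etC R X a)) (J 0)) (cm (iv (etC R X a)) (J 3))
      (Wi.cst _ (a • gam R X ^ 2) + cm (gam R X) (J 1))
      (Wi.cst _ (iv (gam R X ^ 2 * etC R X a)))‖ ≤ 1 / 2 := by
  have y : _ ≤ (1 / 16 : ℝ) := (y_le hB hN h).trans (by linarith)
  have T : _ ≤ (1 / 16 : ℝ) := (T_le hB hN h.b3 h3).trans (by linarith)
  have Z : _ ≤ (4 : ℝ) := (Z_le hB hN h).trans (by linarith)
  have n : _ ≤ (1 / 125 : ℝ) := (n_le (ℓ := ℓ) hB hN).trans (by linarith)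
  have y' := y.trans (show (1 / 16 : ℝ) ≤ 1 / 2 by norm_num)
  exact ⟨y', (Nl.add_le (Nl.add_le y (Nl.mul_le (Nl.mul_le Nl.hf_le n) (Nl.pow_le Z 2)))
    (Nl.mul_le (Nl.mul_le (Nl.pow_le Nl.hf_le 2) (Nl.inv_le y')) (Nl.pow_le T 2))).trans (by norm_num)⟩

variable {E : Type} [NormedAddCommGroup E] [NormedSpace ℂ E] {U : Set E}

/-- holomorphy of the nonlinearity wherever the two inverses exist -/
theorem diff_G' {B : Type} [NormedCommRing B] [NormOneClass B] [NormedAlgebra ℂ B] [CompleteSpace B]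
    {y T TT Z S V n : E → B} (hy : DifferentiableOn ℂ y U)
    (hT : DifferentiableOn ℂ T U) (hTT : DifferentiableOn ℂ TT U) (hZ : DifferentiableOn ℂ Z U)
    (hS : DifferentiableOn ℂ S U) (hV : DifferentiableOn ℂ V U) (hn : DifferentiableOn ℂ n U)
    (h : ∀ z ∈ U, IsUnit (1 + y z)) (h' : ∀ z ∈ U, IsUnit (1 + Nl.Qm (y z) (T z) (Z z) (n z))) :
    DifferentiableOn ℂ (fun z => Nl.G (y z) (T z) (TT z) (Z z) (S z) (V z) (n z)) U := by
  have hu := Nl.diff_uu hy h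
  have hj := Nl.diff_jj hy hT hZ hn h h'
  unfold Nl.G Nl.Gp
  fun_prop

theorem diff_cm {φ : E → CI} {u : E → Wi (om ℓ)} (h : DifferentiableOn ℂ φ U)
    (h' : DifferentiableOn ℂ u U) : DifferentiableOn ℂ (fun p => cm (φ p) (u p)) U :=
  (Nl.diff_cst h).mul h'

theorem diff_iv {φ : E → CI} (h : DifferentiableOn ℂ φ U) (hne : ∀ p ∈ U, ∀ s, φ p s ≠ 0) :
    DifferentiableOn ℂ (fun p => iv (φ p)) U := h.inverse fun p hp => unit_of_ne (hne p hp)

variable {Xf af : E → ℂ}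

theorem diff_gam (h : DifferentiableOn ℂ Xf U) : DifferentiableOn ℂ (fun p => gam R (Xf p)) U :=
  Differentiable.comp_differentiableOn (fun X => (hasDerivAt_gam R X).differentiableAt) h

theorem diff_eC (h : DifferentiableOn ℂ Xf U) : DifferentiableOn ℂ (fun p => eC R X0 (Xf p)) U :=
  (Differentiable.comp_differentiableOn (fun X => (hasDerivAt_dgam R X).differentiableAt) h).mul_const _

theorem diff_kC (h : DifferentiableOn ℂ Xf U) : DifferentiableOn ℂ (fun p => kC R X0 (Xf p)) U :=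
  ((h.sub_const _).const_mul _).smul_const _

theorem diff_etC (h : DifferentiableOn ℂ Xf U) (h' : DifferentiableOn ℂ af U) :
    DifferentiableOn ℂ (fun p => etC R (Xf p) (af p)) U := by
  have x := diff_gam (R := R) h
  unfold etC
  fun_prop

theorem diff_ev {φ : E → CI} (h : DifferentiableOn ℂ φ U) (s : II) :
    DifferentiableOn ℂ (fun p => φ p s) U :=
  ((ContinuousMap.evalCLM ℂ s : CI →L[ℂ] ℂ).differentiable.comp_differentiableOn h :)

theorem diff_src {Jf : E → Jt ℓ} (hX : DifferentiableOn ℂ Xf U)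
    (j : ∀ i, DifferentiableOn ℂ (fun p => Jf p i) U)
    (iη : DifferentiableOn ℂ (fun p => iv (etC R (Xf p) (af p))) U)
    (G : DifferentiableOn ℂ (fun p => GJ R (Xf p) (af p) (Jf p)) U) :
    DifferentiableOn ℂ (fun p => src R X0 a0 (Xf p) (af p) (Jf p)) U := by
  have x := diff_gam (R := R) hX
  have e := diff_eC (R := R) (X0 := X0) hX
  have k := diff_kC (R := R) (X0 := X0) hX
  have c1 : DifferentiableOn ℂ (fun p => eC R X0 (Xf p) ^ 2) U := by fun_prop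
  have c2 : DifferentiableOn ℂ (fun p => (1 / 2 : ℂ) • (eC R X0 (Xf p) ^ 2 * gam R (Xf p)) +
      kC R X0 (Xf p) - (1 / 2 : ℂ) • (eC R X0 (Xf p) * gam R X0)) U := by fun_prop
  have c3 : DifferentiableOn ℂ (fun p => 1 - eC R X0 (Xf p) ^ 2) U := by fun_prop
  have c4 : DifferentiableOn ℂ (fun p => (1 / 2 : ℂ) • (iv (etC R X0 a0) -
      eC R X0 (Xf p) ^ 2 * iv (etC R (Xf p) (af p)))) U := by fun_prop
  exact (((diff_cm c1 G).fun_add (diff_cm c2 (j 1))).fun_add (diff_cm c3 (j 0))).fun_add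
    (diff_cm c4 (j 5))

end Hol

open Hol in
theorem holS_holds : HolS := by
  intro ℓ R K g g' X0 a0 ν δ A M E _ _ U X a J hB hν hN hX ha hJ
  have j := differentiableOn_pi.1 hJ
  have x := diff_gam (R := R) hX
  have e := diff_eC (R := R) (X0 := X0) hX
  have k := diff_kC (R := R) (X0 := X0) hX
  have η := diff_etC (R := R) hX ha
  have ie := diff_iv e fun p hp => eC_ne (hN p hp)
  have iη := diff_iv η fun p hp => etC_ne (hN p hp)
  refine ⟨differentiableOn_pi.2 fun i => ?_, diff_ev e i1, fun h hM => ?_⟩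
  · fin_cases i
    exacts [j 0, diff_cm ie (j 1), diff_cm (ie.pow 2) ((j 2).sub (diff_cm (k.mul ie) (j 1))), j 3,
      diff_cm ie (j 4), j 5]
  · have u := fun p hp => units hB (hN p hp) hν (h p hp).1 (h p hp).2.1 hM
    have G : DifferentiableOn ℂ (fun p => GJ R (X p) (a p) (J p)) U :=
      diff_G' (diff_cm iη (j 0)) (diff_cm iη (j 3)) (diff_cm iη (j 5))
        ((Nl.diff_cst (ha.smul (x.pow 2))).add (diff_cm x (j 1)))
        (diff_cm (diff_iv (x.mul η) fun p hp s => mul_ne_zero (gam_ne hB (hN p hp) s)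
          (etC_ne (hN p hp) s)) (j 4))
        ((Nl.diff_cst (cst.differentiable.comp_differentiableOn ha)).add (j 2))
        (Nl.diff_cst (diff_iv ((x.pow 2).mul η) fun p hp s =>
          mul_ne_zero (pow_ne_zero 2 (gam_ne hB (hN p hp) s)) (etC_ne (hN p hp) s)))
        (fun p hp => Nl.unit_of (u p hp).1) fun p hp => Nl.unit_of (u p hp).2
    exact diff_src hX j iη G

end Crest.Agent.N250.B1

end
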