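import Crest.Agent.N250.B1.Low

/-!
Row 250, helper75 (S2).  Modes `±1`: `w'' = (x/2) w' + V w + g`, weight `Ω`, source weight `μ Ω`.
-/

set_option autoImplicit false

open Set Filter Topology

namespace Crest.Agent.N250.B1

/-- hypotheses on the weights of a backward mode -/
structure Lo1 (R X κ : ℝ) (V l l1 : ℝ → ℂ) (μ lm Ω lam : ℝ → ℝ) : Prop where
  R0 : 0 < R
  κ0 : 0 < κ
  dl : Dv R X l l1
  dμ : Dv R X μ fun x => lm x * μ x
  dΩ : Dv R X Ω fun x => lam x * Ω x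
  μ0 : ∀ x ∈ Icc R X, 0 < μ x
  Ω0 : ∀ x ∈ Icc R X, 0 < Ω x
  lm_le : ∀ x ∈ Icc R X, lm x ≤ x / 16
  lam_le : ∀ x ∈ Icc R X, lam x ≤ x / 16
  l_le : ∀ x ∈ Icc R X, (l x).re ≤ x / 8
  gap : ∀ x ∈ Icc R X, x * (lam x - (l x).re) ≤ -(κ * μ x)
  res : ∀ x ∈ Icc R X, 8 * ‖V x - (l1 x + l x * l x - (x : ℂ) / 2 * l x)‖ ≤ κ * μ x

lemma Lo1.loB {R X κ : ℝ} {V l l1 : ℝ → ℂ} {μ lm Ω lam : ℝ → ℝ}
    (h : Lo1 R X κ V l l1 μ lm Ω lam) (hRX : R ≤ X) :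
    LoB R X (fun x => (x : ℂ) / 2) V l l1 (fun x => κ / 4 * (μ x * Ω x))
      (fun x => κ * (μ x * Ω x * x⁻¹)) (fun x => (lm x + lam x - x⁻¹) * (κ * (μ x * Ω x * x⁻¹))) Ω
      (fun x => lam x * Ω x) := by
  have h0 : ∀ x ∈ Icc R X, 0 < x := fun x hx => h.R0.trans_le hx.1
  have hκ := h.κ0
  refine ⟨by fun_prop, h.dl, fun x hx => ?_, h.dΩ, h.Ω0, ?_, fun x hx => ?_, fun x hx => ?_,
    fun x hx => ?_⟩
  · have := ((((h.dμ x hx).mul (h.dΩ x hx)).mul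
      (hasDerivAt_inv (h0 x hx).ne').hasDerivWithinAt).const_mul κ)
    refine this.congr_deriv ?_
    have := (h0 x hx).ne'
    simp only [Pi.mul_apply]
    field_simp
    ring
  · have hX := right_mem_Icc.2 hRX
    have := h.μ0 X hX; have := h.Ω0 X hX; have := h0 X hX
    positivity
  · have a := h.μ0 x hx; have b := h.Ω0 x hx; have c := h0 x hx
    have e : ((x : ℂ) / 2 - l x).re = x / 2 - (l x).re := by rw [Complex.sub_re]; simp
    rw [e]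
    have p : 0 < κ * (μ x * Ω x * x⁻¹) := by positivity
    have q : κ / 4 * (μ x * Ω x) = x / 4 * (κ * (μ x * Ω x * x⁻¹)) := by field_simp
    have r : x / 4 + (lm x + lam x - x⁻¹) ≤ x / 2 - (l x).re := by
      have := inv_pos.2 c
      linarith [h.lm_le x hx, h.lam_le x hx, h.l_le x hx]
    rw [q, ← add_mul]
    exact mul_le_mul_of_nonneg_right r p.le
  · have b := h.Ω0 x hx; have c := h0 x hx
    have r : κ * μ x * x⁻¹ + lam x ≤ (l x).re := by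
      have := h.gap x hx
      have e : κ * μ x * x⁻¹ ≤ (l x).re - lam x := by
        rw [← div_eq_mul_inv, div_le_iff₀ c]; linarith
      linarith
    have := mul_le_mul_of_nonneg_right r b.le
    linarith
  · have b := h.Ω0 x hx
    have := mul_le_mul_of_nonneg_right (h.res x hx) b.le
    linarith

/-- **modes `±1`** -/
theorem Lo1.le {R X κ : ℝ} {V l l1 : ℝ → ℂ} {μ lm Ω lam : ℝ → ℝ}
    (h : Lo1 R X κ V l l1 μ lm Ω lam) {g w w1 : ℝ → ℂ}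
    (hs : Sol2 R X (fun x => (x : ℂ) / 2) V g w w1) {M : ℝ} (hM : 0 ≤ M)
    (hg : ∀ x ∈ Icc R X, ‖g x‖ ≤ M * (μ x * Ω x)) (h0 : ‖w X‖ ≤ 8 * M / κ * Ω X)
    (h1 : X * ‖w1 X - l X * w X‖ ≤ 8 * M * (μ X * Ω X)) :
    ∀ x ∈ Icc R X, ‖w x‖ ≤ 8 * M / κ * Ω x ∧ x * ‖w1 x - l x * w x‖ ≤ 8 * M * (μ x * Ω x) := by
  intro x hx
  have hRX : R ≤ X := hx.1.trans hx.2
  have hκ := h.κ0
  have X0 : 0 < X := h.R0.trans_le hRX
  have x0 : 0 < x := h.R0.trans_le hx.1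
  have e : ∀ y : ℝ, 0 < y → 2 * (4 * M / κ) * (κ * (μ y * Ω y * y⁻¹)) = 8 * M * (μ y * Ω y) / y :=
    fun y hy => by field_simp; ring
  obtain ⟨k1, k2⟩ := (h.loB hRX).le hs (M := 4 * M / κ) (by positivity)
    (fun y hy => (hg y hy).trans (le_of_eq (by field_simp))) (h0.trans (le_of_eq (by ring)))
    (by rw [e X X0, le_div_iff₀ X0]; linarith) x hx
  rw [e x x0, le_div_iff₀ x0] at k2
  exact ⟨k1.trans (le_of_eq (by ring)), by linarith⟩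

end Crest.Agent.N250.B1
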