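import Crest.Agent.N250.B1.Wt
import Crest.Agent.N250.B1.Low1

/-! # Row 250, block B1, leaf S3: the disc of parameters, `ρ`, the barrier for the high modes -/

set_option autoImplicit false

open Set Filter Topology

namespace Crest.Agent.N250.B1

noncomputable section

/-! ### the disc of parameters -/

section disc
variable {a : ℂ} {K N R X x ε : ℝ}

lemma disc_iff (z : ℂ) : ‖z - 9 / 8‖ ≤ 9 / 8 ↔ 4 * ‖z‖ ^ 2 ≤ 9 * z.re := by
  rw [← sq_le_sq₀ (norm_nonneg _) (by norm_num), ← Complex.normSq_eq_norm_sq,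
    ← Complex.normSq_eq_norm_sq, Complex.normSq_apply, Complex.normSq_apply]
  simp only [Complex.sub_re, Complex.sub_im, Complex.div_ofNat_re, Complex.div_ofNat_im,
    Complex.re_ofNat, Complex.im_ofNat]
  constructor <;> intro h <;> nlinarith

lemma et_eq_tau (hX : 0 < X) (a : ℂ) (x : ℝ) : et a x =
    1 + (((x ^ 2 - 2) / X ^ 2 : ℝ) : ℂ) / 8 +
      (((x ^ 2 - 2) / X ^ 2 : ℝ) : ℂ) * (a * X ^ 2 / 2 - 1 / 8) := by
  have : (X : ℂ) ≠ 0 := by exact_mod_cast hX.ne'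
  unfold et; push_cast; field_simp; ring

lemma tau_mem (hX : 0 < X) (h2 : 2 ≤ x ^ 2) (hx : x ^ 2 ≤ X ^ 2) :
    0 ≤ (x ^ 2 - 2) / X ^ 2 ∧ (x ^ 2 - 2) / X ^ 2 ≤ 1 :=
  ⟨div_nonneg (by linarith) (by positivity), (div_le_one (by positivity)).2 (by linarith)⟩

lemma Adm.rho_le (h : Adm K X a) (hX : 0 < X) (h2 : 2 ≤ x ^ 2) : rho K X x ≤ (et a x).re := by
  have t0 : 0 ≤ (x ^ 2 - 2) / X ^ 2 := div_nonneg (by linarith) (by positivity)
  rw [et_eq_tau hX, rho]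
  set τ := (x ^ 2 - 2) / X ^ 2
  have h1 := (abs_le.1 (Complex.abs_re_le_norm (a * X ^ 2 / 2 - 1 / 8))).1
  unfold Adm at h
  rw [Complex.add_re, Complex.add_re, Complex.re_ofReal_mul, Complex.div_ofNat_re,
    Complex.ofReal_re, Complex.one_re]
  nlinarith

lemma Adm.disc (h : Adm K X a) (hK : 0 ≤ K) (hX : 0 < X) (h2 : 2 ≤ x ^ 2) (hx : x ^ 2 ≤ X ^ 2) :
    4 * ‖et a x‖ ^ 2 ≤ 9 * (et a x).re := by
  obtain ⟨t0, t1⟩ := tau_mem hX h2 hx
  rw [← disc_iff, et_eq_tau hX]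
  set τ := (x ^ 2 - 2) / X ^ 2
  have e : 1 + (τ : ℂ) / 8 + τ * (a * X ^ 2 / 2 - 1 / 8) - 9 / 8 =
      ((-(1 - τ) / 8 : ℝ) : ℂ) + τ * (a * X ^ 2 / 2 - 1 / 8) := by push_cast; ring
  rw [e]
  refine (norm_add_le _ _).trans ?_
  rw [norm_mul, Complex.norm_real, Complex.norm_real, Real.norm_of_nonneg t0,
    Real.norm_of_nonpos (by linarith)]
  unfold Adm at h
  have : 0 ≤ 2 * K / X ^ 2 := by positivity
  nlinarith

lemma Adm.norm_le (h : Adm K X a) (hK : 0 ≤ K) : ‖a‖ * X ^ 2 ≤ 5 / 2 := by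
  unfold Adm at h
  have h0 : 0 ≤ 2 * K / X ^ 2 := by positivity
  have h1 := norm_add_le (a * X ^ 2 / 2 - 1 / 8) (1 / 8)
  have e1 : ‖(1 / 8 : ℂ)‖ = 1 / 8 := by simp
  have e2 : ‖a * X ^ 2 / 2 - 1 / 8 + 1 / 8‖ = ‖a‖ * X ^ 2 / 2 := by simp
  rw [e1, e2] at h1; linarith

lemma kx_mem (hK : 0 ≤ K) (hX : 0 < X) (h4 : 4 * K ≤ X ^ 2) :
    0 ≤ 2 * K / X ^ 2 ∧ 2 * K / X ^ 2 ≤ 1 / 2 :=
  ⟨by positivity, by rw [div_le_iff₀ (by positivity)]; linarith⟩

lemma rho_ge (hK : 0 ≤ K) (hX : 0 < X) (h4 : 4 * K ≤ X ^ 2) (hx : x ^ 2 ≤ X ^ 2) :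
    2 * K / X ^ 2 ≤ rho K X x := by
  obtain ⟨k0, k1⟩ := kx_mem hK hX h4
  have t1 : (x ^ 2 - 2) / X ^ 2 ≤ 1 := (div_le_one (by positivity)).2 (by linarith)
  rw [rho]; nlinarith

lemma rho_le_one (hK : 0 ≤ K) (hX : 0 < X) (h4 : 4 * K ≤ X ^ 2) (h2 : 2 ≤ x ^ 2) :
    rho K X x ≤ 1 := by
  obtain ⟨k0, k1⟩ := kx_mem hK hX h4
  have t0 : 0 ≤ (x ^ 2 - 2) / X ^ 2 := div_nonneg (by linarith) (by positivity)
  rw [rho]; nlinarith

lemma rho_ge' (hK : 0 ≤ K) (hX : 0 < X) (h2 : 2 ≤ x ^ 2) : 1 - x ^ 2 / X ^ 2 ≤ rho K X x := by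
  have k0 : 0 ≤ 2 * K / X ^ 2 := by positivity
  have t0 : 0 ≤ (x ^ 2 - 2) / X ^ 2 := div_nonneg (by linarith) (by positivity)
  have t1 : (x ^ 2 - 2) / X ^ 2 ≤ x ^ 2 / X ^ 2 := by gcongr; linarith
  rw [rho]; nlinarith

lemma sq_rho_ge (hN : 0 ≤ N) (hK : N ≤ K) (hX : 0 < X) (h4 : 4 * K ≤ X ^ 2) (h2 : 2 ≤ x ^ 2)
    (hR : 2 * N ≤ x ^ 2) (hx : x ^ 2 ≤ X ^ 2) : N ≤ x ^ 2 * rho K X x := by
  have hK0 : 0 ≤ K := hN.trans hK
  rcases le_total (x ^ 2) (X ^ 2 / 2) with h | h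
  · have h0 := rho_ge' hK0 hX h2
    have h1 : x ^ 2 / X ^ 2 ≤ 1 / 2 := by rw [div_le_iff₀ (by positivity)]; linarith
    nlinarith
  · have h1 := rho_ge hK0 hX h4 hx
    have k0 : 0 ≤ 2 * K / X ^ 2 := by positivity
    calc N ≤ K := hK
      _ = X ^ 2 / 2 * (2 * K / X ^ 2) := by field_simp
      _ ≤ x ^ 2 * rho K X x := by gcongr

/-- `K |a| ≤ (5/4) ρ` -/
lemma Adm.a_le_rho (h : Adm K X a) (hK : 0 ≤ K) (hX : 0 < X) (h4 : 4 * K ≤ X ^ 2)
    (hx : x ^ 2 ≤ X ^ 2) : K * ‖a‖ ≤ 5 / 4 * rho K X x := by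
  have h1 := rho_ge hK hX h4 hx
  have h2 := h.norm_le hK
  have h3 : K * ‖a‖ = 2 * K / X ^ 2 * (‖a‖ * X ^ 2) / 2 := by field_simp
  have k0 : 0 ≤ 2 * K / X ^ 2 := by positivity
  rw [h3]; nlinarith

lemma N_ge (hε : ε ≤ 1 / 10 ^ 5) (hε0 : 0 < ε) (hN : 2 ≤ ε * N) : 2 ≤ N := by
  by_contra hn
  have : ε * N ≤ ε * 2 := by have := (not_le.1 hn).le; gcongr
  norm_num at hε; linarith

theorem Adm.pt (h : Adm K X a) (h4 : 4 * K ≤ X ^ 2) (hK : N ≤ K) (hε : ε ≤ 1 / 10 ^ 5)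
    (hε0 : 0 < ε) (hN : 2 ≤ ε * N) (hx0 : 0 < x) (hR : 2 * N ≤ x ^ 2) (hx : x ≤ X) :
    Pt ε a x := by
  have hN0 := N_ge hε hε0 hN
  have hX : 0 < X := hx0.trans_le hx
  have hx2 : x ^ 2 ≤ X ^ 2 := by gcongr
  have hK0 : 0 < K := by linarith
  have r1 := h.rho_le (x := x) hX (by linarith)
  have r2 := rho_ge hK0.le hX h4 hx2
  have r3 := sq_rho_ge (by linarith) hK hX h4 (by linarith) hR hx2
  have r4 : 0 < 2 * K / X ^ 2 := by positivity
  have r5 := h.a_le_rho hK0.le hX h4 hx2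
  refine ⟨hε, hx0, by linarith, h.disc hK0.le hX (by linarith) hx2, ?_, ?_⟩
  · have h6 : 2 ≤ ε * K := hN.trans (by gcongr)
    have h7 : 2 * ‖a‖ ≤ ε * K * ‖a‖ := by gcongr
    have h8 : ε * (K * ‖a‖) ≤ ε * (5 / 4 * (et a x).re) :=
      mul_le_mul_of_nonneg_left (by linarith) hε0.le
    have h9 : 0 ≤ ε * (et a x).re := mul_nonneg hε0.le (by linarith)
    nlinarith
  · calc (1 : ℝ) ≤ ε * N := by linarith
      _ ≤ ε * (x ^ 2 * rho K X x) := by gcongr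
      _ ≤ ε * (x ^ 2 * (et a x).re) := by gcongr
      _ = _ := by ring

theorem Adm.ok (h : Adm K X a) (h4 : 4 * K ≤ X ^ 2) (hK : N ≤ K) (hR : 2 * N ≤ R ^ 2)
    (hR0 : 0 < R) (hRX : R < X) (hε : ε ≤ 1 / 10 ^ 5) (hε0 : 0 < ε) (hN : 2 ≤ ε * N) :
    Ok ε a R X :=
  ⟨hRX, fun _ hx => h.pt h4 hK hε hε0 hN (hR0.trans_le hx.1)
    (hR.trans (by have := hx.1; gcongr)) hx.2⟩

lemma four_le_of_sqrt (hK : 0 ≤ K) (h : 2 * √K ≤ X) : 4 * K ≤ X ^ 2 := by
  have h1 : (2 * √K) ^ 2 ≤ X ^ 2 := by gcongr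
  rwa [mul_pow, Real.sq_sqrt hK, show (2 : ℝ) ^ 2 = 4 by norm_num] at h1

/-- the form used in `LinS`, `RegS`, `EndS`: `R1 = K1 = 4/ε` will do. -/
theorem Adm.ok' (h : Adm K X a) (hε : ε ≤ 1 / 10 ^ 5) (hε0 : 0 < ε) (hR : 4 / ε ≤ R)
    (hK : 4 / ε ≤ K) (hRX : 2 * R + 4 ≤ X) (hKX : 2 * √K ≤ X) : Ok ε a R X := by
  have h0 : 0 < 4 / ε := by positivity
  have h1 : 4 ≤ 4 / ε := by rw [le_div_iff₀ hε0]; norm_num at hε; linarith
  refine h.ok (N := 4 / ε) (four_le_of_sqrt (by linarith) hKX) hK (by nlinarith) (by linarith)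
    (by linarith) hε hε0 ?_
  rw [mul_div_cancel₀ _ hε0.ne']; norm_num

lemma hasDerivAt_rho (K X x : ℝ) :
    HasDerivAt (rho K X) (-(2 * x / X ^ 2 * (1 - 2 * K / X ^ 2))) x := by
  have := (((((hasDerivAt_id x).pow 2).sub_const 2).div_const (X ^ 2)).mul_const
    (1 - 2 * K / X ^ 2)).const_sub 1
  refine (show HasDerivAt (rho K X) _ x from this).congr_deriv ?_
  simp

lemma continuous_rho (K X : ℝ) : Continuous (rho K X) := by unfold rho; fun_prop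

/-- `ρ' - l0 ρ = -l0` -/
lemma rho_bar (h2 : 2 < x ^ 2) :
    -(2 * x / X ^ 2 * (1 - 2 * K / X ^ 2)) - l0 x * rho K X x = -l0 x := by
  have : x ^ 2 - 2 ≠ 0 := by linarith
  unfold l0 rho; field_simp; ring

/-- comparison with the barrier of `low0`, `A = (2/X²)(1 - 2K/X²)` -/
lemma rho_low0 (hK : 0 < K) (hX : 0 < X) (h4 : 4 * K ≤ X ^ 2) (hx : x ^ 2 ≤ X ^ 2) :
    0 ≤ 2 / X ^ 2 * (1 - 2 * K / X ^ 2) ∧ 0 < 1 - 2 / X ^ 2 * (1 - 2 * K / X ^ 2) * x ^ 2 / 2 ∧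
      1 - 2 / X ^ 2 * (1 - 2 * K / X ^ 2) * x ^ 2 / 2 ≤ rho K X x := by
  obtain ⟨_, k1⟩ := kx_mem hK.le hX h4
  have k0 : 0 < 2 * K / X ^ 2 := by positivity
  have k2 : 0 ≤ 1 - 2 * K / X ^ 2 := by linarith
  have t1 : x ^ 2 / X ^ 2 ≤ 1 := (div_le_one (by positivity)).2 hx
  have e : 2 / X ^ 2 * (1 - 2 * K / X ^ 2) * x ^ 2 / 2 = x ^ 2 / X ^ 2 * (1 - 2 * K / X ^ 2) := by
    ring
  have t2 : (x ^ 2 - 2) / X ^ 2 ≤ x ^ 2 / X ^ 2 := by gcongr; linarith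
  refine ⟨by positivity, ?_, ?_⟩
  · rw [e]; nlinarith
  · rw [e, rho]; nlinarith

/-- near the inner end `|η| ≥ 3/4` -/
lemma Adm.re_ge (h : Adm K X a) (hK : 0 ≤ K) (hX : 0 < X) (h2 : 2 ≤ x ^ 2)
    (hx : 4 * x ^ 2 ≤ X ^ 2) : 3 / 4 ≤ (et a x).re := by
  have h1 := h.rho_le hX h2
  have h3 := rho_ge' hK hX h2
  have : x ^ 2 / X ^ 2 ≤ 1 / 4 := by rw [div_le_iff₀ (by positivity)]; linarith
  linarith

/-- `x^{-g} ≤ 2 W` where `re η ≥ 3/4` -/
lemma rpow_le_W {g g' c : ℝ} (G : GG g g' c) (hx : 0 < x) (h : 3 / 4 ≤ (et a x).re) :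
    x ^ (-g) ≤ 2 * W g g' a x := by
  have h1 : (3 / 4 : ℝ) ^ g' ≤ ‖et a x‖ ^ g' :=
    Real.rpow_le_rpow (by norm_num) (h.trans (Complex.re_le_norm _)) (by linarith [G.lo'])
  have h2 : (3 / 4 : ℝ) ^ (2 : ℝ) ≤ (3 / 4 : ℝ) ^ g' :=
    Real.rpow_le_rpow_of_exponent_ge (by norm_num) (by norm_num) G.hi'
  norm_num at h2
  have h3 : 0 < x ^ (-g) := by positivity
  unfold W; nlinarith

/-- `W ≤ 9 x^{-g}` -/
lemma Pt.W_le_rpow (h : Pt ε a x) {g g' c : ℝ} (G : GG g g' c) : W g g' a x ≤ 9 * x ^ (-g) := by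
  have h1 : ‖et a x‖ ^ g' ≤ 3 ^ g' :=
    Real.rpow_le_rpow (norm_nonneg _) h.norm_le (by linarith [G.lo'])
  have h2 := Real.rpow_le_rpow_of_exponent_le (show (1 : ℝ) ≤ 3 by norm_num) G.hi'
  norm_num at h2
  have h3 : 0 < x ^ (-g) := by have := h.xpos; positivity
  unfold W; nlinarith

/-- moving the point off the real axis -/
lemma Pt.et_sub_le (h : Pt ε a x) {z : ℂ} (hz : ‖z - x‖ * x ≤ 1) :
    ‖et a z - et a x‖ ≤ 2 * ε * (et a x).re := by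
  have hx := h.x_ge
  have e : et a z - et a x = a * ((z - x) * x + (z - x) * (z - x) / 2) := by unfold et; ring
  have h1 : ‖z - x‖ ≤ 1 := by nlinarith [norm_nonneg (z - x)]
  have h2 : ‖(z - x) * x + (z - x) * (z - x) / 2‖ ≤ 2 := by
    refine (norm_add_le _ _).trans ?_
    rw [norm_div, norm_mul, norm_mul, Complex.norm_real, Real.norm_of_nonneg h.xpos.le]
    simp only [Complex.norm_ofNat]
    nlinarith [norm_nonneg (z - x)]
  rw [e, norm_mul]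
  have h3 := h.a_le
  calc _ ≤ (ε * (et a x).re) * 2 := by gcongr; exact (norm_nonneg _).trans h3
    _ = _ := by ring

end disc

/-! ### the smoothing exponent -/

lemma hasDerivAt_pos_pow (n : ℕ) (u : ℝ) :
    HasDerivAt (fun u : ℝ => max u 0 ^ (n + 2)) ((n + 2 : ℝ) * max u 0 ^ (n + 1)) u := by
  rcases lt_trichotomy u 0 with h | rfl | h
  · rw [max_eq_right h.le]
    refine ((hasDerivAt_const u (0 : ℝ)).congr_of_eventuallyEq ?_).congr_deriv (by simp)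
    filter_upwards [Iio_mem_nhds h] with y hy
    rw [max_eq_right (le_of_lt hy)]; simp
  · rw [hasDerivAt_iff_isLittleO_nhds_zero]
    simp only [zero_add, max_self, ne_eq, Nat.add_eq_zero_iff, OfNat.ofNat_ne_zero, and_false,
      not_false_eq_true, zero_pow, sub_zero, one_ne_zero, mul_zero, smul_zero]
    refine Asymptotics.IsBigO.trans_isLittleO (g := fun y : ℝ => y ^ (n + 2))
      (Asymptotics.IsBigO.of_norm_le fun y => ?_).of_norm_right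
      (Asymptotics.isLittleO_pow_id (by omega))
    rw [norm_pow, norm_pow]
    gcongr
    rw [Real.norm_of_nonneg (le_max_right _ _)]
    exact max_le (le_abs_self _) (norm_nonneg _)
  · rw [max_eq_left h.le]
    refine ((hasDerivAt_pow (n + 2) u).congr_of_eventuallyEq ?_).congr_deriv (by simp)
    filter_upwards [Ioi_mem_nhds h] with y hy
    rw [max_eq_left (le_of_lt hy)]

lemma hasDerivAt_sig (u : ℝ) : HasDerivAt sig (3 * max (1 - u) 0 ^ 2) u := by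
  have := ((hasDerivAt_pos_pow 1 (1 - u)).comp u ((hasDerivAt_id u).const_sub 1)).const_sub 1
  refine (show HasDerivAt sig _ u from this).congr_deriv ?_
  norm_num

lemma hasDerivAt_sig' (u : ℝ) :
    HasDerivAt (fun u : ℝ => 3 * max (1 - u) 0 ^ 2) (-6 * max (1 - u) 0) u := by
  have := ((hasDerivAt_pos_pow 0 (1 - u)).comp u ((hasDerivAt_id u).const_sub 1)).const_mul 3
  refine (show HasDerivAt (fun u : ℝ => 3 * max (1 - u) 0 ^ 2) _ u from this).congr_deriv ?_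
  norm_num; ring

/-- the exponent `τ x = sig (x - R) t` is admissible, of size `6 R t` -/
theorem sg_sig {R t b : ℝ} (X : ℝ) (hR : 1 ≤ R) (ht : 0 ≤ t) (hb : 6 * R * t ≤ b) :
    Sg (fun x => sig (x - R) * t) (fun x => 3 * max (1 - (x - R)) 0 ^ 2 * t)
      (fun x => -6 * max (1 - (x - R)) 0 * t) R X b := by
  have hm : ∀ x ∈ Icc R X, 0 ≤ max (1 - (x - R)) 0 ∧ max (1 - (x - R)) 0 ≤ 1 := fun x hx =>
    ⟨le_max_right _ _, max_le (by linarith [hx.1]) zero_le_one⟩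
  refine ⟨Dv.of_hasDerivAt fun x _ => ?_, Dv.of_hasDerivAt fun x _ => ?_,
    fun x _ => by positivity, fun x hx => le_trans ?_ hb, fun x hx => le_trans ?_ hb⟩
  · simpa using ((hasDerivAt_sig (x - R)).comp x ((hasDerivAt_id x).sub_const R)).mul_const t
  · simpa using ((hasDerivAt_sig' (x - R)).comp x ((hasDerivAt_id x).sub_const R)).mul_const t
  · rcases le_total x (R + 1) with h | h
    · obtain ⟨m0, m1⟩ := hm x hx
      have : max (1 - (x - R)) 0 ^ 2 ≤ 1 := pow_le_one₀ m0 m1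
      calc x * (3 * max (1 - (x - R)) 0 ^ 2 * t) ≤ (2 * R) * (3 * 1 * t) := by
            gcongr; linarith
        _ = _ := by ring
    · rw [max_eq_right (by linarith)]; simp; positivity
  · obtain ⟨m0, m1⟩ := hm x hx
    rw [abs_mul, abs_mul, abs_of_nonneg m0, abs_of_nonneg ht]
    norm_num
    gcongr; linarith

/-! ### the modes `±1` -/

theorem Ok.lo1g {ε R X g g' c b : ℝ} {a : ℂ} {τ τ1 τ2 : ℝ → ℝ} (h : Ok ε a R X) (G : GG g g' c)
    (S : Sg τ τ1 τ2 R X b) {m : ℤ} (hm : m ^ 2 = 1) :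
    Lo1 R X (3 / 2) (Vm a m) (l1 a) (l1' a) (mu a) (lm a) (Om g g' τ a) (lam g g' τ1 a) := by
  refine ⟨h.ptR.xpos, by norm_num, h.dv_l1, h.dv_mu, h.dv_Om g g' S.d0,
    fun x hx => (h.pt hx).mu_pos, fun x hx => (h.pt hx).Om_pos _ _ _,
    fun x hx => (le_abs_self _).trans (h.pt hx).lm_le',
    fun x hx => (h.pt hx).lam_le' G (S.nn x hx), fun x hx => ?_, fun x hx => ?_, fun x hx => ?_⟩
  · have := (Complex.re_le_norm _).trans (h.pt hx).l1_le'
    have := (h.pt hx).xpos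
    linarith
  · have := (h.pt hx).lam_sub_l1 G (S.nn x hx); linarith
  · have e : Vm a m x - (l1' a x + l1 a x * l1 a x - (x : ℂ) / 2 * l1 a x) = res a x := by
      have := (h.pt hx).res_eq hm; linear_combination -this
    rw [e]; have := (h.pt hx).res_le'; have := (h.pt hx).mu_pos; linarith

/-! ### the barrier for `|m| ≥ 2` -/

lemma GG.margin {g g' c μ n : ℝ} (G : GG g g' c) (hμ : 4 / 9 ≤ μ) (hn : 4 ≤ n) :
    c / 4 * n * μ ≤ (n / 2 - g') * μ + g' - 1 - g / 2 := by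
  have h1 : c * μ ≤ (2 - g') * μ + g' - 1 - g / 2 := by
    have := G.hi; have := G.gap
    rcases le_total 0 (g' - 1 - g / 2) with h | h <;> nlinarith
  have h2 : 0 ≤ (n - 4) * (1 / 2 - c / 4) * μ :=
    mul_nonneg (mul_nonneg (by linarith) (by linarith [G.c_le])) (by linarith)
  nlinarith

/-- the pointwise barrier inequality for `Ω` -/
lemma Pt.bar {ε x g g' c n : ℝ} {a : ℂ} {τ1 τ2 : ℝ → ℝ} (h : Pt ε a x) (G : GG g g' c)
    (hε : ε ≤ c / 1000) (hn : 2 ≤ n) (t0 : 0 ≤ τ1 x) (t1 : x * τ1 x ≤ c * n / 1000)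
    (t2 : |τ2 x| ≤ c * n / 1000) :
    lam g g' τ1 a x ^ 2 + lam1 g g' τ2 a x - x / 2 * lam g g' τ1 a x - (n ^ 2 / 2 * mu a x - 1) ≤
      -(c / 6 * n ^ 2 * mu a x) := by
  have hx := h.x_ge; have hμ := h.mu_ge'; have hε0 := h.εpos; have hc := G.pos
  have hc' := G.c_le; have g1 := G.lo; have g2 := G.le; have g3 := G.hi'
  set μ := mu a x
  have hn2 : 4 ≤ n ^ 2 := by nlinarith
  have m0 := G.margin hμ hn2
  set S := c * n ^ 2 * μ with hS
  have s1 : ε * μ ≤ S / 4000 := by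
    have : ε * μ ≤ c / 1000 * μ := by gcongr
    have : c * 4 * μ ≤ S := by rw [hS]; gcongr
    linarith
  have s2 : ε ≤ 9 / 4 * (ε * μ) := by nlinarith
  have s3 : c * n ≤ 9 / 8 * S := by
    have h1 : c * (2 * n) * (4 / 9) ≤ S := by rw [hS]; gcongr; nlinarith
    linarith
  have s4 : τ1 x ^ 2 ≤ S / 1000 := by
    have h1 : τ1 x ≤ c * n / 1000 := by nlinarith
    have h2 : τ1 x ^ 2 ≤ (c * n / 1000) ^ 2 := by gcongr
    have h3 : c * n ^ 2 * (4 / 9) ≤ S := by rw [hS]; gcongr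
    have h4 : 0 ≤ c * n ^ 2 := by positivity
    nlinarith
  have e1 : (g / x) ^ 2 ≤ 12 * ε := by
    have := h.inv_sq_le
    have h1 : g ^ 2 ≤ 4 := by nlinarith
    calc (g / x) ^ 2 = g ^ 2 * (1 / x ^ 2) := by ring
      _ ≤ 4 * (3 * ε) := by gcongr
      _ = _ := by ring
  have e2 : (g' * ln a x) ^ 2 ≤ 36 * (ε * μ) := by
    have h1 : ln a x ^ 2 ≤ ‖a * x / et a x‖ ^ 2 := by
      rw [← sq_abs]; have := Complex.abs_re_le_norm (a * x / et a x); unfold ln; gcongr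
    have h2 := h.ee_sq_le
    have h3 : g' ^ 2 ≤ 4 := by nlinarith
    calc (g' * ln a x) ^ 2 = g' ^ 2 * ln a x ^ 2 := by ring
      _ ≤ 4 * (9 * ε * μ) := by gcongr; exact h1.trans h2
      _ = _ := by ring
  have e3 : lam g g' τ1 a x ^ 2 ≤ 3 * ((g / x) ^ 2 + (g' * ln a x) ^ 2 + τ1 x ^ 2) := by
    have : lam g g' τ1 a x = -(g / x) + g' * ln a x - τ1 x := by unfold lam; ring
    rw [this]
    nlinarith [sq_nonneg (g / x + g' * ln a x), sq_nonneg (g / x - τ1 x),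
      sq_nonneg (g' * ln a x + τ1 x)]
  have e4 : lam1 g g' τ2 a x ≤ 8 * ε + 18 * (ε * μ) + c * n / 1000 := by
    have h1 : g / x ^ 2 ≤ 6 * ε := by
      have := h.inv_sq_le
      calc g / x ^ 2 = g * (1 / x ^ 2) := by ring
        _ ≤ 2 * (3 * ε) := by gcongr; linarith
        _ = _ := by ring
    have h2 : (a / et a x - (a * x / et a x) ^ 2).re ≤ ε + 9 * (ε * μ) := by
      refine (Complex.re_le_norm _).trans ((norm_sub_le _ _).trans ?_)
      rw [norm_pow]; have := h.a_div_le; have := h.ee_sq_le; linarith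
    have h3 : g' * (a / et a x - (a * x / et a x) ^ 2).re ≤ g' * (ε + 9 * (ε * μ)) := by
      gcongr; linarith
    have h4 : g' * (ε + 9 * (ε * μ)) ≤ 2 * (ε + 9 * (ε * μ)) := by gcongr
    have h5 := (abs_le.1 t2).1
    unfold lam1; linarith
  have e5 : -(x / 2 * lam g g' τ1 a x) ≤ g / 2 - g' + g' * μ + 2 * ε + c * n / 2000 := by
    have h1 := h.x_lam g g' τ1
    have h2 := (abs_le.1 h.abs_re_a_div).1
    have h3 : g' * (-(a / et a x).re) ≤ g' * ε := by gcongr <;> linarith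
    have h4 : g' * ε ≤ 2 * ε := by gcongr
    nlinarith
  have e6 : c / 6 * n ^ 2 * μ = S / 6 := by rw [hS]; ring
  have e7 : c / 4 * n ^ 2 * μ = S / 4 := by rw [hS]; ring
  have S0 : 0 ≤ S := by rw [hS]; positivity
  rw [e6]; rw [e7] at m0
  nlinarith

/-- the layer factor -/
def lyr (θ X x : ℝ) : ℝ := Real.exp ((x ^ 2 - X ^ 2) / 8 + θ * (x - X))

lemma lyr_pos (θ X x : ℝ) : 0 < lyr θ X x := Real.exp_pos _

lemma lyr_self (θ X : ℝ) : lyr θ X X = 1 := by simp [lyr]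

lemma lyr_le_one {θ X x : ℝ} (hθ : 0 ≤ θ) (h0 : 0 ≤ x) (h : x ≤ X) : lyr θ X x ≤ 1 :=
  Real.exp_le_one_iff.2 (by
    have : x ^ 2 ≤ X ^ 2 := by gcongr
    have : θ * (x - X) ≤ 0 := mul_nonpos_of_nonneg_of_nonpos hθ (by linarith)
    linarith)

lemma hasDerivAt_lyr (θ X x : ℝ) : HasDerivAt (lyr θ X) ((x / 4 + θ) * lyr θ X x) x := by
  have := (((((hasDerivAt_id x).pow 2).sub_const (X ^ 2)).div_const 8).add
    (((hasDerivAt_id x).sub_const X).const_mul θ)).exp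
  refine (show HasDerivAt (lyr θ X) _ x from this).congr_deriv ?_
  simp [lyr]; ring

/-- **The barrier for the high modes**, with Neumann far end. -/
theorem Ok.bar_hi {ε R X g g' c : ℝ} {a : ℂ} {τ τ1 τ2 : ℝ → ℝ} (h : Ok ε a R X) (G : GG g g' c)
    (hε : ε ≤ c / 1000) {m : ℤ} (hm : 2 ≤ |m|) (S : Sg τ τ1 τ2 R X (c * |(m : ℝ)| / 1000)) :
    ∃ Ot O1 O2 : ℝ → ℝ, Bar R X (fun x => x / 2) (Vm a m) 0 Ot O1 O2
      (fun x => c / 6 * (m : ℝ) ^ 2 * mu a x * Om g g' τ a x)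
      (c / 16 * (X + |(m : ℝ)|) * Om g g' τ a X) ∧
      ∀ x ∈ Icc R X, Om g g' τ a x ≤ Ot x ∧ Ot x ≤ 2 * Om g g' τ a x := by
  set n := |(m : ℝ)| with hn
  have n2 : 2 ≤ n := by rw [hn]; exact_mod_cast hm
  have en : (m : ℝ) ^ 2 = n ^ 2 := (sq_abs _).symm
  have hc := G.pos; have hc' := G.c_le
  set θ := c / 8 * n with hθ
  have θ0 : 0 ≤ θ := by positivity
  set Ω := Om g g' τ a
  set l := lam g g' τ1 a
  set l' := lam1 g g' τ2 a
  set E := lyr θ X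
  have dΩ : Dv R X Ω fun x => l x * Ω x := h.dv_Om g g' S.d0
  have dl : Dv R X l l' := h.dv_lam g g' S.d1
  have dE : Dv R X E fun x => (x / 4 + θ) * E x := Dv.of_hasDerivAt fun x _ => hasDerivAt_lyr θ X x
  have Ω0 : ∀ x ∈ Icc R X, 0 < Ω x := fun x hx => (h.pt hx).Om_pos _ _ _
  have E0 : ∀ x, 0 < E x := lyr_pos θ X
  refine ⟨fun x => Ω x * (1 + E x), fun x => Ω x * (l x * (1 + E x) + (x / 4 + θ) * E x),
    fun x => Ω x * ((l x ^ 2 + l' x) * (1 + E x) + (2 * l x * (x / 4 + θ) + (x / 4 + θ) ^ 2 + 1 / 4)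
      * E x), ⟨h.lt, fun x hx => ?_, fun x hx => ?_, fun x hx => ?_, fun x hx => ?_,
      fun x hx => ?_, ?_, ?_⟩, fun x hx => ?_⟩
  · refine ((dΩ x hx).mul ((dE x hx).const_add 1)).congr_deriv ?_
    ring
  · have h1 : HasDerivWithinAt (fun x : ℝ => x / 4 + θ) (1 / 4) (Icc R X) x :=
      (((hasDerivAt_id x).div_const 4).add_const θ).hasDerivWithinAt
    refine ((dΩ x hx).mul (((dl x hx).mul ((dE x hx).const_add 1)).add
      (h1.mul (dE x hx)))).congr_deriv ?_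
    simp only [Pi.add_apply, Pi.mul_apply]
    ring
  · have := Ω0 x hx; have := E0 x; positivity
  · have hx' := Ioo_subset_Icc_self hx
    have := Ω0 x hx'; have := (h.pt hx').mu_pos; rw [en]; positivity
  · have hx' := Ioo_subset_Icc_self hx
    have p := h.pt hx'
    have hP := p.bar G hε n2 (S.nn x hx') (S.le1 x hx') (S.le2 x hx')
    have hx1 := p.x_ge
    have hl : l x ≤ 1 / 100 := by
      have := p.x_lam_le G (S.nn x hx')
      by_contra hh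
      have h3 : x * (1 / 100) < x * l x := mul_lt_mul_of_pos_left (not_le.1 hh) p.xpos
      linarith
    have hQ : 2 * l x * (x / 4 + θ) + (x / 4 + θ) ^ 2 + 1 / 4 - x / 2 * (x / 4 + θ) ≤
        c / 6 * n ^ 2 * mu a x := by
      have h1 : 2 * l x * (x / 4 + θ) ≤ 2 * (1 / 100) * (x / 4 + θ) := by gcongr
      have h2 : θ ^ 2 ≤ c * n ^ 2 / 128 := by
        rw [hθ]; nlinarith [mul_nonneg (mul_nonneg hc.le (sq_nonneg n)) (sub_nonneg.2 hc')]
      have h3 : θ ≤ c * n ^ 2 / 16 := by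
        rw [hθ]; nlinarith [mul_nonneg (mul_nonneg hc.le (by linarith : 0 ≤ n)) (sub_nonneg.2 n2)]
      have h4 : c / 6 * n ^ 2 * (4 / 9) ≤ c / 6 * n ^ 2 * mu a x := by have := p.mu_ge'; gcongr
      have h5 : 0 ≤ c * n ^ 2 := by positivity
      nlinarith
    rw [Vm_re, en]
    have h1 := mul_le_mul_of_nonneg_right hP (by have := E0 x; positivity : 0 ≤ 1 + E x)
    have h2 := mul_le_mul_of_nonneg_right hQ (E0 x).le
    have h3 := mul_le_mul_of_nonneg_left (add_le_add h1 h2) (Ω0 x hx').le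
    nlinarith
  · have := Ω0 X (right_mem_Icc.2 h.lt.le); have := h.ptX.xpos; positivity
  · have hX := right_mem_Icc.2 h.lt.le
    have p := h.ptX
    have hx1 := p.x_ge
    have e : E X = 1 := lyr_self θ X
    simp only [e, Complex.zero_re, zero_mul, sub_zero]
    rw [mul_comm (Ω X)]
    refine mul_le_mul_of_nonneg_right ?_ (Ω0 X hX).le
    have h1 : g / X ≤ 1 := by rw [div_le_one p.xpos]; linarith [G.le, G.hi']
    have h2 : -(X / 500) ≤ g' * ln a X := by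
      have h3 := (abs_le.1 p.ln_le).1
      have h4 := p.small; have h5 := G.hi'; have h6 := G.lo'
      have h7 : g' * (-(ε * X)) ≤ g' * ln a X := by gcongr
      have h8 : ε * X ≤ X / 1000 := by norm_num at h4; nlinarith
      have h9 : 0 ≤ ε * X := by have := p.εpos; positivity
      nlinarith
    have h3 : τ1 X ≤ c * n / 1000 := by have := S.le1 X hX; have := S.nn X hX; nlinarith
    have h4 : l X = -(g / X) + g' * ln a X - τ1 X := by simp only [l, lam]; ring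
    have h5 : 0 ≤ c * n := by positivity
    rw [h4, hθ]; nlinarith
  · have := Ω0 x hx; have := E0 x
    have : E x ≤ 1 := lyr_le_one θ0 (h.pt hx).xpos.le hx.2
    constructor <;> nlinarith

end

end Crest.Agent.N250.B1
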