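import Crest.Agent.N250.B1.EndCv1
import Crest.Agent.N250.B1.WtBar

/-!
# Row 250, B1 (helper32): the quantitative facts on the domain, `NrS`
-/

set_option autoImplicit false
open Set Complex Filter Topology

noncomputable section

namespace Crest.Agent.N250.B1

namespace NrH

variable {ε δ K X0 x0 : ℝ} {a : ℂ}

theorem kk_nonneg (h : Pt (ε ^ 2) a x0) : 0 ≤ kk a x0 := div_nonneg (norm_nonneg _) h.repos.le

theorem kk_mul (h : Pt (ε ^ 2) a x0) : kk a x0 * (et a x0).re = ‖et a x0‖ :=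
  div_mul_cancel₀ _ h.repos.ne'

/-- `1/κ ≤ (3/2) ε x₀` -/
theorem kk_le (h : Pt (ε ^ 2) a x0) (hε : 0 < ε) : kk a x0 ≤ 3 / 2 * ε * x0 := by
  have hr := h.repos
  have hx := h.xpos
  have h1 := h.disc9
  have h2 := h.x_le
  refine abs_le_of_sq_le_sq' ?_ (by positivity) |>.2
  unfold kk
  rw [div_pow, div_le_iff₀ (by positivity)]
  nlinarith

set_option maxHeartbeats 1600000 in
theorem nrP (h : Pt (ε ^ 2) a x0) (hε : 0 < ε) (hε1 : ε ≤ 1 / 1000) (hδ : 100 * ε ≤ δ)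
    (hx : x0 ≤ X0) (ha : ‖a‖ * X0 ^ 2 ≤ 5 / 2) (hK : 0 < K) (haK : K * ‖a‖ ≤ 5 / 4 * (et a x0).re)
    {t : ℝ} (ht : |t| ≤ X0⁻¹) {κ kx : ℂ} (hκ : ‖κ‖ ≤ 2 / X0 ^ 2) (hkx : ‖kx‖ ≤ 6 / X0) :
    NrP a a δ (3 * (‖a‖ * X0 ^ 2 / K)) x0 (x0 + t * I) (1 + κ) kx := by
  have hr := h.repos
  have h100 := h.x_ge
  have hX : 100 ≤ X0 := h100.trans hx
  have hX0 : 0 < X0 := by linarith
  have hn := h.npos
  have hre := h.re_le
  have k0 := kk_nonneg h
  have k1 := kk_le h hε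
  have k2 := kk_mul h
  obtain ⟨u, hu⟩ : ∃ u, u = X0⁻¹ := ⟨_, rfl⟩
  rw [← hu] at ht
  have u0 : 0 < u := by rw [hu]; positivity
  have uX : u * X0 = 1 := by rw [hu]; exact inv_mul_cancel₀ hX0.ne'
  have u1 : u ≤ 1 / 100 := by nlinarith
  have ux : u * x0 ≤ 1 := by nlinarith
  have hκ' : ‖κ‖ ≤ 2 * u ^ 2 := by rw [hu, inv_pow, ← div_eq_mul_inv]; exact hκ
  have hkx' : ‖kx‖ ≤ 6 * u := by rw [hu, ← div_eq_mul_inv]; exact hkx
  have κ1 : ‖κ‖ ≤ 1 / 100 := by nlinarith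
  have nt : ‖(t : ℂ) * I‖ ≤ u := by simpa using ht
  obtain ⟨x, hxdef⟩ : ∃ x : ℂ, x = x0 + t * I := ⟨_, rfl⟩
  rw [← hxdef]
  have xs : ‖x - x0‖ ≤ u := by simpa [hxdef] using ht
  have nx0 : ‖(x0 : ℂ)‖ = x0 := by rw [norm_real, Real.norm_eq_abs, abs_of_pos h.xpos]
  have xle : ‖x‖ ≤ x0 + u := hxdef ▸ (norm_add_le _ _).trans (by rw [nx0]; linarith)
  have xge : x0 ≤ ‖x‖ := by simpa [hxdef] using re_le_norm x
  have x2 : ‖x‖ ^ 2 ≤ 11 / 10 * X0 ^ 2 := by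
    have : ‖x‖ ≤ X0 + 1 / 100 := by linarith
    nlinarith [norm_nonneg x]
  have ele : ‖1 + κ‖ ≤ 1 + 1 / 100 := (norm_add_le _ _).trans (by rw [norm_one]; linarith)
  have ege : 1 - 1 / 100 ≤ ‖1 + κ‖ := by
    have := norm_sub_le (1 + κ) κ
    rw [add_sub_cancel_right, norm_one] at this
    linarith
  have de : ‖et a x - et a x0‖ ≤ 2 * ε ^ 2 * (et a x0).re :=
    h.et_sub_le ((mul_le_mul_of_nonneg_right xs h.xpos.le).trans ux)
  have ε2 : ε ^ 2 ≤ ε / 1000 := by nlinarith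
  have n4 : ‖et a x0‖ ≤ 10 / 9 * ‖et a x‖ := by
    have := norm_sub_le (et a x) (et a x - et a x0)
    rw [sub_sub_cancel] at this
    nlinarith
  have nη : 0 < ‖et a x‖ := by linarith
  have ne : et a x ≠ 0 := norm_pos_iff.1 nη
  have e2 : ‖1 - (1 + κ) ^ 2‖ ≤ 6 * u ^ 2 := by
    have e : 1 - (1 + κ) ^ 2 = -(κ * (1 + (1 + κ))) := by ring
    rw [e, norm_neg, norm_mul]
    have : ‖1 + (1 + κ)‖ ≤ 3 := (norm_add_le _ _).trans (by rw [norm_one]; linarith)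
    calc _ ≤ 2 * u ^ 2 * 3 := mul_le_mul hκ' this (norm_nonneg _) (by positivity)
      _ = _ := by ring
  have n2 : kk a x0 * ‖1 - (1 + κ) ^ 2‖ ≤ ε := by
    calc _ ≤ 3 / 2 * ε * x0 * (6 * u ^ 2) := mul_le_mul k1 e2 (norm_nonneg _) (by positivity)
      _ = 9 * ε * (u * x0) * u := by ring
      _ ≤ 9 * ε * 1 * (1 / 100) := by gcongr
      _ ≤ ε := by linarith
  refine ⟨?_, by linarith, ?_, by linarith, by linarith, by linarith, by linarith, by linarith,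
    by linarith, ?_, ?_, ?_⟩
  · have e : (1 + κ) ^ 2 * x / 2 + kx - (1 + κ) * x0 / 2 =
        (1 + κ) * (κ * x + (x - x0)) / 2 + kx := by ring
    have b1 : ‖κ * x‖ ≤ 3 * u := by
      rw [norm_mul]
      calc _ ≤ 2 * u ^ 2 * (x0 + u) := mul_le_mul hκ' xle (norm_nonneg _) (by positivity)
        _ = 2 * u * (u * x0 + u * u) := by ring
        _ ≤ 2 * u * (1 + 1 / 100 * (1 / 100)) := by gcongr
        _ ≤ 3 * u := by linarith
    have b2 : ‖(1 + κ) * (κ * x + (x - x0)) / 2 + kx‖ ≤ 10 * u := by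
      refine (norm_add_le _ _).trans ?_
      rw [norm_div, norm_mul, norm_ofNat]
      have : ‖κ * x + (x - x0)‖ ≤ 4 * u := (norm_add_le _ _).trans (by linarith)
      have := mul_le_mul ele this (norm_nonneg _) (by norm_num)
      linarith
    rw [e]
    calc _ ≤ 3 / 2 * ε * x0 * (10 * u) := mul_le_mul k1 b2 (norm_nonneg _) (by positivity)
      _ ≤ 3 / 2 * ε * x0 * (10 * (1 / 100)) := by gcongr
      _ < δ * x0 := by nlinarith
  · have e : 1 - (1 + κ) ^ 2 * et a x0 / et a x =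
        ((et a x - et a x0) + (1 - (1 + κ) ^ 2) * et a x0) / et a x := by field_simp; ring
    rw [e, norm_div, ← mul_div_assoc, div_lt_iff₀ nη]
    have b1 : kk a x0 * ‖et a x - et a x0‖ ≤ 2 * ε ^ 2 * ‖et a x0‖ := by
      calc _ ≤ kk a x0 * (2 * ε ^ 2 * (et a x0).re) := mul_le_mul_of_nonneg_left de k0
        _ = 2 * ε ^ 2 * (kk a x0 * (et a x0).re) := by ring
        _ = _ := by rw [k2]
    have b2 : kk a x0 * ‖(1 - (1 + κ) ^ 2) * et a x0‖ ≤ ε * ‖et a x0‖ := by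
      rw [norm_mul, ← mul_assoc]; exact mul_le_mul_of_nonneg_right n2 (norm_nonneg _)
    have b3 := mul_le_mul_of_nonneg_left (norm_add_le (et a x - et a x0)
      ((1 - (1 + κ) ^ 2) * et a x0)) k0
    have b4 : (2 * ε ^ 2 + ε) * ‖et a x0‖ ≤ (2 * ε) * (10 / 9 * ‖et a x‖) :=
      mul_le_mul (by linarith) n4 (norm_nonneg _) (by positivity)
    have b5 : 100 * ε * ‖et a x‖ ≤ δ * ‖et a x‖ := mul_le_mul_of_nonneg_right hδ nη.le
    have b6 : 0 < ε * ‖et a x‖ := by positivity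
    nlinarith
  · rw [norm_mul, norm_pow]
    have := mul_le_mul_of_nonneg_left x2 (norm_nonneg a)
    nlinarith
  · have := h.a_le_three
    nlinarith
  · rw [norm_div, norm_mul, norm_pow, norm_pow, ← mul_div_assoc, div_le_iff₀ nη]
    have b1 : kk a x0 * ‖a‖ ≤ 5 / 4 * ‖et a x0‖ / K := by
      rw [le_div_iff₀ hK]
      calc _ = kk a x0 * (K * ‖a‖) := by ring
        _ ≤ kk a x0 * (5 / 4 * (et a x0).re) := mul_le_mul_of_nonneg_left haK k0
        _ = 5 / 4 * (kk a x0 * (et a x0).re) := by ring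
        _ = _ := by rw [k2]
    have a0 := norm_nonneg a
    calc _ = kk a x0 * ‖a‖ * (‖a‖ * ‖x‖ ^ 2) := by ring
      _ ≤ 5 / 4 * ‖et a x0‖ / K * (‖a‖ * (11 / 10 * X0 ^ 2)) := by gcongr
      _ ≤ 5 / 4 * (10 / 9 * ‖et a x‖) / K * (‖a‖ * (11 / 10 * X0 ^ 2)) := by gcongr
      _ = 55 / 36 * (‖a‖ * X0 ^ 2 / K * ‖et a x‖) := by ring
      _ ≤ 3 * (‖a‖ * X0 ^ 2 / K * ‖et a x‖) := by gcongr; norm_num
      _ = _ := by ring

end NrH

theorem nrS_holds : NrS := by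
  intro g g' hg δ hδ
  obtain ⟨c, G⟩ := hg.gg
  set ε := min (1 / 1000) (δ / 100) with hε
  have ε0 : 0 < ε := lt_min (by norm_num) (by positivity)
  have ε1 : ε ≤ 1 / 1000 := min_le_left _ _
  have ε2 : 100 * ε ≤ δ := by have : ε ≤ δ / 100 := min_le_right _ _; linarith
  have ε3 : ε ^ 2 ≤ 1 / 10 ^ 5 := by nlinarith
  refine ⟨4 / ε ^ 2, 4 / ε ^ 2, 3, by norm_num, fun R K hR hK X a h1 h2 h3 h4 => ?_⟩
  have hp : 0 < 4 / ε ^ 2 := by positivity
  have R0 : 0 < R := hp.trans_le hR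
  have K0 : 0 < K := hp.trans_le hK
  have hRX : R + 2 ≤ X.re := by linarith
  have X0 : 0 < X.re := by linarith
  have ok := h4.ok' ε3 (by positivity) hR hK h1.le h2.le
  have K4 := four_le_of_sqrt K0.le h2.le
  have hpt : ∀ s : II, Pt (ε ^ 2) a (xr R X.re s) := fun s => ok.pt (xr_mem' hRX s)
  have hsq : ∀ s : II, xr R X.re s ^ 2 ≤ X.re ^ 2 := fun s =>
    pow_le_pow_left₀ (hpt s).xpos.le (xr_mem' hRX s).2 2
  have hrho : ∀ s : II, rho K X.re (xr R X.re s) ≤ (et a (xr R X.re s)).re := fun s =>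
    h4.rho_le X0 (by nlinarith [(hpt s).x_ge])
  have hXX : ‖X - (X.re : ℝ)‖ ≤ X.re⁻¹ := by
    have : X - (X.re : ℝ) = (X.im : ℝ) * I := by
      linear_combination -re_add_im X
    rw [this]; simpa using h3.le
  refine ⟨⟨hRX, fun s => ?_⟩, fun s => ?_⟩
  · have h := hpt s
    refine ⟨by linarith [h.x_ge], lt_of_lt_of_le (by positivity) (rho_ge K0.le X0 K4 (hsq s)),
      hrho s, h.norm_le, (h.W_le' G).trans (by linarith [h.repos]), ?_⟩
    refine h.x_le.trans ?_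
    rw [mul_assoc]
    exact mul_le_mul_of_nonneg_right (by nlinarith) (by have := h.repos; positivity)
  · rw [gam_sub_xr, Cv.eC_eq hRX, Cv.kC_eq hRX, ContinuousMap.add_apply, ContinuousMap.one_apply]
    refine NrH.nrP (hpt s) ε0 ε1 ε2 (xr_mem' hRX s).2 (h4.norm_le K0.le) K0
      ((h4.a_le_rho K0.le X0 K4 (hsq s)).trans (by linarith [hrho s])) ?_ ?_ ?_
    · rw [abs_mul, abs_of_nonneg (pow_nonneg (cub_nonneg _) 3)]
      exact (mul_le_of_le_one_right (abs_nonneg _) (cub_pow_le_one s 3)).trans h3.le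
    · refine (ContinuousMap.norm_coe_le_norm _ s).trans ((norm_kap (by linarith) X).trans ?_)
      rw [div_le_div_iff₀ (by linarith) (by positivity)]
      have : ‖X - (X.re : ℝ)‖ * X.re ≤ 1 := by
        have := mul_le_mul_of_nonneg_right hXX X0.le
        rwa [inv_mul_cancel₀ X0.ne'] at this
      nlinarith
    · refine (ContinuousMap.norm_coe_le_norm _ s).trans ((norm_kapx hRX X).trans ?_)
      rw [div_eq_mul_inv]; linarith

end Crest.Agent.N250.B1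

end
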