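import Crest.Agent.N250.B1.EndCv0

/-!
# Row 250, B1 (helper43): the size of the source (`SrcS`)
-/

set_option autoImplicit false
set_option linter.unusedSectionVars false
open Set Complex Filter Topology

noncomputable section

namespace Crest.Agent.N250

namespace Nl
variable {R : Type*} [NormedCommRing R] [NormOneClass R] [NormedAlgebra ℂ R] [CompleteSpace R]

/-- variant of `Sm.G_le` with `|k n Z²|` as a hypothesis -/
theorem G_le4 {y T TT Z S V n k : R} {a b : ℝ} (hy : ‖y‖ ≤ 1 / 4) (hT : ‖T‖ ≤ 1 / 2)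
    (hTT : ‖TT‖ ≤ 1) (hZ : ‖Z‖ ≤ 4) (hV : ‖V‖ ≤ 1) (hn : ‖n‖ ≤ 1 / 64)
    (h1 : ‖k * (y * TT)‖ ≤ a) (h2 : ‖k * (T * T)‖ ≤ a) (h3 : ‖k * (T * S)‖ ≤ a)
    (h4 : ‖k * n * Z ^ 2‖ ≤ b) : ‖k * G y T TT Z S V n‖ ≤ 25 * a + 2 * b := by
  have ha : 0 ≤ a := (norm_nonneg _).trans h1
  have hu : ‖uu y‖ ≤ 2 := inv_le (hy.trans (by norm_num))
  have hj : ‖jj y T Z n‖ ≤ 2 := inv_le (Qm_le4 hy hT hZ hn)
  have hh := hf_le (R := R)
  have hV' : ‖1 + V‖ ≤ 1 + 1 := add_le norm_one.le hV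
  have e : k * G y T TT Z S V n = hf R * uu y * (k * (y * TT)) +
      hf R ^ 2 * uu y ^ 2 * (k * (T * T)) +
      jj y T Z n * (hf R * (1 + V) * (k * n * Z ^ 2) + hf R * uu y * Z * (k * (T * S)) -
        hf R ^ 3 * uu y ^ 2 * n * Z ^ 2 * (k * (T * T)) + hf R ^ 2 * uu y * (k * (T * T)) +
        hf R ^ 3 * uu y ^ 2 * TT * (k * (T * T)) -
        hf R ^ 4 * uu y ^ 3 * T ^ 2 * (k * (T * T))) := by
    rw [G, Gp]; ring
  rw [e]
  refine (add_le (add_le (mul_le (mul_le hh hu) h1)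
    (mul_le (mul_le (pow_le hh 2) (pow_le hu 2)) h2)) (mul_le hj
      (sub_le (add_le (add_le (sub_le (add_le
        (mul_le (mul_le hh hV') h4)
        (mul_le (mul_le (mul_le hh hu) hZ) h3))
        (mul_le (mul_le (mul_le (mul_le (pow_le hh 3) (pow_le hu 2)) hn) (pow_le hZ 2)) h2))
        (mul_le (mul_le (pow_le hh 2) hu) h2))
        (mul_le (mul_le (mul_le (pow_le hh 3) (pow_le hu 2)) hTT) h2))
        (mul_le (mul_le (mul_le (pow_le hh 4) (pow_le hu 3)) (pow_le hT 2)) h2)))).trans ?_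
  nlinarith

end Nl

namespace B1

namespace Src

variable {ℓ : Ell} {R K g g' X0 ν δ A M : ℝ} {a0 X a : ℂ} {J : Jt ℓ}

section pt
variable {x0 : ℝ} {x e kx : ℂ}

theorem kk_pos (hb : BsP K g g' X0 a0 ν x0) : 0 < kk a0 x0 := div_pos hb.norm_pos hb.re_pos

theorem kk_t (hb : BsP K g g' X0 a0 ν x0) :
    kk a0 x0 * (W g g' a0 x0 / ‖et a0 x0‖) ≤ 1 := by
  have := hb.norm_pos
  have := hb.re_pos
  rw [kk, div_mul_div_comm, div_le_one (by positivity), mul_comm]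
  gcongr
  exact hb.W_le

theorem kk_et (hb : BsP K g g' X0 a0 ν x0) (h : NrP a0 a δ A x0 x e kx) {t : ℝ}
    (ht : t ≤ (et a0 x0).re) : kk a0 x0 * ‖(et a x)⁻¹‖ * t ≤ 2 * 1 := by
  have h1 := h.inv_et_le hb le_rfl
  have h2 := hb.re_pos
  have h3 := kk_pos hb
  calc _ ≤ kk a0 x0 * ‖(et a x)⁻¹‖ * (et a0 x0).re := by gcongr
    _ = ‖(et a x)⁻¹‖ * ‖et a0 x0‖ := by rw [kk]; field_simp
    _ ≤ _ := by linarith

theorem et_W (hb : BsP K g g' X0 a0 ν x0) (h : NrP a0 a δ A x0 x e kx) :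
    ‖(et a x)⁻¹‖ * W g g' a0 x0 ≤ 2 * (W g g' a0 x0 / ‖et a0 x0‖) := by
  have h1 := h.inv_et_le hb le_rfl
  have h2 := hb.norm_pos
  have h3 := hb.W_pos
  calc _ = ‖(et a x)⁻¹‖ * ‖et a0 x0‖ * (W g g' a0 x0 / ‖et a0 x0‖) := by field_simp
    _ ≤ _ := by gcongr

theorem xet_W (hb : BsP K g g' X0 a0 ν x0) (h : NrP a0 a δ A x0 x e kx) :
    ‖(x * et a x)⁻¹‖ * (x0 * W g g' a0 x0) ≤ 4 * (W g g' a0 x0 / ‖et a0 x0‖) := by
  have h1 := et_W hb h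
  have h2 : ‖x⁻¹‖ * x0 ≤ 2 := by
    rw [norm_inv, inv_mul_le_iff₀ (norm_pos_iff.2 (h.x_ne hb))]; linarith [h.n5']
  have h3 := hb.W_pos
  calc _ = ‖x⁻¹‖ * x0 * (‖(et a x)⁻¹‖ * W g g' a0 x0) := by rw [mul_inv, norm_mul]; ring
    _ ≤ 2 * (2 * (W g g' a0 x0 / ‖et a0 x0‖)) := by gcongr
    _ = _ := by ring

theorem b1_le (hb : BsP K g g' X0 a0 ν x0) {c d : ℝ} (h : c ≤ d * x0) :
    c * x0⁻¹ ≤ d * 1 ∧ c * (W g g' a0 x0 / (x0 * ‖et a0 x0‖)) ≤ d * (W g g' a0 x0 / ‖et a0 x0‖) := by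
  have h2 := hb.norm_pos
  have h3 := hb.W_pos
  have h4 := hb.x_pos
  refine ⟨by rwa [mul_inv_le_iff₀ h4, mul_one], ?_⟩
  calc _ ≤ d * x0 * (W g g' a0 x0 / (x0 * ‖et a0 x0‖)) := by gcongr
    _ = _ := by field_simp

theorem kk_n (hb : BsP K g g' X0 a0 ν x0) (h : NrP a0 a δ A x0 x e kx) :
    kk a0 x0 * ‖(x ^ 2 * et a x)⁻¹‖ ≤ 8 * ν := by
  refine le_trans (le_of_eq ?_) (h.n_le hb)
  rw [kk]; ring

theorem kk_np (hb : BsP K g g' X0 a0 ν x0) (h : NrP a0 a δ A x0 x e kx) :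
    kk a0 x0 * ‖(x ^ 2 * et a x)⁻¹‖ * ‖a * x ^ 2‖ ^ 2 ≤ A := by
  refine le_trans (le_of_eq ?_) h.n9
  have := h.x_ne hb
  have := h.et_ne hb
  rw [mul_assoc, ← norm_pow, ← norm_mul]
  congr 2
  field_simp

theorem b5_le (hb : BsP K g g' X0 a0 ν x0) (h : NrP a0 a δ A x0 x e kx) :
    kk a0 x0 * ‖(1 / 2 : ℂ) * ((et a0 x0)⁻¹ - e ^ 2 * (et a x)⁻¹)‖ * W g g' a0 x0 ≤
      δ * (W g g' a0 x0 / ‖et a0 x0‖) := by
  have h1 := h.et_ne hb
  have h2 := hb.norm_pos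
  have h3 := hb.W_pos
  have h4 := norm_pos_iff.1 h2
  have h5 := kk_pos hb
  have e1 : (1 / 2 : ℂ) * ((et a0 x0)⁻¹ - e ^ 2 * (et a x)⁻¹) =
      (1 - e ^ 2 * et a0 x0 / et a x) / (2 * et a0 x0) := by field_simp
  have h6 := h.n3.le
  have h7 : 0 ≤ δ := le_trans (by positivity) h6
  rw [e1, norm_div, norm_mul, Complex.norm_two]
  calc _ = kk a0 x0 * ‖1 - e ^ 2 * et a0 x0 / et a x‖ * (W g g' a0 x0 / ‖et a0 x0‖) / 2 := by
        field_simp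
    _ ≤ δ * (W g g' a0 x0 / ‖et a0 x0‖) / 2 := by gcongr
    _ ≤ _ := half_le_self (by positivity)

end pt

variable {θ : Nl.Th CI} {k : CI}

theorem up_cm (hb : Bs R K g g' X0 a0 ν)
    (hθ : ∀ s : II, θ.t s = (W g g' a0 (xr R X0 s) / ‖et a0 (xr R X0 s)‖ : ℝ))
    {f0 f : ℝ → ℝ} {u : Wi (om ℓ)} (h : WB R X0 f0 f u M) (h0 : ∀ s : II, 0 < f0 (xr R X0 s))
    (h1 : ∀ s : II, 0 < f (xr R X0 s)) {B : ℝ} {φ : CI} (hB : 0 ≤ B)
    (e0 : Wi.co u 0 = 0 ∨ ∀ s : II, ‖φ s‖ * f0 (xr R X0 s) ≤ B * 1)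
    (e1 : ∀ s : II, ‖φ s‖ * f (xr R X0 s) ≤ B * (W g g' a0 (xr R X0 s) / ‖et a0 (xr R X0 s)‖)) :
    ‖Nl.up θ (cm φ u)‖ ≤ B * M :=
  (wb_up_iff θ (t := fun x => W g g' a0 x / ‖et a0 x‖) fun s => by
    rw [hθ, norm_real, Real.norm_of_nonneg (div_pos (hb.2 s).W_pos (hb.2 s).norm_pos).le]).1
    (h.cm h0 h1 hB (e0.imp_left fun e => ⟨e, fun _ => zero_le_one⟩) e1)

theorem norm_k (hb : Bs R K g g' X0 a0 ν) (hk : ∀ s : II, k s = kk a0 (xr R X0 s)) (φ : CI)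
    (s : II) : ‖(k * φ) s‖ = kk a0 (xr R X0 s) * ‖φ s‖ := by
  rw [ContinuousMap.mul_apply, norm_mul, hk, norm_real, Real.norm_of_nonneg (kk_pos (hb.2 s)).le]

/-- the nonlinear part -/
theorem GJ_le (hb : Bs R K g g' X0 a0 ν) (h : Nr R X0 a0 δ A X a) (hν : ν ≤ 1 / 1000)
    (hJ : InB R K g g' X0 a0 M J) (hM : 32 * M ≤ 1) (h3 : Wi.co (J 3) 0 = 0)
    (h4 : Wi.co (J 4) 0 = 0) (h5 : Wi.co (J 5) 0 = 0)
    (hθ : ∀ s : II, θ.t s = (W g g' a0 (xr R X0 s) / ‖et a0 (xr R X0 s)‖ : ℝ))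
    (hk : ∀ s : II, k s = kk a0 (xr R X0 s)) :
    ‖Wi.cst _ k * Nl.up θ (GJ R X a J)‖ ≤ 202 * M ^ 2 + 4 * A := by
  have M0 := hJ.nonneg hb
  have pW := fun s : II => (hb.2 s).W_pos
  have p1 : ∀ _ : II, (0 : ℝ) < 1 := fun _ => one_pos
  have hG : Nl.Gain (Nl.scale (om ℓ) θ) k 1 := Nl.gain_scale (norm_le_pt fun s => by
    rw [norm_k hb hk, hθ, norm_real,
      Real.norm_of_nonneg (div_pos (hb.2 s).W_pos (hb.2 s).norm_pos).le]
    exact kk_t (hb.2 s))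
  have eW : ∀ s : II, ‖iv (etC R X a) s‖ * W g g' a0 (xr R X0 s) ≤
      2 * (W g g' a0 (xr R X0 s) / ‖et a0 (xr R X0 s)‖) := fun s => by
    rw [h.iv_etC hb]; exact et_W (hb.2 s) (h s)
  have hy := up_cm hb hθ hJ.b0 (fun s => (hb.2 s).rho_pos) pW zero_le_two (Or.inr fun s => by
    rw [h.iv_etC hb, mul_one]; exact (h s).inv_et_le (hb.2 s) (hb.2 s).rho_le_norm) eW
  have hT := up_cm hb hθ hJ.b3 p1 pW zero_le_two (Or.inl h3) eW
  have hTT := up_cm hb hθ hJ.b5 p1 pW zero_le_two (Or.inl h5) eW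
  have hS := up_cm hb hθ hJ.b4 p1 (fun s => mul_pos (hb.2 s).x_pos (pW s))
    (φ := iv (gam R X * etC R X a)) zero_le_four (Or.inl h4) fun s => by
      rw [h.iv_xe hb]; exact xet_W (hb.2 s) (h s)
  have hP := up_cm hb hθ hJ.b1 (fun s => inv_pos.2 (hb.2 s).x_pos)
    (fun s => div_pos (pW s) (mul_pos (hb.2 s).x_pos (hb.2 s).norm_pos)) (φ := gam R X) zero_le_two
    (Or.inr fun s => (b1_le (hb.2 s) (h s).n5.le).1) fun s => (b1_le (hb.2 s) (h s).n5.le).2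
  have hQ : ‖Nl.up θ (J 2)‖ ≤ 1 * M := by
    simpa [cm] using up_cm hb hθ hJ.b2 p1 (fun s => div_pos (pW s) (hb.2 s).norm_pos) (φ := 1)
      zero_le_one (Or.inr fun s => by simp) fun s => by simp
  have hy0 : ‖k * Wi.co (Nl.up θ (cm (iv (etC R X a)) (J 0))) 0‖ ≤ 2 * M := by
    have := (wb_one_iff (R := R) (X := X0)).1 (hJ.b0.cm (fun s => (hb.2 s).rho_pos) pW
      (φ := k * iv (etC R X a)) zero_le_two (Or.inr fun s => by
        rw [norm_k hb hk, h.iv_etC hb]; exact kk_et (hb.2 s) (h s) (hb.2 s).rho_le) fun s => by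
        rw [norm_k hb hk, h.iv_etC hb]; exact kk_et (hb.2 s) (h s) (hb.2 s).W_le)
    refine le_trans (le_of_eq ?_) ((Wi.norm_co_le _ 0).trans this)
    rw [Nl.co_up, Wi.co_cst_mul, Wi.co_cst_mul, mul_assoc]
  have z : ∀ (φ : CI) (u : Wi (om ℓ)), Wi.co u 0 = 0 → Wi.co (Nl.up θ (cm φ u)) 0 = 0 :=
    fun φ u hu => by rw [Nl.co_up, Wi.co_cst_mul, hu, mul_zero]
  obtain ⟨u1, u2⟩ := unitsJ hb h hν hJ hM h3
  rw [GJ, Nl.map_G (Nl.up θ) _ _ _ u1 u2, map_add, map_add, Nl.up_cst, Nl.up_cst, Nl.up_cst]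
  set n := iv (gam R X ^ 2 * etC R X a) with hn
  set p := a • gam R X ^ 2 with hp
  set P := Nl.up θ (cm (gam R X) (J 1))
  have hpn : ‖p‖ ≤ 3 := norm_le_pt fun s => (h s).n8.le
  have hnn : ‖n‖ ≤ 8 * ν := norm_le_pt fun s => by rw [h.iv_xxe hb]; exact (h s).n_le' (hb.2 s)
  have q0 : ∀ s : II, ‖(k * n) s‖ ≤ 8 * ν := fun s => by
    rw [norm_k hb hk, h.iv_xxe hb]; exact kk_n (hb.2 s) (h s)
  have q2 : ∀ s : II, ‖(k * n) s‖ * ‖p s‖ ^ 2 ≤ A := fun s => by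
    rw [norm_k hb hk, h.iv_xxe hb]; exact kk_np (hb.2 s) (h s)
  have q1 : ‖k * n * p‖ * (4 * M) ≤ A + 32 * ν * M ^ 2 := by
    have : ‖((4 * M : ℝ) : ℂ) • (k * n * p)‖ ≤ A + 32 * ν * M ^ 2 := norm_le_pt fun s => by
      rw [ContinuousMap.smul_apply, norm_smul, norm_real, Real.norm_of_nonneg (by positivity),
        ContinuousMap.mul_apply, norm_mul]
      have := q0 s
      have := q2 s
      have := mul_nonneg (norm_nonneg ((k * n) s)) (sq_nonneg (‖p s‖ - 2 * M))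
      have := mul_le_mul_of_nonneg_right (q0 s) (sq_nonneg M)
      nlinarith
    rwa [norm_smul, norm_real, Real.norm_of_nonneg (by positivity), mul_comm] at this
  have hZ2 : ‖Wi.cst (Nl.scale (om ℓ) θ) k * Wi.cst _ n * (Wi.cst _ p + P) ^ 2‖ ≤
      2 * A + M ^ 2 := by
    have e : Wi.cst (Nl.scale (om ℓ) θ) k * Wi.cst _ n * (Wi.cst _ p + P) ^ 2 =
        Wi.cst _ (k * n * p ^ 2) + Wi.cst _ (k * n * p) * P + Wi.cst _ (k * n * p) * P +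
          Wi.cst _ (k * n) * P ^ 2 := by
      simp only [map_mul, map_pow]; ring
    have r2 : ‖Wi.cst (Nl.scale (om ℓ) θ) (k * n * p ^ 2)‖ ≤ A :=
      (Wi.norm_cst _).le.trans (norm_le_pt fun s => by
        rw [ContinuousMap.mul_apply, norm_mul, ContinuousMap.pow_apply, norm_pow]; exact q2 s)
    have r1 := Nl.cst_mul_le (le_refl ‖k * n * p‖) hP
    have r0 := Nl.cst_mul_le (norm_le_pt q0) (Nl.pow_le hP 2)
    rw [e]
    refine (Nl.add_le (Nl.add_le (Nl.add_le r2 r1) r1) r0).trans ?_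
    have := mul_le_mul_of_nonneg_right hν (sq_nonneg M)
    nlinarith
  refine (Nl.G_le4 (a := 8 * M ^ 2) (hy.trans (by linarith)) (hT.trans (by linarith))
    (hTT.trans (by linarith)) ((Nl.add_le ((Wi.norm_cst _).le.trans hpn) hP).trans (by linarith))
    ((Nl.add_le ((Wi.norm_cst _).le.trans (norm_le_pt (C := 1 / 2) fun s => ?_)) hQ).trans
      (by linarith)) ((Wi.norm_cst _).le.trans (hnn.trans (by linarith))) ?_ ?_ ?_ hZ2).trans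
      (by linarith)
  · simpa [cst] using (h s).n8'.le
  · refine (hG.le' _ (z _ _ h5)).trans ?_
    calc _ ≤ (2 * M + 1 * (2 * M)) * (2 * M) := by gcongr
      _ = _ := by ring
  · refine (hG.le (z _ _ h3) (z _ _ h3)).trans ?_
    calc _ ≤ 1 * (2 * M * (2 * M)) := by gcongr
      _ ≤ _ := by nlinarith
  · refine (hG.le (z _ _ h3) (z _ _ h4)).trans ?_
    calc _ ≤ 1 * (2 * M * (4 * M)) := by gcongr
      _ = _ := by ring

end Src

open Src in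
theorem srcS_holds : SrcS := by
  refine ⟨1000, by norm_num, fun ℓ R K g g' X0 a0 ν δ A X a hb h hν J M hJ hM h3 h4 h5 θ k hθ hk => ?_⟩
  have M0 := hJ.nonneg hb
  have pW := fun s : II => (hb.2 s).W_pos
  have δ0 : 0 ≤ δ := le_trans (mul_nonneg (kk_pos (hb.2 i0)).le (norm_nonneg _)) (h i0).n2.le
  have A0 : 0 ≤ A := le_trans (mul_nonneg (kk_pos (hb.2 i0)).le (norm_nonneg _)) (h i0).n9
  have t0 : ‖Wi.cst _ (eC R X0 X ^ 2) * (Wi.cst _ k * Nl.up θ (GJ R X a J))‖ ≤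
      2 ^ 2 * (202 * M ^ 2 + 4 * A) :=
    Nl.cst_mul_le (Nl.pow_le (norm_le_pt fun s => (h s).n6.le) 2)
      (GJ_le hb h hν hJ hM h3 h4 h5 hθ hk)
  have c1 : ∀ s : II, ‖(k * ((1 / 2 : ℂ) • (eC R X0 X ^ 2 * gam R X) + kC R X0 X -
      (1 / 2 : ℂ) • (eC R X0 X * gam R X0))) s‖ ≤ δ * xr R X0 s := fun s => by
    rw [norm_k hb hk]
    refine le_trans (le_of_eq ?_) (h s).n1.le
    congr 2
    simp only [ContinuousMap.sub_apply, ContinuousMap.add_apply, ContinuousMap.smul_apply,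
      ContinuousMap.mul_apply, ContinuousMap.pow_apply, gam_ofReal, smul_eq_mul]
    ring
  have t1 := up_cm hb hθ hJ.b1 (fun s => inv_pos.2 (hb.2 s).x_pos)
    (fun s => div_pos (pW s) (mul_pos (hb.2 s).x_pos (hb.2 s).norm_pos)) δ0
    (Or.inr fun s => (b1_le (hb.2 s) (c1 s)).1) fun s => (b1_le (hb.2 s) (c1 s)).2
  have c2 : ∀ s : II, ‖(k * (1 - eC R X0 X ^ 2) : CI) s‖ ≤ δ := fun s => by
    rw [norm_k hb hk]; exact (h s).n2.le
  have t2 := up_cm hb hθ hJ.b0 (fun s => (hb.2 s).rho_pos) pW (B := δ * 3) (by positivity)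
    (Or.inr fun s => by
      rw [mul_one]
      exact mul_le_mul (c2 s) ((hb.2 s).rho_le_norm.trans (hb.2 s).norm_le) (hb.2 s).rho_pos.le δ0)
    fun s => by
      rw [mul_assoc]
      refine mul_le_mul (c2 s) ?_ (pW s).le δ0
      rw [← mul_div_assoc, le_div_iff₀ (hb.2 s).norm_pos, mul_comm]
      exact mul_le_mul_of_nonneg_right (hb.2 s).norm_le (pW s).le
  have t3 := up_cm hb hθ hJ.b5 (fun _ => one_pos) pW
    (φ := k * ((1 / 2 : ℂ) • (iv (etC R X0 a0) - eC R X0 X ^ 2 * iv (etC R X a)))) δ0 (Or.inl h5)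
    fun s => by
      rw [norm_k hb hk]
      refine le_trans (le_of_eq ?_) (b5_le (hb.2 s) (h s))
      simp only [ContinuousMap.sub_apply, ContinuousMap.smul_apply, ContinuousMap.mul_apply,
        ContinuousMap.pow_apply, hb.iv_etC, h.iv_etC hb, gam_ofReal, smul_eq_mul]
  refine le_trans (le_of_eq ?_) ((Nl.add_le (Nl.add_le (Nl.add_le t0 t1) t2) t3).trans ?_)
  · congr 1
    simp only [src, cm, map_add, map_mul, Nl.up_cst]
    ring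
  · have := mul_nonneg δ0 M0
    nlinarith [sq_nonneg M]

end B1

end Crest.Agent.N250

end
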