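import Crest.Agent.N250.B1.End0
import Crest.Agent.N250.B1.Gam

/-!
# Row 250, B1 (helper72): stability of the nearness conditions (`StabS`)

Strict inequalities between jointly continuous functions of `(parameter, s)` persist near the base
parameter, uniformly in `s` in the compact interval.
-/

set_option autoImplicit false
open Set Complex Filter Topology

noncomputable section

namespace Crest.Agent.N250.B1

namespace Stab

theorem ev_lt {P : Type} [TopologicalSpace P] {p0 : P} {F G : P × II → ℝ}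
    (hF : ∀ s, ContinuousAt F (p0, s)) (hG : ∀ s, ContinuousAt G (p0, s))
    (h : ∀ s, F (p0, s) < G (p0, s)) : ∀ᶠ p in 𝓝 p0, ∀ s, F (p, s) < G (p, s) := by
  have := isCompact_univ.eventually_forall_of_forall_eventually (x₀ := p0)
    (P := fun p (s : II) => F (p, s) < G (p, s)) (fun s _ => (hF s).eventually_lt (hG s) (h s))
  simpa using this

/-- a positive jointly continuous weight changes by at most a factor `2` -/
theorem ev_two {P : Type} [TopologicalSpace P] {p0 : P} {F : P × II → ℝ}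
    (hF : ∀ s, ContinuousAt F (p0, s)) (h : ∀ s, 0 < F (p0, s)) :
    ∀ᶠ p in 𝓝 p0, ∀ s, F (p0, s) ≤ 2 * F (p, s) := by
  have h1 : ∀ s, ContinuousAt (fun q : P × II => F (p0, q.2)) (p0, s) := fun s =>
    ContinuousAt.comp (f := fun q : P × II => (p0, q.2)) (hF s) (by fun_prop)
  exact (ev_lt (F := fun q : P × II => F (p0, q.2)) (G := fun q => 2 * F q) h1
    (fun s => continuousAt_const.mul (hF s)) fun s => by linarith [h s]).mono
    fun p hp s => (hp s).le

abbrev PP : Type := (ℂ × ℂ) × II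

theorem c_x0 (R X0 : ℝ) : Continuous fun q : PP => xr R X0 q.2 :=
  (continuous_xr R X0).comp (by fun_prop)

theorem c_x (R : ℝ) : Continuous fun q : PP => gam R q.1.1 q.2 := by
  simp only [gam_apply]
  have := continuous_cub
  fun_prop

theorem c_e (R X0 : ℝ) : Continuous fun q : PP => eC R X0 q.1.1 q.2 := by
  simp only [eC, ContinuousMap.mul_apply, dgam_apply R _ (_ : PP).2]
  have := continuous_cub
  fun_prop

theorem c_k (R X0 : ℝ) : Continuous fun q : PP => kC R X0 q.1.1 q.2 := by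
  simp only [kC, ContinuousMap.smul_apply, smul_eq_mul]
  fun_prop

theorem c_et {Y : Type} [TopologicalSpace Y] {a x : Y → ℂ} (ha : Continuous a) (hx : Continuous x) :
    Continuous fun y => et (a y) (x y) := by
  unfold et; fun_prop

theorem c_xr (R : ℝ) : Continuous fun q : PP => xr R q.1.1.re q.2 := by
  unfold xr
  have := continuous_cub
  fun_prop

theorem nrP_ev {Y : Type} [TopologicalSpace Y] {y0 : Y} {a0 : ℂ} {δ A η : ℝ} {x0 : Y → ℝ}
    {a x e k : Y → ℂ} (hx0 : Continuous x0) (ha : Continuous a) (hx : Continuous x)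
    (he : Continuous e) (hk : Continuous k) (hp : 0 < (et a0 (x0 y0)).re)
    (h : NrP a0 (a y0) δ A (x0 y0) (x y0) (e y0) (k y0)) (hη : 0 < η) :
    ∀ᶠ y in 𝓝 y0, NrP a0 (a y) δ (A + η) (x0 y) (x y) (e y) (k y) := by
  have hx0' : Continuous fun y => ((x0 y : ℝ) : ℂ) := continuous_ofReal.comp hx0
  have het0 : Continuous fun y => et a0 (x0 y : ℝ) := c_et continuous_const hx0'
  have het : Continuous fun y => et (a y) (x y) := c_et ha hx
  have hkk : ContinuousAt (fun y => kk a0 (x0 y)) y0 :=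
    het0.norm.continuousAt.div (continuous_re.comp het0).continuousAt hp.ne'
  have hne : et (a y0) (x y0) ≠ 0 := fun h0 => by
    have := h.n4
    rw [h0, norm_zero] at this
    linarith [norm_nonneg (et a0 (x0 y0 : ℝ))]
  have e1 := ContinuousAt.eventually_lt
    (f := fun y => kk a0 (x0 y) * ‖e y ^ 2 * x y / 2 + k y - e y * (x0 y : ℝ) / 2‖)
    (g := fun y => δ * x0 y) (hkk.mul (Continuous.continuousAt (by fun_prop)))
    (Continuous.continuousAt (by fun_prop)) h.n1
  have e2 := ContinuousAt.eventually_lt (f := fun y => kk a0 (x0 y) * ‖1 - e y ^ 2‖)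
    (g := fun _ => δ) (hkk.mul (Continuous.continuousAt (by fun_prop))) continuousAt_const h.n2
  have e3 := ContinuousAt.eventually_lt
    (f := fun y => kk a0 (x0 y) * ‖1 - e y ^ 2 * et a0 (x0 y : ℝ) / et (a y) (x y)‖)
    (g := fun _ => δ) (hkk.mul (continuousAt_const.sub
      (((he.pow 2).mul het0).continuousAt.div het.continuousAt hne)).norm) continuousAt_const h.n3
  have e4 := het0.norm.continuousAt.eventually_lt
    (g := fun y => 2 * ‖et (a y) (x y)‖) (continuous_const.mul het.norm).continuousAt h.n4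
  have e5 := hx.norm.continuousAt.eventually_lt
    (g := fun y => 2 * x0 y) (continuous_const.mul hx0).continuousAt h.n5
  have e5' := hx0.continuousAt.eventually_lt
    (g := fun y => 2 * ‖x y‖) (continuous_const.mul hx.norm).continuousAt h.n5'
  have e6 := he.norm.continuousAt.eventually_lt (g := fun _ => 2) continuousAt_const h.n6
  have e6' := ContinuousAt.eventually_lt (f := fun _ => (1 : ℝ)) (g := fun y => 2 * ‖e y‖)
    continuousAt_const (continuous_const.mul he.norm).continuousAt h.n6'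
  have e7 := hk.norm.continuousAt.eventually_lt hx0.continuousAt h.n7
  have e8 := (ha.mul (hx.pow 2)).norm.continuousAt.eventually_lt (g := fun _ => 3)
    continuousAt_const h.n8
  have e8' := ha.norm.continuousAt.eventually_lt (g := fun _ => 1 / 2) continuousAt_const h.n8'
  have e9 := ContinuousAt.eventually_lt
    (f := fun y => kk a0 (x0 y) * ‖a y ^ 2 * x y ^ 2 / et (a y) (x y)‖) (g := fun _ => A + η)
    (hkk.mul (((ha.pow 2).mul (hx.pow 2)).continuousAt.div het.continuousAt hne).norm)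
    continuousAt_const (h.n9.trans_lt (by linarith))
  filter_upwards [e1, e2, e3, e4, e5, e5', e6, e6', e7, e8, e8', e9] with
    y e1 e2 e3 e4 e5 e5' e6 e6' e7 e8 e8' e9
  exact ⟨e1, e2, e3, e4, e5, e5', e6, e6', e7, e8, e8', e9.le⟩

theorem nr_ev {R K g g' X0 ν δ A : ℝ} {a0 : ℂ} {p0 : ℂ × ℂ} (hB : Bs R K g g' X0 a0 ν)
    (hN : Nr R X0 a0 δ A p0.1 p0.2) {η : ℝ} (hη : 0 < η) :
    ∀ᶠ p : ℂ × ℂ in 𝓝 p0, Nr R X0 a0 δ (A + η) p.1 p.2 := by
  have := isCompact_univ.eventually_forall_of_forall_eventually (x₀ := p0)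
    (P := fun (p : ℂ × ℂ) (s : II) => NrP a0 p.2 δ (A + η) (xr R X0 s) (gam R p.1 s) (eC R X0 p.1 s)
      (kC R X0 p.1 s)) fun s _ =>
    nrP_ev (y0 := ((p0, s) : PP)) (a := fun q => q.1.2) (c_x0 R X0) (by fun_prop) (c_x R) (c_e R X0)
      (c_k R X0) (hB.2 s).re_pos (hN s) hη
  exact this.mono fun p hp s => hp s trivial

theorem inB_ev {R K g g' ν : ℝ} {p0 : ℂ × ℂ} (hB : Bs R K g g' p0.1.re p0.2 ν) (ℓ : Ell) :
    ∀ᶠ p : ℂ × ℂ in 𝓝 p0, ∀ (M : ℝ) (J : Jt ℓ), InB R K g g' p0.1.re p0.2 M J →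
      InB R K g g' p.1.re p.2 (2 * M) J := by
  have hx := c_xr R
  have hx' : Continuous fun q : PP => ((xr R q.1.1.re q.2 : ℝ) : ℂ) := continuous_ofReal.comp hx
  have ha : Continuous fun q : PP => q.1.2 := by fun_prop
  have hX : Continuous fun q : PP => q.1.1.re := by fun_prop
  have het : Continuous fun q : PP => ‖et q.1.2 (xr R q.1.1.re q.2 : ℝ)‖ := (c_et ha hx').norm
  have hX0 : p0.1.re ^ 2 ≠ 0 := by
    have h1 := (hB.2 i0).one_le
    rw [xr_i0] at h1
    exact pow_ne_zero 2 (by linarith [hB.1] : 0 < p0.1.re).ne'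
  have hrho : ∀ s : II, ContinuousAt (fun q : PP => rho K q.1.1.re (xr R q.1.1.re q.2)) (p0, s) :=
    fun s => continuousAt_const.sub
      ((((hx.pow 2).sub continuous_const).continuousAt.div (hX.pow 2).continuousAt hX0).mul
        (continuousAt_const.sub (continuousAt_const.div (hX.pow 2).continuousAt hX0)))
  have hW : ∀ s : II, ContinuousAt (fun q : PP => W g g' q.1.2 (xr R q.1.1.re q.2)) (p0, s) :=
    fun s => (hx.continuousAt.rpow_const (Or.inl (hB.2 s).x_pos.ne')).mul
      (het.continuousAt.rpow_const (Or.inl (hB.2 s).norm_pos.ne'))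
  have px := fun s : II => (hB.2 s).x_pos
  have pn := fun s : II => (hB.2 s).norm_pos
  have pW := fun s : II => (hB.2 s).W_pos
  have pr := fun s : II => (hB.2 s).rho_pos
  have e0 := ev_two hrho pr
  have e1 := ev_two hW pW
  have e2 := ev_two (p0 := p0) (F := fun q : PP => (xr R q.1.1.re q.2)⁻¹)
    (fun s => hx.continuousAt.inv₀ (px s).ne') fun s => inv_pos.2 (px s)
  have e3 := ev_two (p0 := p0) (F := fun q : PP => W g g' q.1.2 (xr R q.1.1.re q.2) /
      (xr R q.1.1.re q.2 * ‖et q.1.2 (xr R q.1.1.re q.2 : ℝ)‖))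
    (fun s => (hW s).div (hx.mul het).continuousAt (mul_pos (px s) (pn s)).ne')
    fun s => div_pos (pW s) (mul_pos (px s) (pn s))
  have e4 := ev_two (p0 := p0) (F := fun q : PP => W g g' q.1.2 (xr R q.1.1.re q.2) /
      ‖et q.1.2 (xr R q.1.1.re q.2 : ℝ)‖)
    (fun s => (hW s).div het.continuousAt (pn s).ne') fun s => div_pos (pW s) (pn s)
  have e5 := ev_two (p0 := p0)
    (F := fun q : PP => xr R q.1.1.re q.2 * W g g' q.1.2 (xr R q.1.1.re q.2))
    (fun s => hx.continuousAt.mul (hW s)) fun s => mul_pos (px s) (pW s)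
  have h12 : ∀ _ : II, (1 : ℝ) ≤ 2 * 1 := fun _ => by norm_num
  filter_upwards [e0, e1, e2, e3, e4, e5] with p e0 e1 e2 e3 e4 e5 M J h
  exact ⟨h.b0.wt pr pW zero_le_two e0 e1,
    h.b1.wt (fun s => inv_pos.2 (px s)) (fun s => div_pos (pW s) (mul_pos (px s) (pn s)))
      zero_le_two e2 e3,
    h.b2.wt (fun _ => one_pos) (fun s => div_pos (pW s) (pn s)) zero_le_two h12 e4,
    h.b3.wt (fun _ => one_pos) pW zero_le_two h12 e1,
    h.b4.wt (fun _ => one_pos) (fun s => mul_pos (px s) (pW s)) zero_le_two h12 e5,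
    h.b5.wt (fun _ => one_pos) pW zero_le_two h12 e1⟩

theorem dn_cont (ℓ : Ell) (R g g' X : ℝ) (a : ℂ) : Continuous (dn (ℓ := ℓ) R g g' X a) := by
  have h1 : Continuous fun D : Dat ℓ => Wi.co D.2.1 0 :=
    (Wi.coL (omF ℓ) 0).continuous.comp (by fun_prop)
  have h2 : Continuous fun D : Dat ℓ => Wi.single (omF ℓ) 0 (Wi.co D.2.1 0) :=
    (map_continuous (Wi.cst (omF ℓ))).comp h1
  unfold dn
  fun_prop

end Stab

theorem stabS_holds : StabS := by
  intro ℓ R K g g' ν δ A z0 hB hN η hη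
  have hc : ContinuousAt (fun z : Par ℓ => (z.1, z.2.1)) z0 := by fun_prop
  have h1 := hc.eventually (Stab.nr_ev (p0 := (z0.1, z0.2.1)) hB hN hη)
  have h2 := hc.eventually (Stab.inB_ev (p0 := (z0.1, z0.2.1)) hB ℓ)
  have h3 := ContinuousAt.eventually_lt
    (f := fun z : Par ℓ => dn R g g' z0.1.re z0.2.1 z.2.2)
    (g := fun _ => dn R g g' z0.1.re z0.2.1 z0.2.2 + η) (x₀ := z0)
    ((Stab.dn_cont ℓ R g g' _ _).comp (by fun_prop)).continuousAt continuousAt_const (by linarith)
  filter_upwards [h1, h2, h3] with z h1 h2 h3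
  exact ⟨h1, h3, h2⟩

end Crest.Agent.N250.B1

end
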