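import Crest.Agent.N250.B1.Lin6
import Crest.Agent.N250.B1.WtBar

/-! # Row 250, block B1 (helper24): the linear solver `LinS` -/

set_option autoImplicit false

open Set Filter Topology Complex

noncomputable section

namespace Crest.Agent.N250.B1

lemma Bar.weaken {a b δ : ℝ} {B Ω Ω1 Ω2 γ γ' : ℝ → ℝ} {V : ℝ → ℂ} {κ : ℂ}
    (h : Bar a b B V κ Ω Ω1 Ω2 γ δ) (h0 : ∀ x ∈ Ioo a b, 0 < γ' x) (h1 : ∀ x ∈ Ioo a b, γ' x ≤ γ x) :
    Bar a b B V κ Ω Ω1 Ω2 γ' δ :=
  { h with γpos := h0, sup := fun x hx => (h.sup x hx).trans (neg_le_neg (h1 x hx)) }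

/-- weights of the mode `0` in `InB` -/
def wt0 (K X : ℝ) : Fin 6 → ℝ → ℝ :=
  ![rho K X, fun x => x⁻¹, fun _ => 1, fun _ => 1, fun _ => 1, fun _ => 1]

/-- weights of the other modes in `InB` -/
def wt1 (g g' : ℝ) (a : ℂ) : Fin 6 → ℝ → ℝ :=
  ![W g g' a, fun x => W g g' a x / (x * ‖et a x‖), fun x => W g g' a x / ‖et a x‖, W g g' a,
    fun x => x * W g g' a x, W g g' a]

theorem inB_iff {ℓ : Ell} {R K g g' X M : ℝ} {a : ℂ} {J : Jt ℓ} :
    InB R K g g' X a M J ↔ ∀ i, WB R X (wt0 K X i) (wt1 g g' a i) (J i) M :=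
  ⟨fun h i => by fin_cases i; exacts [h.b0, h.b1, h.b2, h.b3, h.b4, h.b5],
    fun h => ⟨h 0, h 1, h 2, h 3, h 4, h 5⟩⟩

theorem Es_right {R X : ℝ} (h : R + 2 ≤ X) (t : ℝ) : Es R t X = (Real.exp t)⁻¹ := by
  rw [Es, sig, max_eq_right (by linarith), ← Real.exp_neg]; simp

theorem Es_left (R t : ℝ) : Es R t R = 1 := by simp [Es, sig]

section
variable {ℓ : Ell} {R K X g g' c : ℝ} {a : ℂ}

theorem wt_Om (ok : Ok (c / 10 ^ 5) a R X) (t : ℝ) {A C : ℝ} (hA : A ≤ C) (i : Fin 6)
    {x : ℝ} (hx : x ∈ Icc R X) (Ω : ℝ → ℝ) (hΩ : Ω x = W g g' a x * Es R t x) :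
    A * ![Ω x, Ω x / (x * ‖et a x‖), Ω x / ‖et a x‖, Ω x, x * Ω x, Ω x] i ≤
      C * wt1 g g' a i x * Es R t x := by
  have h := ok.pt hx
  have := h.xpos; have := h.npos; have := h.W_pos g g'; have := Es_pos R t x
  have e : ![Ω x, Ω x / (x * ‖et a x‖), Ω x / ‖et a x‖, Ω x, x * Ω x, Ω x] i =
      wt1 g g' a i x * Es R t x := by
    fin_cases i <;> simp [wt1, hΩ] <;> ring
  rw [e, mul_assoc]
  refine mul_le_mul_of_nonneg_right hA (mul_nonneg ?_ (by positivity))
  fin_cases i <;> simp only [wt1] <;> simp <;> positivity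

/-- the mode estimates of the end solver -/
theorem lfam_end (G : GG g g' c) (hR : 4 / (c / 10 ^ 5) ≤ R) (hK : 4 / (c / 10 ^ 5) ≤ K)
    (hℓ : ℓ.Sm (c / 6000) R) (hX : 2 * R + 4 ≤ X) (hKX : 2 * √K ≤ X) (ha : Adm K X a) :
    LFam ℓ R X a (3600 / c) (fun _ => 1) (fun x => mu a x * W g g' a x) (del0 R g g' X a)
      (del1 ℓ g g' X a) (wt0 K X) (wt1 g g' a) ∧ ∀ m, MEx R X a m := by
  have hc := G.pos
  have hc1 := G.c_le
  have ok : Ok (c / 10 ^ 5) a R X := ha.ok' (by linarith) (by positivity) hR hK hX hKX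
  have hK0 : 0 < K := lt_of_lt_of_le (by positivity) hK
  have hR1 := ok.ptR.x_ge
  have hR0 : 0 < R := by linarith
  have pX := ok.ptX
  have hX0 := pX.xpos
  have hX2 : R + 2 ≤ X := by linarith
  have hW := pX.W_pos g g'
  have he := pX.repos
  have hC : 3600 ≤ 3600 / c := by rw [le_div_iff₀ hc]; linarith
  have sg : ∀ m : ℤ, Sg _ _ _ R X (c * |(m : ℝ)| / 1000) := fun m =>
    sg_sig (t := ℓ.l m) X (by linarith) (ℓ.nonneg m) (by
      have := hℓ m
      rw [le_div_iff₀ hR0] at this; linarith)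
  have ld : ∀ m : ℤ, LD R X (Om g g' (fun x => sig (x - R) * ℓ.l m) a) _ := fun m =>
    ⟨fun x hx => (ok.pt hx).Om_pos _ _ _, ok.dv_Om g g' (sg m).d0⟩
  have om : ∀ (m : ℤ) x, Om g g' (fun x => sig (x - R) * ℓ.l m) a x =
      W g g' a x * Es R (ℓ.l m) x := fun _ _ => rfl
  refine ⟨⟨hX2, by positivity, fun _ _ => one_pos,
    fun x hx => mul_pos (ok.pt hx).mu_pos ((ok.pt hx).W_pos _ _), fun m => ?_, fun m => ?_, ?_,
    fun m hm => ?_⟩, fun m => ?_⟩
  · have := Real.rpow_pos_of_pos hR0 (-g)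
    unfold del0; split_ifs <;> positivity
  · unfold del1; split_ifs <;> positivity
  · refine (mest_zero a (by linarith) hK0 (four_le_of_sqrt hK0.le hKX)).mono (c := 1) zero_le_one
      (fun _ _ => by simp) (by simp [del0]) (by simp [del1]) fun i x hx => ?_
    have e : ![rho K X x, x⁻¹, 1, 1, 1, 1] i = wt0 K X i x := by fin_cases i <;> simp [wt0]
    rw [one_mul, e]
    refine mul_le_mul_of_nonneg_right (by linarith) ?_
    have h1 := (ok.pt hx).xpos
    have h2 := rho_ge hK0.le hX0 (four_le_of_sqrt hK0.le hKX) (pow_le_pow_left₀ h1.le hx.2 2)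
    have h3 : 0 ≤ rho K X x := le_trans (by positivity) h2
    fin_cases i <;> simp [wt0, h3, h1.le]
  · by_cases h2 : 2 ≤ |m|
    · obtain ⟨Ot, O1, O2, bar, h1⟩ := ok.bar_hi G (by linarith) h2 (sg m)
      have hk : (2 : ℝ) ≤ |(m : ℝ)| := by exact_mod_cast h2
      have hk2 : 4 ≤ (m : ℝ) ^ 2 := by nlinarith [sq_abs (m : ℝ)]
      refine (mest_of_bar (c := c / 16) ok h2 (by positivity) (by linarith) (ld m)
        (fun x hx => ?_) (bar.weaken (fun x hx => ?_) fun x hx => ?_) h1).mono (c := 3)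
        (by norm_num) (fun x hx => ?_) ?_ ?_ fun i x hx => ?_
      · exact ((ok.pt hx).lam_le' G ((sg m).nn x hx)).trans (by linarith [(ok.pt hx).xpos])
      · have := (ok.pt (Ioo_subset_Icc_self hx)).mu_pos
        have := (ld m).pos x (Ioo_subset_Icc_self hx); positivity
      · have := (ok.pt (Ioo_subset_Icc_self hx)).mu_pos
        have := (ld m).pos x (Ioo_subset_Icc_self hx)
        gcongr; norm_num
      · have := mul_pos (ok.pt hx).mu_pos ((ld m).pos x hx)
        rw [om] at this ⊢; linarith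
      · have h3 := rpow_le_W G hR0 (ha.re_ge hK0.le hX0 (by nlinarith) (by nlinarith))
        have h4 := ok.ptR.W_pos g g'
        rw [del0, if_pos h2, om, Es_left, mul_one, ← mul_div_assoc]
        exact div_le_div₀ (by positivity) (by linarith) (by positivity)
          (by nlinarith [sq_abs (m : ℝ)])
      · rw [del1, if_neg hm, om, Es_right hX2]
        have := Real.exp_pos (ℓ.l m)
        have e : 3 * (W g g' a X * (Real.exp (ℓ.l m))⁻¹ / (X + |(m : ℝ)|)) =
            W g g' a X * 3 / ((X + |(m : ℝ)|) * Real.exp (ℓ.l m)) := by field_simp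
        rw [e, ← mul_assoc]
        gcongr
        · exact pX.re_le_three
        · nlinarith [pX.x_ge]
      · rw [← mul_assoc]
        refine wt_Om ok _ ?_ i hx _ (om m x)
        rw [div_div_eq_mul_div, ← mul_div_assoc]
        exact div_le_div_of_nonneg_right (by norm_num) hc.le
    · have hm1 : m ^ 2 = 1 := by rcases small_cases h2 with h | h | h <;> simp_all
      have hm2 : |(m : ℝ)| = 1 := by rcases small_cases h2 with h | h | h <;> simp_all
      have ht : Real.exp (ℓ.l m) ≤ 3 := by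
        have h3 := hℓ m
        rw [hm2, le_div_iff₀ hR0] at h3
        have h4 : ℓ.l m ≤ 1 := by nlinarith [ℓ.nonneg m]
        exact (Real.exp_le_exp.2 h4).trans (Real.exp_one_lt_d9.le.trans (by norm_num))
      have h5 := Real.exp_pos (ℓ.l m)
      have hn := pX.norm_le
      have hn0 := pX.npos
      have hμ := pX.mu_pos
      refine (mest_rot ok hm1 (ld m) (fun x hx => (ok.pt hx).lam_le' G ((sg m).nn x hx))
        fun x hx => ?_).mono (c := 36) (by norm_num) (fun x hx => ?_) ?_ ?_ fun i x hx => ?_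
      · exact ((ok.pt hx).lam_sub_l1 G ((sg m).nn x hx)).trans (by linarith [(ok.pt hx).mu_pos])
      · have := mul_pos (ok.pt hx).mu_pos ((ld m).pos x hx)
        rw [om] at this ⊢; linarith
      · rw [del0, if_neg h2, if_neg hm, om, Es_right hX2, ← pX.mu_mul]
        have e : 36 * (mu a X * ‖et a X‖ * (W g g' a X * (Real.exp (ℓ.l m))⁻¹) / 4) =
            W g g' a X * (mu a X * ‖et a X‖ * 9) / Real.exp (ℓ.l m) := by field_simp; ring
        rw [e, le_div_iff₀ h5, mul_assoc]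
        refine mul_le_mul_of_nonneg_left ?_ hW.le
        have : ‖et a X‖ * Real.exp (ℓ.l m) ≤ 3 * 3 := by gcongr
        have := mul_le_mul_of_nonneg_left this (mul_pos hμ hn0).le
        linarith
      · rw [del1, if_neg hm, om, Es_right hX2, ← pX.mu_mul, hm2]
        have e : 36 * (mu a X * (W g g' a X * (Real.exp (ℓ.l m))⁻¹) / X) =
            W g g' a X * (mu a X * 72) / (X * ((1 + 1) * Real.exp (ℓ.l m))) := by field_simp; ring
        rw [e]
        gcongr
        nlinarith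
      · rw [← mul_assoc]
        exact wt_Om ok _ (by linarith) i hx _ (om m x)
  · by_cases h2 : 2 ≤ |m|
    · obtain ⟨Ot, O1, O2, bar, -⟩ := ok.bar_hi G (by linarith) h2 (sg m)
      exact mex_of_bar ok h2 bar
    · exact mex_low ok h2

end

theorem linS_holds : LinS := by
  intro g g' hg
  obtain ⟨c, G⟩ := hg.gg
  have hc := G.pos
  have hc1 := G.c_le
  have h1 : 1 ≤ 4 / (c / 10 ^ 5) := by rw [le_div_iff₀ (by positivity)]; linarith
  refine ⟨_, _, c / 6000, 2 * (3600 / c), h1, h1, by positivity, by positivity,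
    fun R K hR hK ℓ hℓ X a hX hKX ha => ?_⟩
  obtain ⟨F, hex⟩ := lfam_end G hR hK hℓ hX hKX ha
  have ok : Ok (c / 10 ^ 5) a R X := ha.ok' (by linarith) (by positivity) hR hK hX hKX
  have hK0 : 0 < K := by linarith
  have db := fun D : Dat ℓ => db_dn (g := g) (g' := g') ok.ptR.xpos ok.ptX.xpos
    (mul_pos (ok.ptX.W_pos g g') ok.ptX.repos) D
  refine ⟨fun G' D => ?_, fun J G' D M hL hb hG hD => inB_iff.2 fun i => ?_⟩
  · obtain ⟨x0, hx0, hmin⟩ := isCompact_Icc.exists_isMinOn (nonempty_Icc.2 ok.lt.le)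
      (ok.dv_mu.cont.mul (ok.dv_W g g').cont)
    have h0 := F.γ_pos x0 hx0
    refine F.ex (c := 1 + (mu a x0 * W g g' a x0)⁻¹) (B := X) (fun x hx => (ok.pt hx).ne) hex
      (by positivity) ok.ptX.xpos.le (fun x hx => ⟨?_, ?_⟩) (fun i x hx => ?_) G' (db D)
    · have := inv_pos.2 h0; linarith
    · have h2 : mu a x0 * W g g' a x0 ≤ mu a x * W g g' a x := hmin hx
      have h3 := mul_le_mul_of_nonneg_left h2 (inv_pos.2 h0).le
      rw [inv_mul_cancel₀ h0.ne'] at h3
      have := F.γ_pos x hx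
      linarith
    · have h := ok.pt hx
      have := h.x_ge; have := hx.2; have hn := h.npos
      have h2 := (h.W_le' G).trans (div_le_div_of_nonneg_right h.re_le (by norm_num))
      have h3 := h.norm_le
      have h4 := rho_le_one (x := x) hK0.le ok.ptX.xpos (four_le_of_sqrt hK0.le hKX) (by nlinarith)
      have h5 : x⁻¹ ≤ 1 := inv_le_one_of_one_le₀ (by linarith)
      have h6 : W g g' a x / ‖et a x‖ ≤ 1 := (div_le_one hn).2 (by linarith)
      have h7 : W g g' a x / (x * ‖et a x‖) ≤ 1 := (div_le_one (by positivity)).2 (by nlinarith)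
      have h8 : x * W g g' a x ≤ x * 1 := by gcongr; linarith
      fin_cases i <;> simp only [wt0, wt1] <;> simp <;> constructor <;> linarith
  · obtain ⟨β, b1, b2, b3⟩ := F.bound hL hb hG (db D) i
    obtain ⟨β', c1, c2, c3, c4⟩ := hG
    refine ⟨β, b1, b2.trans ?_, b3⟩
    have : 0 ≤ 3600 / c := F.C0
    nlinarith

end Crest.Agent.N250.B1

end
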