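import Crest.Agent.N250.B1.End4
import Crest.Agent.N250.B1.EndNr
import Crest.Agent.N250.B1.EndSrc
import Crest.Agent.N250.B1.EndHol
import Crest.Agent.N250.B1.EndStab
import Crest.Agent.N250.B1.EndCv
import Crest.Agent.N250.B1.Lin7
import Crest.Agent.N250.B1.Drift2

/-! # Row 250, block B1 (helper53): the end solver, closed -/

set_option autoImplicit false

namespace Crest.Agent.N250.B1

theorem endS_all : EndS := endS_of linS_holds nrS_holds stabS_holds cvS_holds srcS_holds holS_holds

end Crest.Agent.N250.B1
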