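import Crest.Agent.N250.Wi.Alg
import Crest.Agent.N250.H.Fix

/-!
# Row 250, B1 (helper45): the nonlinearity of the end equation in a Banach algebra

With `v = η + w`, `Q = 2 v + v_x² + v_t²/(2v)` the Euler–Lagrange equation of
`√Q exp(-x²/4 - v/2)` reads `w_xx - (x/2) w_x + w + w_tt/(2η) = G`, where `G` is the universal
rational function `Nl.G` of the normalised variables
`y = w/η, T = w_t/η, TT = w_tt/η, Z = x v_x, S = v_xt/(xη), V = v_xx, n = 1/(x²η)`.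
-/

set_option autoImplicit false
set_option linter.unusedSectionVars false
open Metric Set

noncomputable section

namespace Crest.Agent.N250.Nl

section alg
variable {R : Type*} [CommRing R]

/-- `Q/(2η) - 1`; `h = 1/2`, `u = η/v` -/
def Qp (h u y T Z n : R) : R := y + h * n * Z ^ 2 + h ^ 2 * u * T ^ 2

/-- the nonlinearity as a polynomial; `h = 1/2`, `u = η/v`, `j = 2η/Q` -/
def Gp (h u j y T TT Z S V n : R) : R :=
  h * u * (y * TT) + h ^ 2 * u ^ 2 * (T * T) +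
    j * (h * Z ^ 2 * (1 + V) * n + h * u * Z * (T * S) - h ^ 3 * u ^ 2 * n * Z ^ 2 * (T * T) +
      h ^ 2 * u * (T * T) + h ^ 3 * u ^ 2 * TT * (T * T) - h ^ 4 * u ^ 3 * T ^ 2 * (T * T))

lemma map_Qp {R' F : Type*} [CommRing R'] [FunLike F R R'] [RingHomClass F R R'] (f : F)
    (h u y T Z n : R) : f (Qp h u y T Z n) = Qp (f h) (f u) (f y) (f T) (f Z) (f n) := by
  simp [Qp]

lemma map_Gp {R' F : Type*} [CommRing R'] [FunLike F R R'] [RingHomClass F R R'] (f : F)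
    (h u j y T TT Z S V n : R) : f (Gp h u j y T TT Z S V n) =
      Gp (f h) (f u) (f j) (f y) (f T) (f TT) (f Z) (f S) (f V) (f n) := by
  simp [Gp]

lemma map_inv {R' F : Type*} [CommRing R'] [FunLike F R R'] [RingHomClass F R R'] (f : F)
    {a : R} (ha : IsUnit a) : f (Ring.inverse a) = Ring.inverse (f a) := by
  have h1 : f a * f (Ring.inverse a) = 1 := by rw [← map_mul, Ring.mul_inverse_cancel _ ha, map_one]
  have hu : IsUnit (f a) := ha.map f
  calc f (Ring.inverse a) = Ring.inverse (f a) * f a * f (Ring.inverse a) := by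
        rw [Ring.inverse_mul_cancel _ hu, one_mul]
    _ = Ring.inverse (f a) := by rw [mul_assoc, h1, mul_one]

variable [Algebra ℂ R]

variable (R) in
/-- `1/2` -/
def hf : R := algebraMap ℂ R (1 / 2)

/-- `η/v` -/
def uu (y : R) : R := Ring.inverse (1 + y)

/-- `Q/(2η) - 1` -/
def Qm (y T Z n : R) : R := Qp (hf R) (uu y) y T Z n

/-- `2η/Q` -/
def jj (y T Z n : R) : R := Ring.inverse (1 + Qm y T Z n)

/-- **the nonlinearity** -/
def G (y T TT Z S V n : R) : R := Gp (hf R) (uu y) (jj y T Z n) y T TT Z S V n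

section hom
variable {R' F : Type*} [CommRing R'] [Algebra ℂ R'] [FunLike F R R'] [AlgHomClass F ℂ R R']

lemma map_hf (f : F) : f (hf R) = hf R' := AlgHomClass.commutes f _

lemma map_uu (f : F) {y : R} (h : IsUnit (1 + y)) : f (uu y) = uu (f y) := by
  rw [uu, map_inv f h, map_add, map_one, uu]

lemma map_Qm (f : F) {y T Z n : R} (h : IsUnit (1 + y)) :
    f (Qm y T Z n) = Qm (f y) (f T) (f Z) (f n) := by
  rw [Qm, map_Qp, map_hf, map_uu f h, Qm]

lemma map_jj (f : F) {y T Z n : R} (h : IsUnit (1 + y)) (h' : IsUnit (1 + Qm y T Z n)) :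
    f (jj y T Z n) = jj (f y) (f T) (f Z) (f n) := by
  rw [jj, map_inv f h', map_add, map_one, map_Qm f h, jj]

/-- `G` commutes with algebra homomorphisms (evaluation at `θ`, at `s`, change of weight) -/
lemma map_G (f : F) {y T Z n : R} (TT S V : R) (h : IsUnit (1 + y))
    (h' : IsUnit (1 + Qm y T Z n)) :
    f (G y T TT Z S V n) = G (f y) (f T) (f TT) (f Z) (f S) (f V) (f n) := by
  rw [G, map_Gp, map_hf, map_uu f h, map_jj f h h', G]

end hom
end alg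

section pt

lemma hf_C : hf ℂ = 1 / 2 := rfl

lemma uu_C {η w : ℂ} (hη : η ≠ 0) : uu (w / η) = η / (η + w) := by
  rw [uu, Ring.inverse_eq_inv']
  have : 1 + w / η = (η + w) / η := by field_simp
  simp only [this, inv_div]

/-- `1 + Qm = Q/(2η)` -/
lemma Qm_C {x η w vx vt : ℂ} (hx : x ≠ 0) (hη : η ≠ 0) (hv : η + w ≠ 0) :
    1 + Qm (w / η) (vt / η) (x * vx) (1 / (x ^ 2 * η)) =
      (2 * (η + w) + vx ^ 2 + vt ^ 2 / (2 * (η + w))) / (2 * η) := by
  rw [Qm, uu_C hη, hf_C, Qp]; field_simp; ring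

/-- the pointwise meaning of `G`: `Qx`, `Qt` are the derivatives of `Q` -/
theorem G_C {x η w vx vt vxx vxt vtt Q Qx Qt v : ℂ} (hx : x ≠ 0) (hη : η ≠ 0) (hv0 : v ≠ 0)
    (hQ0 : Q ≠ 0) (hv : v = η + w) (hQ : Q = 2 * v + vx ^ 2 + vt ^ 2 / (2 * v))
    (hQx : Qx = 2 * vx + 2 * vx * vxx + vt * vxt / v - vt ^ 2 * vx / (2 * v ^ 2))
    (hQt : Qt = 2 * vt + 2 * vx * vxt + vt * vtt / v - vt ^ 3 / (2 * v ^ 2)) :
    G (w / η) (vt / η) (vtt / η) (x * vx) (vxt / (x * η)) vxx (1 / (x ^ 2 * η)) =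
      (vx * Qx + vt * Qt / (2 * v)) / (2 * Q) + vt ^ 2 / (4 * v ^ 2) +
        (vtt / (2 * η) - vtt / (2 * v)) := by
  have hj : jj (w / η) (vt / η) (x * vx) (1 / (x ^ 2 * η)) = 2 * η / Q := by
    rw [jj, Qm_C hx hη (hv ▸ hv0), Ring.inverse_eq_inv', hQ, hv]
    simp only [inv_div]
  have hw : w = v - η := by rw [hv]; ring
  rw [G, hj, uu_C hη, ← hv, hf_C, Gp, hQx, hQt, hw]
  field_simp
  ring

end pt

section bound
variable {R : Type*} [NormedCommRing R] [NormOneClass R] [NormedAlgebra ℂ R] [CompleteSpace R]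

lemma unit_of {y : R} (h : ‖y‖ ≤ 1 / 2) : IsUnit (1 + y) := by
  have := (Units.oneSub (-y) (by rw [norm_neg]; linarith)).isUnit
  simpa using this

lemma inv_le {y : R} (h : ‖y‖ ≤ 1 / 2) : ‖Ring.inverse (1 + y)‖ ≤ 2 := by
  have h1 := Ring.inverse_mul_cancel _ (unit_of h)
  set u := Ring.inverse (1 + y)
  have e : u = 1 - u * y := by linear_combination h1
  have h2 : ‖u‖ ≤ 1 + ‖u‖ * ‖y‖ := by
    calc ‖u‖ = ‖1 - u * y‖ := by rw [← e]
      _ ≤ ‖(1 : R)‖ + ‖u * y‖ := norm_sub_le _ _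
      _ ≤ 1 + ‖u‖ * ‖y‖ := by rw [norm_one]; gcongr; exact norm_mul_le _ _
  nlinarith [norm_nonneg u]

lemma hf_le : ‖hf R‖ ≤ 1 / 2 := by
  rw [hf, norm_algebraMap']; simp

lemma mul_le {a b : R} {A B : ℝ} (ha : ‖a‖ ≤ A) (hb : ‖b‖ ≤ B) : ‖a * b‖ ≤ A * B :=
  (norm_mul_le _ _).trans (mul_le_mul ha hb (norm_nonneg _) ((norm_nonneg _).trans ha))

lemma pow_le {a : R} {A : ℝ} (ha : ‖a‖ ≤ A) (k : ℕ) : ‖a ^ k‖ ≤ A ^ k :=
  (norm_pow_le _ _).trans (pow_le_pow_left₀ (norm_nonneg _) ha k)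

lemma add_le {a b : R} {A B : ℝ} (ha : ‖a‖ ≤ A) (hb : ‖b‖ ≤ B) : ‖a + b‖ ≤ A + B :=
  norm_add_le_of_le ha hb

lemma sub_le {a b : R} {A B : ℝ} (ha : ‖a‖ ≤ A) (hb : ‖b‖ ≤ B) : ‖a - b‖ ≤ A + B :=
  norm_sub_le_of_le ha hb

/-- the range of the variables in which `G` is controlled -/
structure Sm (y T TT Z V n : R) : Prop where
  y : ‖y‖ ≤ 1 / 4
  T : ‖T‖ ≤ 1 / 2
  TT : ‖TT‖ ≤ 1
  Z : ‖Z‖ ≤ 10
  V : ‖V‖ ≤ 1
  n : ‖n‖ ≤ 1 / 400

variable {y T TT Z S V n : R}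

lemma Sm.unit1 (h : Sm y T TT Z V n) : IsUnit (1 + y) := unit_of (h.y.trans (by norm_num))

lemma Sm.uu_le (h : Sm y T TT Z V n) : ‖uu y‖ ≤ 2 := inv_le (h.y.trans (by norm_num))

lemma Sm.Qm_le (h : Sm y T TT Z V n) : ‖Qm y T Z n‖ ≤ 1 / 2 :=
  (add_le (add_le h.y (mul_le (mul_le hf_le h.n) (pow_le h.Z 2)))
    (mul_le (mul_le (pow_le hf_le 2) h.uu_le) (pow_le h.T 2))).trans (by norm_num)

lemma Sm.unit2 (h : Sm y T TT Z V n) : IsUnit (1 + Qm y T Z n) := unit_of h.Qm_le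

lemma Sm.jj_le (h : Sm y T TT Z V n) : ‖jj y T Z n‖ ≤ 2 := inv_le h.Qm_le

/-- **the bound**: `k` is the inverse of the target weight -/
theorem Sm.G_le (h : Sm y T TT Z V n) {k : R} {a ν : ℝ} (h1 : ‖k * (y * TT)‖ ≤ a)
    (h2 : ‖k * (T * T)‖ ≤ a) (h3 : ‖k * (T * S)‖ ≤ a) (h4 : ‖k * n‖ ≤ ν) :
    ‖k * G y T TT Z S V n‖ ≤ 25 * a + 200 * ν := by
  have ha : 0 ≤ a := (norm_nonneg _).trans h1
  have hν : 0 ≤ ν := (norm_nonneg _).trans h4
  have hu := h.uu_le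
  have hj := h.jj_le
  have hh := hf_le (R := R)
  have hV : ‖1 + V‖ ≤ 1 + 1 := add_le norm_one.le h.V
  have e : k * G y T TT Z S V n = hf R * uu y * (k * (y * TT)) +
      hf R ^ 2 * uu y ^ 2 * (k * (T * T)) +
      jj y T Z n * (hf R * Z ^ 2 * (1 + V) * (k * n) + hf R * uu y * Z * (k * (T * S)) -
        hf R ^ 3 * uu y ^ 2 * n * Z ^ 2 * (k * (T * T)) + hf R ^ 2 * uu y * (k * (T * T)) +
        hf R ^ 3 * uu y ^ 2 * TT * (k * (T * T)) -
        hf R ^ 4 * uu y ^ 3 * T ^ 2 * (k * (T * T))) := by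
    rw [G, Gp]; ring
  rw [e]
  refine (add_le (add_le (mul_le (mul_le hh hu) h1)
    (mul_le (mul_le (pow_le hh 2) (pow_le hu 2)) h2)) (mul_le hj
      (sub_le (add_le (add_le (sub_le (add_le
        (mul_le (mul_le (mul_le hh (pow_le h.Z 2)) hV) h4)
        (mul_le (mul_le (mul_le hh hu) h.Z) h3))
        (mul_le (mul_le (mul_le (mul_le (pow_le hh 3) (pow_le hu 2)) h.n) (pow_le h.Z 2)) h2))
        (mul_le (mul_le (pow_le hh 2) hu) h2))
        (mul_le (mul_le (mul_le (pow_le hh 3) (pow_le hu 2)) h.TT) h2))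
        (mul_le (mul_le (mul_le (pow_le hh 4) (pow_le hu 3)) (pow_le h.T 2)) h2)))).trans ?_
  nlinarith

variable {E : Type*} [NormedAddCommGroup E] [NormedSpace ℂ E] {U : Set E}

lemma diff_uu {y : E → R} (hy : DifferentiableOn ℂ y U) (h : ∀ z ∈ U, IsUnit (1 + y z)) :
    DifferentiableOn ℂ (fun z => uu (y z)) U :=
  ((differentiableOn_const 1).add hy).inverse h

lemma diff_Qm {y T Z n : E → R} (hy : DifferentiableOn ℂ y U) (hT : DifferentiableOn ℂ T U)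
    (hZ : DifferentiableOn ℂ Z U) (hn : DifferentiableOn ℂ n U)
    (h : ∀ z ∈ U, IsUnit (1 + y z)) :
    DifferentiableOn ℂ (fun z => Qm (y z) (T z) (Z z) (n z)) U := by
  have hu := diff_uu hy h
  unfold Qm Qp
  fun_prop

lemma diff_jj {y T Z n : E → R} (hy : DifferentiableOn ℂ y U) (hT : DifferentiableOn ℂ T U)
    (hZ : DifferentiableOn ℂ Z U) (hn : DifferentiableOn ℂ n U)
    (h : ∀ z ∈ U, IsUnit (1 + y z)) (h' : ∀ z ∈ U, IsUnit (1 + Qm (y z) (T z) (Z z) (n z))) :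
    DifferentiableOn ℂ (fun z => jj (y z) (T z) (Z z) (n z)) U :=
  ((differentiableOn_const 1).add (diff_Qm hy hT hZ hn h)).inverse h'

/-- **holomorphy** of the nonlinearity -/
theorem diff_G {y T TT Z S V n : E → R} (hy : DifferentiableOn ℂ y U)
    (hT : DifferentiableOn ℂ T U) (hTT : DifferentiableOn ℂ TT U) (hZ : DifferentiableOn ℂ Z U)
    (hS : DifferentiableOn ℂ S U) (hV : DifferentiableOn ℂ V U) (hn : DifferentiableOn ℂ n U)
    (h : ∀ z ∈ U, Sm (y z) (T z) (TT z) (Z z) (V z) (n z)) :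
    DifferentiableOn ℂ (fun z => G (y z) (T z) (TT z) (Z z) (S z) (V z) (n z)) U := by
  have hu := diff_uu hy fun z hz => (h z hz).unit1
  have hj := diff_jj hy hT hZ hn (fun z hz => (h z hz).unit1) fun z hz => (h z hz).unit2
  unfold G Gp
  fun_prop

end bound

section wiener
open Wi
variable {A : Type*} [NormedCommRing A] [NormedAlgebra ℂ A] [CompleteSpace A] {ω : WiW A}

/-- `φ` is absorbed by the product of two zero-mean elements -/
def Gain (ω : WiW A) (φ : A) (C : ℝ) : Prop :=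
  ∀ j l : ℤ, j ≠ 0 → l ≠ 0 → ‖φ * (ω.w (j + l) * (ω.wi j * ω.wi l))‖ ≤ C

/-- **ideal lemma** -/
theorem Gain.le {φ : A} {C : ℝ} (h : Gain ω φ C) {u v : Wi ω} (hu : co u 0 = 0)
    (hv : co v 0 = 0) : ‖cst ω φ * (u * v)‖ ≤ C * (‖u‖ * ‖v‖) := by
  have hC : 0 ≤ C := (norm_nonneg _).trans (h 1 1 one_ne_zero one_ne_zero)
  rw [← tsum_shear]
  refine norm_le_of ((summable_shear u v).prod.hasSum.mul_left C) fun m => ?_
  rw [co_cst_mul, co_mul, ← mul_assoc, ← (summable_conv_norm u v m).of_norm.tsum_mul_left]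
  refine tsum_of_norm_bounded (((summable_shear u v).prod_factor m).hasSum.mul_left C) fun j => ?_
  by_cases hj : j = 0
  · rw [hj, hu]; simp only [zero_mul, mul_zero, norm_zero]; positivity
  by_cases hl : m - j = 0
  · rw [hl, hv]; simp only [mul_zero, norm_zero]; positivity
  have e : ω.w m * φ * (co u j * co v (m - j)) =
      φ * (ω.w (j + (m - j)) * (ω.wi j * ω.wi (m - j))) * (raw u j * raw v (m - j)) := by
    rw [add_sub_cancel, co, co]; ring
  rw [e]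
  exact (norm_mul_le _ _).trans
    (mul_le_mul (h _ _ hj hl) (norm_mul_le _ _) (norm_nonneg _) hC)

/-- the zero-mean part -/
def osc (u : Wi ω) : Wi ω := u - cst ω (co u 0)

lemma co_osc (u : Wi ω) (m : ℤ) : co (osc u) m = if m = 0 then 0 else co u m := by
  rw [osc, co_sub, co_cst]; split_ifs with h <;> simp [h]

@[simp] lemma co_osc_zero (u : Wi ω) : co (osc u) 0 = 0 := by simp [co_osc]

lemma norm_osc_le (u : Wi ω) : ‖osc u‖ ≤ ‖u‖ :=
  norm_le_of (hasSum_norm u) fun m => by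
    rw [co_osc]; split_ifs <;> simp

lemma norm_co0_le (u : Wi ω) : ‖co u 0‖ ≤ ‖u‖ := norm_co_le u 0

/-- product of a general element with a zero-mean one -/
theorem Gain.le' {φ : A} {C : ℝ} (h : Gain ω φ C) (u : Wi ω) {v : Wi ω} (hv : co v 0 = 0) :
    ‖cst ω φ * (u * v)‖ ≤ (‖φ * co u 0‖ + C * ‖u‖) * ‖v‖ := by
  have hC : 0 ≤ C := (norm_nonneg _).trans (h 1 1 one_ne_zero one_ne_zero)
  have e : cst ω φ * (u * v) = cst ω (φ * co u 0) * v + cst ω φ * (osc u * v) := by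
    rw [osc, map_mul]; ring
  rw [e, add_mul]
  refine norm_add_le_of_le ((norm_mul_le _ _).trans (by rw [norm_cst])) ?_
  refine (h.le (co_osc_zero u) hv).trans ?_
  rw [mul_assoc]
  gcongr
  exact norm_osc_le u

variable [NormOneClass A]

/-- **the bound in the Wiener algebra**: `‖G/κ‖ ≤ 50 ε² + 200 ν` -/
theorem G_le_wi {y T TT Z S V n : Wi ω} {k : A} {ε ν : ℝ} (h : Sm y T TT Z V n)
    (hk : Gain ω k 1) (hy : ‖y‖ ≤ ε) (hy0 : ‖k * co y 0‖ ≤ ε) (hT : ‖T‖ ≤ ε) (hTT : ‖TT‖ ≤ ε)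
    (hS : ‖S‖ ≤ ε) (T0 : co T 0 = 0) (TT0 : co TT 0 = 0) (S0 : co S 0 = 0)
    (hn : ‖cst ω k * n‖ ≤ ν) : ‖cst ω k * G y T TT Z S V n‖ ≤ 50 * ε ^ 2 + 200 * ν := by
  have hε : 0 ≤ ε := (norm_nonneg _).trans hy
  have h1 : ‖cst ω k * (y * TT)‖ ≤ 2 * ε ^ 2 := (hk.le' y TT0).trans (by
    calc _ ≤ (ε + 1 * ε) * ε := by gcongr
      _ = _ := by ring)
  have h2 : ‖cst ω k * (T * T)‖ ≤ 2 * ε ^ 2 := (hk.le T0 T0).trans (by
    calc _ ≤ 1 * (ε * ε) := by gcongr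
      _ ≤ _ := by nlinarith)
  have h3 : ‖cst ω k * (T * S)‖ ≤ 2 * ε ^ 2 := (hk.le T0 S0).trans (by
    calc _ ≤ 1 * (ε * ε) := by gcongr
      _ ≤ _ := by nlinarith)
  exact (h.G_le h1 h2 h3 hn).trans (by linarith)

end wiener

section fix
variable {E X : Type*} [NormedAddCommGroup E] [NormedSpace ℂ E] [NormedAddCommGroup X]
  [NormedSpace ℂ X] [CompleteSpace X]

/-- **contraction**: a holomorphic `N` of size `r/8` on `U × ball 0 r` has a unique fixed point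
in the closed ball of radius `r/2`, and it is holomorphic in the parameter. -/
theorem exists_sol {N : E × X → X} {U : Set E} {r : ℝ} (hU : IsOpen U) (hr : 0 < r)
    (hd : DifferentiableOn ℂ N (U ×ˢ ball 0 r))
    (hb : ∀ z ∈ U, ∀ g ∈ ball (0 : X) r, ‖N (z, g)‖ ≤ r / 8) :
    ∃ g : E → X, DifferentiableOn ℂ g U ∧ ∀ z ∈ U, ‖g z‖ ≤ r / 8 ∧ N (z, g z) = g z ∧
      ∀ g', ‖g'‖ ≤ r / 2 → ‖g z - g'‖ ≤ 2 * ‖N (z, g') - g'‖ := by
  have hc : ∀ z ∈ U, H.Ctr (fun g => N (z, g)) (closedBall 0 (r / 2)) (1 / 2) := fun z hz => by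
    have := H.ctr_of_small (T := fun g => N (z, g)) (x0 := 0) (ρ := r / 2) (r := r / 2)
      (ε := r / 8) (by positivity) (by
        rw [add_halves]
        exact hd.comp (by fun_prop) fun g hg => ⟨hz, hg⟩)
      (fun g hg => by rw [add_halves] at hg; simpa using hb z hz g hg) (by linarith)
    have e : 2 * (r / 8) / (r / 2) = 1 / 2 := by field_simp; norm_num
    rwa [e] at this
  obtain ⟨g, hg, hf⟩ := H.exists_fix_hol (T := fun z g => N (z, g)) (V := U ×ˢ ball 0 r) hU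
    (by norm_num) (by norm_num) (by positivity) hc
    (fun z hz g hg => ⟨hz, closedBall_subset_ball (by linarith) hg⟩) hd
  refine ⟨g, hg, fun z hz => ⟨?_, (hf z hz).2, fun g' hg' => ?_⟩⟩
  · rw [← (hf z hz).2]
    exact hb z hz _ (closedBall_subset_ball (by linarith) (hf z hz).1)
  · have := (hc z hz).dist_le (by norm_num) (hf z hz).1 (mem_closedBall_zero_iff.2 hg') (hf z hz).2
    rw [le_div_iff₀ (by norm_num)] at this
    linarith

end fix

end Crest.Agent.N250.Nl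

end
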