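import Crest.Agent.N250.B1.DrS
import Crest.Agent.N250.B1.Reg
import Crest.Agent.N250.B1.Nl

/-!
# Row 250, block B1, S10 (helper33): the modes `0, ±1` of the end equation
-/

set_option autoImplicit false
open Set Complex Filter Topology Metric

noncomputable section

namespace Crest.Agent.N250.B1

namespace Ap

open Nl

/-- the nonlinearity on `ℂ⁶` -/
def GF (n : ℂ) (z : Fin 6 → ℂ) : ℂ := G (z 0) (z 1) (z 2) (z 3) (z 4) (z 5) n

/-- symmetric centres -/
structure Ce (z : Fin 6 → ℂ) : Prop where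
  y : ‖z 0‖ ≤ 1 / 8
  T : z 1 = 0
  TT : z 2 = 0
  Z : ‖z 3‖ ≤ 19 / 2
  S : z 4 = 0
  V : ‖z 5‖ ≤ 1 / 2

variable {z0 z : Fin 6 → ℂ} {n : ℂ} {r : ℝ}

lemma comp_le (hz : z ∈ ball z0 r) (i : Fin 6) : ‖z i‖ ≤ ‖z0 i‖ + r := by
  have h1 : ‖(z - z0) i‖ ≤ ‖z - z0‖ := norm_le_pi_norm _ i
  have h2 : ‖z - z0‖ < r := by rwa [mem_ball, dist_eq_norm] at hz
  have h3 := norm_add_le (z0 i) ((z - z0) i)
  rw [Pi.sub_apply, add_sub_cancel] at h3
  rw [Pi.sub_apply] at h1
  linarith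

lemma Ce.sm (h : Ce z0) (hr : r ≤ 1 / 8) (hz : z ∈ ball z0 r) (hn : ‖n‖ ≤ 1 / 400) :
    Sm (z 0) (z 1) (z 2) (z 3) (z 5) n := by
  have h0 := comp_le hz 0
  have h1 := comp_le hz 1
  have h2 := comp_le hz 2
  have h3 := comp_le hz 3
  have h5 := comp_le hz 5
  rw [h.T, norm_zero] at h1
  rw [h.TT, norm_zero] at h2
  exact ⟨by linarith [h.y], by linarith, by linarith, by linarith [h.Z], by linarith [h.V], hn⟩

lemma Ce.le (h : Ce z0) (hr : r ≤ 1 / 8) (hz : z ∈ ball z0 r) (hn : ‖n‖ ≤ 1 / 400) :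
    ‖GF n z‖ ≤ 25 * ((‖z0 0‖ + r) * r) + 200 * ‖n‖ := by
  have hr0 : 0 < r := nonempty_ball.1 ⟨z, hz⟩
  have h0 := comp_le hz 0
  have h1 := comp_le hz 1
  have h2 := comp_le hz 2
  have h4 := comp_le hz 4
  rw [h.T, norm_zero, zero_add] at h1
  rw [h.TT, norm_zero, zero_add] at h2
  rw [h.S, norm_zero, zero_add] at h4
  have k : r ≤ ‖z0 0‖ + r := by linarith [norm_nonneg (z0 0)]
  have := (h.sm hr hz hn).G_le (S := z 4) (k := 1) (a := (‖z0 0‖ + r) * r) (ν := ‖n‖)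
    (by rw [one_mul]; exact mul_le h0 h2) (by rw [one_mul]; exact mul_le (h1.trans k) h1)
    (by rw [one_mul]; exact mul_le (h1.trans k) h4) (by rw [one_mul])
  rwa [one_mul] at this

lemma Ce.le7 (h : Ce z0) (hz : z ∈ ball z0 (1 / 8)) (hn : ‖n‖ ≤ 1 / 400) : ‖GF n z‖ ≤ 7 := by
  have := h.le le_rfl hz hn
  have := h.y
  linarith

lemma Ce.diff (h : Ce z0) (hr : r ≤ 1 / 8) (hn : ‖n‖ ≤ 1 / 400) :
    DifferentiableOn ℂ (GF n) (ball z0 r) :=
  diff_G (differentiable_apply 0).differentiableOn (differentiable_apply 1).differentiableOn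
    (differentiable_apply 2).differentiableOn (differentiable_apply 3).differentiableOn
    (differentiable_apply 4).differentiableOn (differentiable_apply 5).differentiableOn
    (differentiableOn_const n) fun _ hz => h.sm hr hz hn

lemma Ce.tay (h : Ce z0) (hn : ‖n‖ ≤ 1 / 400) (hz : z ∈ ball z0 (1 / 8)) :
    ‖GF n z - GF n z0 - fderiv ℂ (GF n) z0 (z - z0)‖ ≤ 1792 * ‖z - z0‖ ^ 2 :=
  (H.tay2 (h.diff le_rfl hn) (fun _ hz => h.le7 hz hn) hz).trans (le_of_eq (by ring))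

lemma Ce.lip_n (h : Ce z0) (hn : ‖n‖ ≤ 1 / 800) (hz : z ∈ ball z0 (1 / 8)) :
    ‖GF n z - GF 0 z‖ ≤ 5600 * ‖n‖ := by
  have hd : DifferentiableOn ℂ (fun n => GF n z) (ball 0 (1 / 400)) :=
    diff_G (differentiableOn_const _) (differentiableOn_const _) (differentiableOn_const _)
      (differentiableOn_const _) (differentiableOn_const _) (differentiableOn_const _)
      differentiableOn_id fun _ hn => h.sm le_rfl hz (mem_ball_zero_iff.1 hn).le
  have := H.lip_le hd (fun _ hn => h.le7 hz (mem_ball_zero_iff.1 hn).le)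
    (mem_ball_zero_iff.2 (by linarith) : n ∈ ball (0 : ℂ) (1 / 400))
  rw [sub_zero] at this
  exact this.trans (le_of_eq (by ring))

lemma Ce.fd0 (h : Ce z0) : ‖fderiv ℂ (GF 0) z0‖ ≤ 50 * ‖z0 0‖ := by
  refine le_of_forall_pos_le_add fun δ hδ => ?_
  have hr : min (δ / 50) (1 / 8) ≤ 1 / 8 := min_le_right _ _
  have hr' : min (δ / 50) (1 / 8) ≤ δ / 50 := min_le_left _ _
  have h0 : 0 < min (δ / 50) (1 / 8) := lt_min (by positivity) (by norm_num)
  generalize min (δ / 50) (1 / 8) = r at hr hr' h0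
  have := H.fd_le h0 (h.diff hr (n := 0) (by simp)) fun _ hz => h.le hr hz (n := 0) (by simp)
  rw [norm_zero, mul_zero, add_zero] at this
  have e : 2 * (25 * ((‖z0 0‖ + r) * r)) / r = 50 * ‖z0 0‖ + 50 * r := by field_simp; ring
  linarith

lemma Ce.fd (h : Ce z0) (hn : ‖n‖ ≤ 1 / 800) :
    ‖fderiv ℂ (GF n) z0‖ ≤ 50 * ‖z0 0‖ + 89600 * ‖n‖ := by
  have hb := ball_mem_nhds z0 (by norm_num : (0 : ℝ) < 1 / 8)
  have d1 := h.diff le_rfl (n := n) (by linarith)
  have d0 := h.diff le_rfl (n := 0) (by simp)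
  have e : fderiv ℂ (GF n) z0 =
      fderiv ℂ (GF 0) z0 + fderiv ℂ (fun z => GF n z - GF 0 z) z0 := by
    rw [fderiv_fun_sub (d1.differentiableAt hb) (d0.differentiableAt hb)]; abel
  have := H.fd_le (by norm_num : (0 : ℝ) < 1 / 8) (d1.sub d0) fun _ hz => h.lip_n hn hz
  rw [e]
  refine norm_add_le_of_le h.fd0 (le_trans this (le_of_eq (by ring)))

/-! ### Fourier coefficients -/

/-- Fourier coefficient of a vector valued function -/
def FC {E : Type*} [NormedAddCommGroup E] [NormedSpace ℂ E] (f : ℝ → E) (m : ℤ) : E :=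
  (((2 * Real.pi : ℝ) : ℂ))⁻¹ • ∫ θ in (0 : ℝ)..2 * Real.pi, Wi.ex (-m) θ • f θ

section fc
variable {E F : Type*} [NormedAddCommGroup E] [NormedSpace ℂ E] [NormedAddCommGroup F]
  [NormedSpace ℂ F]

lemma two_pi_ne : ((2 * Real.pi : ℝ) : ℂ) ≠ 0 := by
  exact_mod_cast (by positivity : (2 * Real.pi) ≠ 0)

lemma ii {f : ℝ → E} (hf : Continuous f) (m : ℤ) :
    IntervalIntegrable (fun θ => Wi.ex (-m) θ • f θ) MeasureTheory.volume 0 (2 * Real.pi) :=
  ((Wi.continuous_ex _).smul hf).intervalIntegrable _ _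

lemma FC_le {f : ℝ → E} {B : ℝ} (h : ∀ θ, ‖f θ‖ ≤ B) (m : ℤ) : ‖FC f m‖ ≤ B := by
  have h1 := intervalIntegral.norm_integral_le_of_norm_le_const (a := (0 : ℝ)) (b := 2 * Real.pi)
    (C := B) (f := fun θ => Wi.ex (-m) θ • f θ) fun θ _ => by
      rw [norm_smul, Wi.norm_ex, one_mul]; exact h θ
  have hp : 0 < 2 * Real.pi := by positivity
  rw [sub_zero, abs_of_pos hp] at h1
  rw [FC, norm_smul, norm_inv, norm_real, Real.norm_of_nonneg hp.le, inv_mul_le_iff₀ hp]
  linarith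

lemma FC_add {f g : ℝ → E} (hf : Continuous f) (hg : Continuous g) (m : ℤ) :
    FC (fun θ => f θ + g θ) m = FC f m + FC g m := by
  simp only [FC, smul_add]
  rw [intervalIntegral.integral_add (ii hf m) (ii hg m), smul_add]

lemma FC_sub {f g : ℝ → E} (hf : Continuous f) (hg : Continuous g) (m : ℤ) :
    FC (fun θ => f θ - g θ) m = FC f m - FC g m := by
  simp only [FC, smul_sub]
  rw [intervalIntegral.integral_sub (ii hf m) (ii hg m), smul_sub]

lemma FC_clm [CompleteSpace E] [CompleteSpace F] (L : E →L[ℂ] F) {f : ℝ → E} (hf : Continuous f)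
    (m : ℤ) : FC (fun θ => L (f θ)) m = L (FC f m) := by
  simp only [FC, map_smul]
  rw [← L.intervalIntegral_comp_comm (ii hf m)]
  simp only [map_smul]

lemma FC_const [CompleteSpace E] (c : E) (m : ℤ) :
    FC (fun _ => c) m = if m = 0 then c else 0 := by
  rw [FC, intervalIntegral.integral_smul_const, Wi.integral_ex]
  by_cases h : m = 0
  · rw [if_pos (by simp [h]), if_pos h, smul_smul, inv_mul_cancel₀ two_pi_ne, one_smul]
  · rw [if_neg (by simpa using h), if_neg h, zero_smul, smul_zero]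

lemma FC_mul (c : ℂ) {f : ℝ → ℂ} (hf : Continuous f) (m : ℤ) :
    FC (fun θ => c * f θ) m = c * FC f m :=
  FC_clm (ContinuousLinearMap.mul ℂ ℂ c) hf m

end fc

variable {ℓ : Ell}

lemma cont_val (u : Wi (om ℓ)) (s : II) : Continuous (val u s) :=
  (ContinuousMap.evalCLM ℂ s).continuous.comp (Wi.continuous_syn u)

lemma FC_val (u : Wi (om ℓ)) (s : II) (m : ℤ) : FC (val u s) m = Wi.co u m s := by
  have h := FC_clm (ContinuousMap.evalCLM ℂ s) (Wi.continuous_syn u) m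
  rw [show FC (Wi.syn u) m = Wi.co u m by
    rw [FC, Wi.integral_syn, smul_smul, inv_mul_cancel₀ two_pi_ne, one_smul]] at h
  exact h

/-- averaging: the modes of `GF n (z0 + d θ)` -/
lemma modes (h : Ce z0) (hn : ‖n‖ ≤ 1 / 800) {d : ℝ → Fin 6 → ℂ} (hd : Continuous d) {t : ℝ}
    (ht : t < 1 / 8) (hle : ∀ θ, ‖d θ‖ ≤ t) (m : ℤ) :
    ‖FC (fun θ => GF n (z0 + d θ)) m - (if m = 0 then GF n z0 else 0) -
      fderiv ℂ (GF n) z0 (FC d m)‖ ≤ 1792 * t ^ 2 := by
  have hm : ∀ θ, z0 + d θ ∈ ball z0 (1 / 8) := fun θ => by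
    rw [mem_ball, dist_eq_norm, add_sub_cancel_left]; exact (hle θ).trans_lt ht
  have c1 : Continuous fun θ => GF n (z0 + d θ) :=
    (h.diff le_rfl (by linarith)).continuousOn.comp_continuous (continuous_const.add hd) hm
  have c2 : Continuous fun θ => fderiv ℂ (GF n) z0 (d θ) := (fderiv ℂ (GF n) z0).continuous.comp hd
  have c3 : Continuous fun θ => GF n (z0 + d θ) - GF n z0 := c1.sub continuous_const
  rw [← FC_const, ← FC_clm _ hd, ← FC_sub c1 continuous_const, ← FC_sub c3 c2]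
  refine FC_le (fun θ => ?_) m
  have := h.tay (n := n) (by linarith) (hm θ)
  rw [add_sub_cancel_left] at this
  refine this.trans ?_
  have := hle θ
  gcongr

/-- normalised variables -/
def nv (x η a : ℂ) (u : Fin 6 → ℂ) : Fin 6 → ℂ :=
  ![u 0 / η, u 3 / η, u 5 / η, x * (a * x + u 1), u 4 / (x * η), a + u 2]

/-- their linear part -/
def nl (x η : ℂ) (u : Fin 6 → ℂ) : Fin 6 → ℂ :=
  ![u 0 / η, u 3 / η, u 5 / η, x * u 1, u 4 / (x * η), u 2]

lemma nv_add (x η a : ℂ) (u v : Fin 6 → ℂ) : nv x η a (u + v) = nv x η a u + nl x η v := by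
  ext i; fin_cases i <;> simp [nv, nl] <;> ring

/-- `nl` as a continuous linear map -/
def nlL (x η : ℂ) : (Fin 6 → ℂ) →L[ℂ] (Fin 6 → ℂ) :=
  LinearMap.toContinuousLinearMap
    { toFun := nl x η
      map_add' := fun u v => by ext i; fin_cases i <;> simp [nl] <;> ring
      map_smul' := fun c u => by ext i; fin_cases i <;> simp [nl] <;> ring }

lemma nlL_apply (x η : ℂ) (u : Fin 6 → ℂ) : nlL x η u = nl x η u := rfl

/-- the equation in the normalised variables -/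
lemma eq_G {x : ℝ} {a : ℂ} {u : Fin 6 → ℂ} (hx : (x : ℂ) ≠ 0) (hη : et a x ≠ 0)
    (hs : Sm (nv x (et a x) a u 0) (nv x (et a x) a u 1) (nv x (et a x) a u 2)
      (nv x (et a x) a u 3) (nv x (et a x) a u 5) (1 / (x ^ 2 * et a x))) :
    u 2 - x / 2 * u 1 + u 0 + 1 / (2 * et a x) * u 5 -
        Po.EL (x : ℂ) (et a x + u 0) (a * x + u 1) (u 3) (a + u 2) (u 4) (u 5) =
      GF (1 / (x ^ 2 * et a x)) (nv x (et a x) a u) := by
  have h1 := hs.unit1.ne_zero
  have h2 := hs.unit2.ne_zero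
  simp only [nv, Matrix.cons_val] at h1 h2
  have hv : et a x + u 0 ≠ 0 := fun e => h1 (by field_simp; rw [e, mul_zero])
  rw [Qm_C hx hη hv] at h2
  have hQ := (div_ne_zero_iff.1 h2).1
  have := G_C (vxx := a + u 2) (vxt := u 4) (vtt := u 5) hx hη hv hQ rfl rfl rfl rfl
  simp only [GF, nv, Matrix.cons_val]
  rw [this, Po.EL, Po.QQ]
  have e : et a x = 1 + a * (x ^ 2 - 2) / 2 := rfl
  linear_combination (-1 : ℂ) * e

lemma GF_g0 {x : ℝ} {a : ℂ} {u : Fin 6 → ℂ} (hx : (x : ℂ) ≠ 0) (hη : et a x ≠ 0)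
    (hs : Sm (nv x (et a x) a u 0) (nv x (et a x) a u 1) (nv x (et a x) a u 2)
      (nv x (et a x) a u 3) (nv x (et a x) a u 5) (1 / (x ^ 2 * et a x)))
    (h3 : u 3 = 0) (h4 : u 4 = 0) (h5 : u 5 = 0) :
    GF (1 / (x ^ 2 * et a x)) (nv x (et a x) a u) = g0 x a (u 0) (u 1) (u 2) := by
  rw [← eq_G hx hη hs, h3, h4, h5, Po.EL, Po.QQ, g0]
  have e : et a x = 1 + a * (x ^ 2 - 2) / 2 := rfl
  simp only [zero_div, zero_mul, mul_zero, add_zero, sub_zero, ne_eq, OfNat.ofNat_ne_zero,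
    not_false_eq_true, zero_pow]
  generalize 2 * (et a x + u 0) + (a * x + u 1) ^ 2 = Q
  linear_combination (-1 : ℂ) * e

/-- the linear part of the equation -/
def eqL (x η : ℂ) : (Fin 6 → ℂ) →L[ℂ] ℂ :=
  LinearMap.toContinuousLinearMap
    { toFun := fun u => u 2 - x / 2 * u 1 + u 0 + 1 / (2 * η) * u 5
      map_add' := fun u v => by simp only [Pi.add_apply]; ring
      map_smul' := fun c u => by simp only [Pi.smul_apply, smul_eq_mul, RingHom.id_apply]; ring }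

lemma eqL_apply (x η : ℂ) (u : Fin 6 → ℂ) :
    eqL x η u = u 2 - x / 2 * u 1 + u 0 + 1 / (2 * η) * u 5 := rfl

lemma co0_le {R X M : ℝ} {f0 f : ℝ → ℝ} {u : Wi (om ℓ)} (h : WB R X f0 f u M) (s : II)
    (p0 : 0 < f0 (xr R X s)) (p1 : 0 < f (xr R X s)) : ‖Wi.co u 0 s‖ ≤ M * f0 (xr R X s) := by
  obtain ⟨β, hs, hM, hb0, hb⟩ := h
  have hβ : ∀ m, 0 ≤ β m := fun m => by
    by_cases hm : m = 0
    · rw [hm]; exact nonneg_of_mul_nonneg_left ((norm_nonneg _).trans (hb0 s)) p0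
    · exact nonneg_of_mul_nonneg_left (le_trans (by positivity) (hb m hm s)) p1
  exact (hb0 s).trans (mul_le_mul_of_nonneg_right ((hs.le_tsum 0 fun m _ => hβ m).trans hM) p0.le)

end Ap

set_option maxHeartbeats 1000000 in
open Ap Nl in
theorem apS_holds : ApS := by
  refine ⟨300000, by norm_num, ?_⟩
  intro ℓ R K g g' c ε M X a D J hG hX hok hρ hM hS hB x hx
  obtain ⟨s, rfl⟩ := exists_xr hX hx
  simp only [mo, fx_xr hX]
  have P := hok.pt hx
  obtain ⟨ρ0, ρ1⟩ := hρ _ hx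
  have hW := P.W_pos g g'
  have hW' := P.W_le' hG
  have hn0 := P.npos
  have hx0 := P.xpos
  have hre := P.re_le
  have hr0 := P.repos
  have hε := P.εpos
  have hε1 := P.small
  have e0 : ∀ θ, ‖val (J 0) s θ - Wi.co (J 0) 0 s‖ ≤ _ := fun θ => Rg.val_sub_le hB.b0 s θ ρ0 hW
  have e1 : ∀ θ, ‖val (J 1) s θ - Wi.co (J 1) 0 s‖ ≤ _ := fun θ =>
    Rg.val_sub_le hB.b1 s θ (by positivity) (by positivity)
  have e2 : ∀ θ, ‖val (J 2) s θ - Wi.co (J 2) 0 s‖ ≤ _ := fun θ =>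
    Rg.val_sub_le hB.b2 s θ one_pos (by positivity)
  have e3 : ∀ θ, ‖val (J 3) s θ - Wi.co (J 3) 0 s‖ ≤ _ := fun θ =>
    Rg.val_sub_le hB.b3 s θ one_pos hW
  have e4 : ∀ θ, ‖val (J 4) s θ - Wi.co (J 4) 0 s‖ ≤ _ := fun θ =>
    Rg.val_sub_le hB.b4 s θ one_pos (by positivity)
  have e5 : ∀ θ, ‖val (J 5) s θ - Wi.co (J 5) 0 s‖ ≤ _ := fun θ =>
    Rg.val_sub_le hB.b5 s θ one_pos hW
  have f0 := co0_le hB.b0 s ρ0 hW
  have f1 := co0_le hB.b1 s (by positivity) (by positivity)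
  have f2 := co0_le hB.b2 s one_pos (by positivity)
  have hM0 : 0 ≤ M := Rg.WB.nonneg hB.b0 s ρ0 hW
  have hq := hS.eq s
  have t0 := fun m => congrArg (fun f : CI => f s) (hS.jet.t0 m)
  have t1 := fun m => congrArg (fun f : CI => f s) (hS.jet.t1 m)
  have t2 := fun m => congrArg (fun f : CI => f s) (hS.jet.t2 m)
  simp only [vj, gam_real, Matrix.cons_val] at hq
  simp only [ContinuousMap.smul_apply, smul_eq_mul] at t0 t1 t2
  have a9 := P.a_sq_le
  have a3 := P.a_le_three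
  have x1 := P.x_le
  generalize xr R X s = x at *
  have hxc : (x : ℂ) ≠ 0 := by exact_mod_cast hx0.ne'
  have nx : ‖(x : ℂ)‖ = x := by rw [norm_real, Real.norm_of_nonneg hx0.le]
  set η := et a x with hη
  set u : ℝ → Fin 6 → ℂ := fun θ i => val (J i) s θ with hu
  set cm : ℤ → Fin 6 → ℂ := fun m i => Wi.co (J i) m s with hcm
  have cu : Continuous u := continuous_pi fun i => cont_val _ _
  have Fu : ∀ m, FC u m = cm m := fun m => funext fun i => by
    have := FC_clm (ContinuousLinearMap.proj (R := ℂ) (φ := fun _ : Fin 6 => ℂ) i) cu m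
    exact this.symm.trans (FC_val _ _ _)
  have c3 : cm 0 3 = 0 := by simpa using t0 0
  have c4 : cm 0 4 = 0 := by simpa using t1 0
  have c5 : cm 0 5 = 0 := by simpa using t2 0
  set κ := η.re / ‖η‖ with hκ
  have κ1 : κ ≤ 1 := (div_le_one hn0).2 hre
  have κ0 : 0 < κ := div_pos hr0 hn0
  have hy : ‖nv x η a (cm 0) 0‖ ≤ M * κ := by
    simp only [nv, Matrix.cons_val, norm_div]
    rw [div_le_iff₀ hn0, hκ, mul_assoc, div_mul_cancel₀ _ hn0.ne']
    exact f0.trans (mul_le_mul_of_nonneg_left ρ1 hM0)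
  have hn : ‖(1 / (x ^ 2 * η) : ℂ)‖ ≤ 3 * ε * κ := by
    have := P.inv_sq_norm_le
    have h2 := P.mu_mul
    have h3 := P.norm_le
    rw [norm_div, norm_one, norm_mul, norm_pow, nx, div_le_iff₀ (by positivity), hκ]
    have e : 3 * ε * (η.re / ‖η‖) * (x ^ 2 * ‖η‖) = 3 * (ε * x ^ 2 * η.re) := by field_simp
    rw [e]; linarith
  have hn' : ‖(1 / (x ^ 2 * η) : ℂ)‖ ≤ 1 / 800 := by nlinarith
  have hce : Ce (nv x η a (cm 0)) := by
    refine ⟨by nlinarith, by simp [nv, c3], by simp [nv, c5], ?_, by simp [nv, c4], ?_⟩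
    · simp only [nv, Matrix.cons_val, norm_mul, nx]
      have h1 := norm_add_le (a * x) (cm 0 1)
      rw [norm_mul, nx] at h1
      have h2 : x * ‖cm 0 1‖ ≤ M := by
        have := mul_le_mul_of_nonneg_left f1 hx0.le
        rwa [mul_left_comm, mul_inv_cancel₀ hx0.ne', mul_one] at this
      nlinarith
    · simp only [nv, Matrix.cons_val]
      have h1 := norm_add_le a (cm 0 2)
      rw [mul_one] at f2
      linarith
  set t := W g g' a x / ‖η‖ with ht
  have t0' : 0 < t := by positivity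
  have t30 : t ≤ 1 / 30 := by rw [ht, div_le_iff₀ hn0]; linarith
  have hd : ∀ θ, ‖nl x η (u θ - cm 0)‖ ≤ t := fun θ => by
    have k : M * t ≤ t := by nlinarith
    refine (pi_norm_le_iff_of_nonneg t0'.le).2 fun i => le_trans ?_ k
    have kk : ∀ {z : ℂ}, ‖z‖ ≤ M * W g g' a x → ‖z / η‖ ≤ M * t := fun h => by
      rw [norm_div, ht, ← mul_div_assoc]; gcongr
    fin_cases i
    · exact kk (e0 θ)
    · exact kk (e3 θ)
    · exact kk (e5 θ)
    · show ‖(x : ℂ) * (val (J 1) s θ - Wi.co (J 1) 0 s)‖ ≤ _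
      rw [norm_mul, nx]
      refine (mul_le_mul_of_nonneg_left (e1 θ) hx0.le).trans (le_of_eq ?_)
      rw [ht]; field_simp
    · show ‖(val (J 4) s θ - Wi.co (J 4) 0 s) / (x * η)‖ ≤ _
      rw [norm_div, norm_mul, nx, div_le_iff₀ (by positivity)]
      refine (e4 θ).trans (le_of_eq ?_)
      rw [ht]; field_simp
    · exact e2 θ
  have cd : Continuous fun θ => nl x η (u θ - cm 0) :=
    (nlL x η).continuous.comp (cu.sub continuous_const)
  have hz : ∀ θ, nv x η a (cm 0) + nl x η (u θ - cm 0) = nv x η a (u θ) := fun θ => by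
    rw [← nv_add, add_sub_cancel]
  have hb : ∀ θ, nv x η a (u θ) ∈ ball (nv x η a (cm 0)) (1 / 8) := fun θ => by
    rw [← hz, mem_ball, dist_eq_norm, add_sub_cancel_left]; linarith [hd θ]
  have key := fun m => modes hce hn' cd (t := t) (by linarith) hd m
  have hE : (fun θ => GF (1 / (x ^ 2 * η)) (nv x η a (cm 0) + nl x η (u θ - cm 0))) =
      fun θ => eqL x η (u θ) := funext fun θ => by
    rw [hz, ← eq_G hxc P.ne (hce.sm le_rfl (hb θ) (by linarith)), eqL_apply]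
    exact sub_eq_self.2 (hq θ)
  have hF : ∀ m, FC (fun θ => nl x η (u θ - cm 0)) m =
      nl x η (cm m - if m = 0 then cm 0 else 0) := fun m => by
    have cs : Continuous fun θ => u θ - cm 0 := cu.sub continuous_const
    rw [← FC_const, ← Fu m, ← FC_sub cu continuous_const]
    exact FC_clm (nlL x η) cs m
  simp only [hE, hF, FC_clm _ cu, Fu] at key
  simp only [eqL_apply] at key
  have tt : 0 ≤ t ^ 2 := sq_nonneg _
  refine ⟨?_, fun m hm => ?_⟩
  · have k := key 0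
    rw [if_pos rfl, if_pos rfl, sub_self, ← nlL_apply, map_zero, map_zero, sub_zero, c5, mul_zero,
      add_zero, GF_g0 hxc P.ne (hce.sm le_rfl (mem_ball_self (by norm_num)) (by linarith)) c3 c4 c5]
      at k
    exact k.trans (by linarith)
  · have hm0 : m ≠ 0 := by rintro rfl; simp at hm
    have hmc : (m : ℂ) ^ 2 = 1 := by exact_mod_cast hm
    have hm1 : ‖(m : ℂ)‖ = 1 := by
      have := congrArg norm hmc
      rw [norm_pow, norm_one] at this
      exact (pow_eq_one_iff_of_nonneg (norm_nonneg _) two_ne_zero).1 this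
    have k := key m
    rw [if_neg hm0, if_neg hm0, sub_zero, sub_zero] at k
    have e : cm m 2 - x / 2 * cm m 1 - Vm a m x * cm m 0 =
        cm m 2 - x / 2 * cm m 1 + cm m 0 + 1 / (2 * η) * cm m 5 := by
      have : cm m 5 = -(m : ℂ) ^ 2 * cm m 0 := t2 m
      rw [this, Vm, ← hη]; ring
    set N := ‖cm m 0‖ / ‖η‖ + x * ‖cm m 1‖ + ‖cm m 2‖ with hN
    have p0 : 0 ≤ ‖cm m 0‖ / ‖η‖ := by positivity
    have p1 : 0 ≤ x * ‖cm m 1‖ := by positivity
    have p2 := norm_nonneg (cm m 2)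
    have hl : ‖nl x η (cm m)‖ ≤ N := by
      refine (pi_norm_le_iff_of_nonneg (by positivity)).2 fun i => ?_
      fin_cases i
      · show ‖cm m 0 / η‖ ≤ _
        rw [norm_div]; linarith
      · show ‖cm m 3 / η‖ ≤ _
        rw [show cm m 3 = m * I * cm m 0 from t0 m, norm_div, norm_mul, norm_mul, hm1, norm_I,
          one_mul, one_mul]; linarith
      · show ‖cm m 5 / η‖ ≤ _
        rw [show cm m 5 = -(m : ℂ) ^ 2 * cm m 0 from t2 m, hmc, norm_div, norm_mul, norm_neg,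
          norm_one, one_mul]; linarith
      · show ‖(x : ℂ) * cm m 1‖ ≤ _
        rw [norm_mul, nx]; linarith
      · show ‖cm m 4 / (x * η)‖ ≤ _
        rw [show cm m 4 = m * I * cm m 1 from t1 m, norm_div, norm_mul, norm_mul, hm1, norm_I,
          one_mul, one_mul, norm_mul, nx]
        have h1 := P.one_le_norm
        have : ‖cm m 1‖ / (x * ‖η‖) ≤ x * ‖cm m 1‖ := by
          rw [div_le_iff₀ (by positivity)]
          have h2 : ε * x ^ 2 * ‖η‖ ≤ 1 * x ^ 2 * ‖η‖ := by gcongr; linarith only [hε1]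
          calc ‖cm m 1‖ = ‖cm m 1‖ * 1 := (mul_one _).symm
            _ ≤ ‖cm m 1‖ * (1 * x ^ 2 * ‖η‖) := by gcongr; exact h1.trans h2
            _ = _ := by ring
        linarith only [this, p0, p2, hN]
      · show ‖cm m 2‖ ≤ _
        linarith
    have hL := (fderiv ℂ (GF (1 / (x ^ 2 * η))) (nv x η a (cm 0))).le_of_opNorm_le_of_le
      ((hce.fd hn').trans (show _ ≤ 300000 * ((M + ε) * κ) by
        linarith only [hy, hn, mul_pos hε κ0, mul_nonneg hM0 κ0.le])) hl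
    have := norm_add_le_of_le k hL
    rw [sub_add_cancel, ← e] at this
    exact this.trans (by linarith only [tt])

end Crest.Agent.N250.B1

end
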