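import Crest.Agent.N250.B1.WtBar
import Crest.Agent.N250.B1.Stm

/-!
# Row 250, B1 (helper45): the domain of the end family is open
-/

set_option autoImplicit false
open Set Complex Filter Topology

noncomputable section

namespace Crest.Agent.N250.B1

variable {ℓ : Ell} {R K g g' ε : ℝ}

theorem Dom.re_et_pos (hR : 0 ≤ R) (hK : 0 < K) {z : Par ℓ} (hz : z ∈ Dom R K g g' ε) :
    0 < (et z.2.1 z.1.re).re := by
  obtain ⟨h1, h2, -, h4, -⟩ := hz
  have hX : 0 < z.1.re := by linarith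
  have h5 := four_le_of_sqrt hK.le h2.le
  refine lt_of_lt_of_le ?_ ((rho_ge hK.le hX h5 le_rfl).trans (h4.rho_le hX (by nlinarith)))
  positivity

theorem continuousAt_dn {z : Par ℓ} (hX : 0 < z.1.re) (h : 0 < (et z.2.1 z.1.re).re) :
    ContinuousAt (fun z : Par ℓ => dn R g g' z.1.re z.2.1 z.2.2) z := by
  have hn : 0 < ‖et z.2.1 z.1.re‖ := h.trans_le (re_le_norm _)
  have ce : Continuous fun z : Par ℓ => et z.2.1 z.1.re := by unfold et; fun_prop
  have c0 : Continuous fun z : Par ℓ => Wi.co z.2.2.2.1 0 :=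
    (Wi.coL (omF ℓ) 0).continuous.comp (by fun_prop)
  have c1 : Continuous fun z : Par ℓ => Wi.single (omF ℓ) 0 (Wi.co z.2.2.2.1 0) :=
    (Wi.cst (omF ℓ)).continuous.comp c0
  have cW : ContinuousAt (fun z : Par ℓ => W g g' z.2.1 z.1.re) z :=
    (ContinuousAt.rpow_const (f := fun z : Par ℓ => z.1.re) (by fun_prop) (Or.inl hX.ne')).mul
      (ce.norm.continuousAt.rpow_const (Or.inl hn.ne'))
  have hW : 0 < W g g' z.2.1 z.1.re :=
    mul_pos (Real.rpow_pos_of_pos hX _) (Real.rpow_pos_of_pos hn _)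
  unfold dn
  refine ContinuousAt.add (by fun_prop) (ContinuousAt.div (by fun_prop)
    (cW.mul (continuous_re.comp ce).continuousAt) (mul_pos hW h).ne')

/-- **the domain is open** -/
theorem isOpen_Dom (hR : 0 ≤ R) (hK : 0 < K) : IsOpen (Dom R K g g' ε : Set (Par ℓ)) := by
  refine isOpen_iff_mem_nhds.2 fun z hz => ?_
  have hp := Dom.re_et_pos hR hK hz
  obtain ⟨h1, h2, h3, h4, h5⟩ := hz
  have hX : 0 < z.1.re := by linarith
  have cr : ContinuousAt (fun z : Par ℓ => z.1.re) z := by fun_prop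
  filter_upwards [cr.eventually (lt_mem_nhds h1), cr.eventually (lt_mem_nhds h2),
    ContinuousAt.eventually_lt (f := fun z : Par ℓ => |z.1.im|) (by fun_prop) (cr.inv₀ hX.ne') h3,
    ContinuousAt.eventually_lt
      (f := fun z : Par ℓ => ‖z.2.1 * (z.1.re : ℂ) ^ 2 / 2 - 1 / 8‖ + 2 * K / z.1.re ^ 2)
      (ContinuousAt.add (by fun_prop) (continuousAt_const.div (cr.pow 2) (pow_pos hX 2).ne'))
      continuousAt_const h4,
    (continuousAt_dn (R := R) (g := g) (g' := g') hX hp).eventually (gt_mem_nhds h5)]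
    with w a1 a2 a3 a4 a5
  exact ⟨a1, a2, a3, a4, a5⟩

theorem IsEnd.diffAt {ε1 C : ℝ} {U : Par ℓ → Jt ℓ} (h : IsEnd R K g g' ε ε1 C ℓ U) (hR : 0 ≤ R)
    (hK : 0 < K) {z : Par ℓ} (hz : z ∈ Dom R K g g' ε) : DifferentiableAt ℂ U z :=
  h.hol.differentiableAt ((isOpen_Dom hR hK).mem_nhds hz)

end Crest.Agent.N250.B1

end
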