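import Crest.Agent.N250.B1.Res

/-!
# Row 250, block B1 (helper39): the restriction stays in a ball (regime `|a| X² ≤ 1/2`)
-/

set_option autoImplicit false
open Set Complex Filter Topology

noncomputable section

namespace Crest.Agent.N250.B1

variable {ℓ : Ell} {R X X' : ℝ}

/-- normal form of a weighted bound: nonnegative majorants -/
theorem WB.nf {f0 f : ℝ → ℝ} {u : Wi (om ℓ)} {M : ℝ} (hu : WB R X f0 f u M) (s0 : II)
    (h0 : 0 < f0 (xr R X s0)) (h1 : 0 < f (xr R X s0)) :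
    ∃ β : ℤ → ℝ, (∀ m, 0 ≤ β m) ∧ (∀ m, β m ≤ M) ∧ Summable β ∧ ∑' m, β m ≤ M ∧
      (∀ s : II, ‖Wi.co u 0 s‖ ≤ β 0 * f0 (xr R X s)) ∧ ∀ m, m ≠ 0 → ∀ s : II,
        Real.exp (sig (2 * s) * ℓ.l m) * ‖Wi.co u m s‖ ≤ β m * f (xr R X s) := by
  obtain ⟨β, b1, b2, b3, b4⟩ := hu
  have hp : ∀ m, 0 ≤ β m := fun m => by
    by_cases hm : m = 0
    · subst hm; exact nonneg_of_mul_nonneg_left ((norm_nonneg _).trans (b3 s0)) h0
    · exact nonneg_of_mul_nonneg_left (le_trans (by positivity) (b4 m hm s0)) h1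
  exact ⟨β, hp, fun m => (b1.le_tsum m fun j _ => hp j).trans b2, b1, b2, b3, b4⟩

/-- the mode `0` -/
theorem WB.zero_le {f0 f : ℝ → ℝ} {u : Wi (om ℓ)} {M : ℝ} (hu : WB R X f0 f u M)
    (h0 : ∀ s : II, 0 < f0 (xr R X s)) (h1 : ∀ s : II, 0 < f (xr R X s)) (s : II) :
    ‖Wi.co u 0 s‖ ≤ M * f0 (xr R X s) := by
  obtain ⟨β, -, b1, -, -, b3, -⟩ := hu.nf s (h0 s) (h1 s)
  exact (b3 s).trans (mul_le_mul_of_nonneg_right (b1 0) (h0 s).le)

/-- the other modes -/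
theorem WB.mode_le {f0 f : ℝ → ℝ} {u : Wi (om ℓ)} {M : ℝ} (hu : WB R X f0 f u M)
    (h0 : ∀ s : II, 0 < f0 (xr R X s)) (h1 : ∀ s : II, 0 < f (xr R X s)) {m : ℤ} (hm : m ≠ 0)
    (s : II) : Real.exp (sig (2 * s) * ℓ.l m) * ‖Wi.co u m s‖ ≤ M * f (xr R X s) := by
  obtain ⟨β, -, b1, -, -, -, b4⟩ := hu.nf s (h0 s) (h1 s)
  exact (b4 m hm s).trans (mul_le_mul_of_nonneg_right (b1 m) (h1 s).le)

/-- change of the weights and of the mode `0` -/
theorem WB.change {f0 f g0 g : ℝ → ℝ} {u v : Wi (om ℓ)} {M B C : ℝ} (hu : WB R X f0 f u M)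
    (h0 : ∀ s : II, 0 < f0 (xr R X s)) (h1 : ∀ s : II, 0 < f (xr R X s)) (hC : 0 ≤ C)
    (k0 : ∀ s : II, 0 ≤ g0 (xr R X s)) (hf : ∀ s : II, f (xr R X s) ≤ C * g (xr R X s))
    (hv : ∀ m, m ≠ 0 → ∀ s, Wi.co v m s = Wi.co u m s)
    (hv0 : ∀ s : II, ‖Wi.co v 0 s‖ ≤ B * g0 (xr R X s)) : WB R X g0 g v (C * M + B) := by
  obtain ⟨β, bp, -, b1, b2, -, b4⟩ := hu.nf i0 (h0 i0) (h1 i0)
  have hs : HasSum (fun m : ℤ => if m = 0 then B else 0) B := hasSum_ite_eq 0 B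
  refine ⟨fun m => C * β m + if m = 0 then B else 0, (b1.mul_left C).add hs.summable, ?_,
    fun s => ?_, fun m hm s => ?_⟩
  · rw [(b1.mul_left C).tsum_add hs.summable, hs.tsum_eq, tsum_mul_left]
    gcongr
  · refine (hv0 s).trans (mul_le_mul_of_nonneg_right ?_ (k0 s))
    simp only [if_true]
    linarith [mul_nonneg hC (bp 0)]
  · simp only [if_neg hm, add_zero]
    rw [hv m hm]
    calc _ ≤ β m * f (xr R X s) := b4 m hm s
      _ ≤ β m * (C * g (xr R X s)) := mul_le_mul_of_nonneg_left (hf s) (bp m)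
      _ = _ := by ring

theorem WB.mono_M {f0 f : ℝ → ℝ} {u : Wi (om ℓ)} {M M' : ℝ} (hu : WB R X f0 f u M) (h : M ≤ M') :
    WB R X f0 f u M' := by
  obtain ⟨β, b1, b2, b3⟩ := hu
  exact ⟨β, b1, b2.trans h, b3⟩

theorem R2.rho_le_one {K X x : ℝ} (hK : 2 * K ≤ X ^ 2) (hX : 0 < X) (hx : 2 ≤ x ^ 2) :
    rho K X x ≤ 1 := by
  have h1 : 0 ≤ (x ^ 2 - 2) / X ^ 2 := div_nonneg (by linarith) (by positivity)
  have h2 : 2 * K / X ^ 2 ≤ 1 := (div_le_one (by positivity)).2 hK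
  unfold rho
  nlinarith

theorem R2.le_rho {K X x : ℝ} (hK : 0 ≤ K) (hX : 0 < X) (hx : 2 ≤ x ^ 2) :
    1 - (x ^ 2 - 2) / X ^ 2 ≤ rho K X x := by
  have h1 : 0 ≤ (x ^ 2 - 2) / X ^ 2 := div_nonneg (by linarith) (by positivity)
  have h2 : 0 ≤ 2 * K / X ^ 2 := by positivity
  unfold rho
  nlinarith [mul_nonneg h1 h2]

theorem R2.rho_pos' {K X x : ℝ} (hK : 0 ≤ K) (hx : 2 ≤ x) (hxX : x ≤ X) : 0 < rho K X x := by
  have hX : 0 < X := by linarith
  refine lt_of_lt_of_le ?_ (R2.le_rho hK hX (by nlinarith))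
  rw [sub_pos, div_lt_one (by positivity)]
  nlinarith

theorem R2.sub_le_rho {K X x : ℝ} (hK : 0 ≤ K) (hx : 2 ≤ x) (hxX : x ≤ X) :
    (X - x) / X ≤ rho K X x := by
  have hX : 0 < X := by linarith
  refine le_trans ?_ (R2.le_rho hK hX (by nlinarith))
  have : (x ^ 2 - 2) / X ^ 2 ≤ x / X := by
    rw [div_le_div_iff₀ (by positivity) hX]
    nlinarith [mul_le_mul_of_nonneg_left hxX (by positivity : 0 ≤ x * X)]
  rw [sub_div, div_self hX.ne']
  linarith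

theorem R2.norm_et_sub (a : ℂ) {x : ℝ} (hx : 2 ≤ x ^ 2) :
    ‖et a x - 1‖ = ‖a‖ * ((x ^ 2 - 2) / 2) := by
  have : et a x - 1 = a * (((x ^ 2 - 2) / 2 : ℝ) : ℂ) := by rw [et]; push_cast; ring
  rw [this, norm_mul, norm_real, Real.norm_of_nonneg (by linarith)]

theorem R2.norm_bd_of_sub {z : ℂ} {r : ℝ} (h : ‖z - 1‖ ≤ r) : 1 - r ≤ ‖z‖ ∧ ‖z‖ ≤ 1 + r := by
  have h1 := norm_sub_norm_le z 1
  have h2 := norm_sub_norm_le 1 z
  rw [norm_sub_rev] at h2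
  rw [norm_one] at h1 h2
  constructor <;> linarith

theorem R2.W_pos' (g g' : ℝ) {a : ℂ} {x : ℝ} (hx : 0 < x) (h : 0 < ‖et a x‖) : 0 < W g g' a x :=
  mul_pos (Real.rpow_pos_of_pos hx _) (Real.rpow_pos_of_pos h _)

theorem R2.W_le_four (g : ℝ) {g' : ℝ} {a b : ℂ} {x : ℝ} (hx : 0 < x) (h0 : 0 ≤ g') (h2 : g' ≤ 2)
    (h : ‖et a x‖ ≤ 2 * ‖et b x‖) : W g g' a x ≤ 4 * W g g' b x := by
  have h1 : ‖et a x‖ ^ g' ≤ 4 * ‖et b x‖ ^ g' := by
    refine (Real.rpow_le_rpow (norm_nonneg _) h h0).trans ?_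
    rw [Real.mul_rpow (by norm_num) (norm_nonneg _)]
    refine mul_le_mul_of_nonneg_right ?_ (by positivity)
    calc (2 : ℝ) ^ g' ≤ 2 ^ (2 : ℝ) := Real.rpow_le_rpow_of_exponent_le (by norm_num) h2
      _ = 4 := by norm_num
  have := mul_le_mul_of_nonneg_left h1 (Real.rpow_pos_of_pos hx (-g)).le
  unfold W
  linarith

/-- the regime in which the restriction is controlled -/
structure Easy (K g' X M : ℝ) (a : ℂ) : Prop where
  K0 : 0 ≤ K
  KX : 2 * K ≤ X ^ 2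
  g0 : 0 ≤ g'
  g2 : g' ≤ 2
  a : ‖a‖ * X ^ 2 ≤ 1 / 2
  M : M ≤ 1 / 8

namespace Cut2
variable (h : Cut2 R X X') (hR : 2 ≤ R) {K g g' M : ℝ} {a : ℂ} {J : Jt ℓ}
include h hR

theorem two_le (s : II) : 2 ≤ xr R X s := hR.trans (xr_mem' h.lo s).1

theorem et_a (ha : ‖a‖ * X ^ 2 ≤ 1 / 2) (s : II) : ‖et a (xr R X s) - 1‖ ≤ 1 / 4 := by
  have h1 := h.two_le hR s
  have h2 := (xr_mem' h.lo s).2
  rw [R2.norm_et_sub a (by nlinarith)]
  have : xr R X s ^ 2 ≤ X ^ 2 := by gcongr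
  nlinarith [norm_nonneg a]

/-- the six bounds of `InB` for the cut `X'`, seen on `[R, X]` -/
theorem zero_bd (hK : 0 ≤ K) (ha : ‖a‖ * X ^ 2 ≤ 1 / 2) (hb : InB R K g g' X' a M J) (s : II) :
    ‖Wi.co (J 0) 0 (h.phi s)‖ ≤ M * rho K X' (xr R X s) ∧
      ‖Wi.co (J 1) 0 (h.phi s)‖ ≤ M * (xr R X s)⁻¹ ∧ ‖Wi.co (J 2) 0 (h.phi s)‖ ≤ M := by
  have hx : ∀ s : II, 0 < xr R X s := fun s => two_pos.trans_le (h.two_le hR s)
  have he : ∀ s : II, 0 < ‖et a (xr R X s)‖ := fun s => by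
    linarith [(R2.norm_bd_of_sub (h.et_a hR ha s)).1]
  have hW : ∀ s : II, 0 < W g g' a (xr R X s) := fun s => R2.W_pos' g g' (hx s) (he s)
  refine ⟨?_, ?_, ?_⟩
  · rw [← h.co_resW_apply]
    exact (h.wb hb.b0).zero_le
      (fun s => R2.rho_pos' hK (h.two_le hR s) (h.mem s).2) hW s
  · rw [← h.co_resW_apply]
    exact (h.wb hb.b1).zero_le (fun s => inv_pos.2 (hx s))
      (fun s => div_pos (hW s) (mul_pos (hx s) (he s))) s
  · rw [← h.co_resW_apply, ← mul_one M]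
    exact (h.wb hb.b2).zero_le (fun _ => one_pos) (fun s => div_pos (hW s) (he s)) s

/-- the change of the parameter `a` -/
theorem norm_dt (hK : 0 ≤ K) (ha : ‖a‖ * X ^ 2 ≤ 1 / 2) (hb : InB R K g g' X' a M J) :
    ‖h.dt J‖ * ((X ^ 2 - 2) / 2) ≤ M * rho K X' X := by
  have h1 := (h.zero_bd hR hK ha hb i1).1
  have hp := h.sq_sub_two_pos (by linarith)
  have hp' : (X : ℂ) ^ 2 - 2 ≠ 0 := by exact_mod_cast hp.ne'
  have e : Wi.co (J 0) 0 (h.phi i1) = -(h.dt J * (((X ^ 2 - 2) / 2 : ℝ) : ℂ)) := by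
    rw [dt]; push_cast; field_simp
  rwa [e, xr_i1, norm_neg, norm_mul, norm_real, Real.norm_of_nonneg (by linarith)] at h1

/-- **the restriction stays in a ball** -/
theorem inB (hE : Easy K g' X M a) (hJ : IsJet (dgam R X') J) (hb : InB R K g g' X' a M J) :
    InB R K g g' X (h.tau a J) (18 * M) (h.resJ J) := by
  have hX : 0 < X := by linarith [hR, h.lo]
  have hX4 : 4 ≤ X := by linarith [hR, h.lo]
  have hK := hE.K0
  have hx2 := h.two_le hR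
  have hx : ∀ s : II, 0 < xr R X s := fun s => two_pos.trans_le (hx2 s)
  have hxX : ∀ s : II, xr R X s ≤ X := fun s => (xr_mem' h.lo s).2
  have hz := h.zero_bd hR hK hE.a hb
  have hM : 0 ≤ M := (norm_nonneg _).trans (hz i0).2.2
  have hr1 : ∀ s : II, rho K X' (xr R X s) ≤ 1 := fun s =>
    R2.rho_le_one (hE.KX.trans (by have := h.le; gcongr)) (by linarith [h.le]) (by nlinarith [hx2 s])
  set τ := h.tau a J with hτ
  have hd : h.dt J = a - τ := by rw [hτ, tau]; ring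
  have ht : ‖a - τ‖ * ((X ^ 2 - 2) / 2) ≤ M := by
    have := h.norm_dt hR hK hE.a hb
    have h2 := hr1 i1
    rw [xr_i1] at h2
    rw [← hd]
    nlinarith
  have ht' : ∀ s : II, ‖a - τ‖ * ((xr R X s ^ 2 - 2) / 2) ≤ M := fun s => by
    have : xr R X s ^ 2 ≤ X ^ 2 := by have := hxX s; have := (hx s).le; gcongr
    nlinarith [norm_nonneg (a - τ)]
  have ea := fun s => R2.norm_bd_of_sub (h.et_a hR hE.a s)
  have eτ : ∀ s : II, 1 - 3 / 8 ≤ ‖et τ (xr R X s)‖ ∧ ‖et τ (xr R X s)‖ ≤ 1 + 3 / 8 := fun s => by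
    refine R2.norm_bd_of_sub ?_
    have e : et τ (xr R X s) - 1 = (et a (xr R X s) - 1) - (et (a - τ) (xr R X s) - 1) := by
      simp only [et]; ring
    have h1 := h.et_a hR hE.a s
    have h2 := R2.norm_et_sub (a - τ) (x := xr R X s) (by nlinarith [hx2 s])
    rw [e]
    linarith [norm_sub_le (et a (xr R X s) - 1) (et (a - τ) (xr R X s) - 1), ht' s, hE.M]
  have he : ∀ s : II, 0 < ‖et a (xr R X s)‖ := fun s => by linarith [(ea s).1]
  have heτ : ∀ s : II, 0 < ‖et τ (xr R X s)‖ := fun s => by linarith [(eτ s).1]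
  have hW : ∀ s : II, 0 < W g g' a (xr R X s) := fun s => R2.W_pos' g g' (hx s) (he s)
  have hWτ : ∀ s : II, 0 < W g g' τ (xr R X s) := fun s => R2.W_pos' g g' (hx s) (heτ s)
  have hWW : ∀ s : II, W g g' a (xr R X s) ≤ 4 * W g g' τ (xr R X s) := fun s =>
    R2.W_le_four g (hx s) hE.g0 hE.g2 (by linarith [(ea s).2, (eτ s).1])
  have hW8 : ∀ s : II, W g g' a (xr R X s) ≤ 8 * W g g' τ (xr R X s) := fun s => by
    linarith [hWW s, hWτ s]
  have hWe : ∀ s : II, W g g' a (xr R X s) / ‖et a (xr R X s)‖ ≤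
      8 * (W g g' τ (xr R X s) / ‖et τ (xr R X s)‖) := fun s => by
    rw [← mul_div_assoc, div_le_div_iff₀ (he s) (heτ s)]
    have h1 := mul_le_mul (hWW s) (eτ s).2 (heτ s).le (by linarith [hWτ s])
    have h2 := mul_le_mul_of_nonneg_left (ea s).1 (hWτ s).le
    nlinarith [hWτ s]
  have hne : ∀ (i : Fin 6) (m : ℤ), m ≠ 0 → ∀ s, Wi.co (h.resJ J i) m s = Wi.co (h.resW (J i)) m s :=
    fun i m hm s => by rw [h.co_resJ_ne J i hm, h.co_resW_apply]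
  have z1 : ∀ s : II, ‖Wi.co (h.resJ J 1) 0 s‖ ≤ 5 * M * (xr R X s)⁻¹ := fun s => by
    rw [h.co_resJ_1, hd]
    refine (norm_add_le _ _).trans ?_
    rw [norm_mul, norm_real, Real.norm_of_nonneg (hx s).le]
    have h1 : ‖a - τ‖ * xr R X s ≤ 4 * M * (xr R X s)⁻¹ := by
      rw [← div_eq_mul_inv, le_div_iff₀ (hx s)]
      have : 4 ≤ xr R X s ^ 2 := by nlinarith [hx2 s]
      nlinarith [ht' s, norm_nonneg (a - τ)]
    linarith [(hz s).2.1]
  have z0 : ∀ s : II, ‖Wi.co (h.resJ J 0) 0 s‖ ≤ 10 * M * rho K X (xr R X s) := fun s => by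
    have hρ := R2.sub_le_rho hK (hx2 s) (hxX s)
    rcases le_total (xr R X s) (X / 2) with h1 | h1
    · rw [h.co_resJ_0, hd, ← mul_div_assoc]
      have h2 := R2.norm_et_sub (a - τ) (x := xr R X s) (by nlinarith [hx2 s])
      have e : et (a - τ) (xr R X s) - 1 = (a - τ) * ((xr R X s : ℂ) ^ 2 - 2) / 2 := by
        simp only [et]; ring
      rw [e] at h2
      have h3 : 1 / 2 ≤ (X - xr R X s) / X := by rw [le_div_iff₀ hX]; linarith
      have h4 := mul_le_mul_of_nonneg_left (hr1 s) hM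
      have h5 := mul_le_mul_of_nonneg_left (h3.trans hρ) hM
      linarith [norm_add_le (Wi.co (J 0) 0 (h.phi s)) ((a - τ) * ((xr R X s : ℂ) ^ 2 - 2) / 2),
        (hz s).1, ht' s]
    · have hdv := (((h.isJet_resJ hJ).d0 0).dv h.lo).mono (xr_mem' h.lo s).1 le_rfl
      have hb' : ∀ y ∈ Icc (xr R X s) X, ‖fx R X (Wi.co (h.resJ J 1) 0) y‖ ≤ 10 * M / X :=
        fun y hy => by
          obtain ⟨t, rfl⟩ := exists_xr h.lo (x := y) ⟨(xr_mem' h.lo s).1.trans hy.1, hy.2⟩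
          rw [fx_xr h.lo]
          refine (z1 t).trans ?_
          rw [← div_eq_mul_inv, div_le_div_iff₀ (hx t) hX]
          nlinarith [hy.1]
      have := (convex_Icc _ _).norm_image_sub_le_of_norm_hasDerivWithin_le hdv hb'
        (right_mem_Icc.2 (hxX s)) (left_mem_Icc.2 (hxX s))
      rw [fx_xr h.lo, fx_right h.lo, h.resJ_far0 (by linarith), sub_zero, Real.norm_eq_abs, abs_sub_comm,
        abs_of_nonneg (by linarith [hxX s])] at this
      calc _ ≤ 10 * M / X * (X - xr R X s) := this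
        _ = 10 * M * ((X - xr R X s) / X) := by ring
        _ ≤ _ := by gcongr
  have z2 : ∀ s : II, ‖Wi.co (h.resJ J 2) 0 s‖ ≤ 2 * M * 1 := fun s => by
    rw [h.co_resJ_2, hd]
    have : ‖a - τ‖ ≤ M :=
      (le_mul_of_one_le_right (norm_nonneg _) (by nlinarith : 1 ≤ (X ^ 2 - 2) / 2)).trans ht
    linarith [norm_add_le (Wi.co (J 2) 0 (h.phi s)) (a - τ), (hz s).2.2]
  have hJ' := h.isJet_resJ hJ
  have z3 : ∀ s : II, ‖Wi.co (h.resJ J 3) 0 s‖ ≤ 0 * 1 := fun s => by rw [hJ'.t0]; simp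
  have z4 : ∀ s : II, ‖Wi.co (h.resJ J 4) 0 s‖ ≤ 0 * 1 := fun s => by rw [hJ'.t1]; simp
  have z5 : ∀ s : II, ‖Wi.co (h.resJ J 5) 0 s‖ ≤ 0 * 1 := fun s => by rw [hJ'.t2]; simp
  have o1 : ∀ _ : II, (0 : ℝ) < 1 := fun _ => one_pos
  have o2 : ∀ _ : II, (0 : ℝ) ≤ 1 := fun _ => zero_le_one
  refine ⟨?_, ?_, ?_, ?_, ?_, ?_⟩
  · exact ((h.wb hb.b0).change (C := 8) (fun s => R2.rho_pos' hK (hx2 s) (h.mem s).2) hW
      (by norm_num) (fun s => (R2.rho_pos' hK (hx2 s) (hxX s)).le) hW8 (hne 0) z0).mono_M (by linarith)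
  · refine ((h.wb hb.b1).change (C := 8) (fun s => inv_pos.2 (hx s))
      (fun s => div_pos (hW s) (mul_pos (hx s) (he s))) (by norm_num)
      (fun s => (inv_pos.2 (hx s)).le) (fun s => ?_) (hne 1) z1).mono_M (by linarith)
    have := div_le_div_of_nonneg_right (hWe s) (hx s).le
    rwa [div_div, mul_comm _ (xr R X s), mul_div_assoc, div_div, mul_comm _ (xr R X s)] at this
  · exact ((h.wb hb.b2).change (C := 8) o1 (fun s => div_pos (hW s) (he s)) (by norm_num) o2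
      hWe (hne 2) z2).mono_M (by linarith)
  · exact ((h.wb hb.b3).change (C := 8) o1 hW (by norm_num) o2 hW8 (hne 3) z3).mono_M
      (by linarith)
  · refine ((h.wb hb.b4).change (C := 8) o1 (fun s => mul_pos (hx s) (hW s)) (by norm_num) o2
      (fun s => ?_) (hne 4) z4).mono_M (by linarith)
    have := mul_le_mul_of_nonneg_left (hW8 s) (hx s).le
    linarith
  · exact ((h.wb hb.b5).change (C := 8) o1 hW (by norm_num) o2 hW8 (hne 5) z5).mono_M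
      (by linarith)

end Cut2

end Crest.Agent.N250.B1

end
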