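import Crest.Agent.N250.B1.DrS
import Crest.Agent.N250.B1.Res2
import Crest.Agent.N250.B1.WtBar

/-!
# Row 250, block B1, S10 (helper53): assembly of the drift statement
-/

set_option autoImplicit false
open Set Complex Filter Topology

noncomputable section

namespace Crest.Agent.N250.B1

open Gi (Lam hat)

variable {ℓ : Ell} {R X X' : ℝ}

theorem Dr.inB_mono {K g g' M M' : ℝ} {a : ℂ} {J : Jt ℓ} (h : InB R K g g' X a M J) (hM : M ≤ M') :
    InB R K g g' X a M' J :=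
  ⟨h.b0.mono_M hM, h.b1.mono_M hM, h.b2.mono_M hM, h.b3.mono_M hM, h.b4.mono_M hM, h.b5.mono_M hM⟩

theorem Dr.W_div_le {ε x g g' : ℝ} {a : ℂ} (h : Pt ε a x) (h1 : 1 ≤ g') (h2 : g' ≤ 2) :
    W g g' a x / ‖et a x‖ ≤ 3 * x ^ (-g) := by
  have h3 : ‖et a x‖ ^ (g' - 1) ≤ 3 := by
    refine (Real.rpow_le_rpow (norm_nonneg _) h.norm_le (by linarith)).trans ?_
    refine (Real.rpow_le_rpow_of_exponent_le (by norm_num) (by linarith : g' - 1 ≤ 1)).trans_eq ?_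
    simp
  rw [W, mul_div_assoc, ← Real.rpow_sub_one h.npos.ne', mul_comm]
  exact mul_le_mul_of_nonneg_right h3 (Real.rpow_nonneg h.xpos.le _)

theorem Dr.sq_le_exp {c t l : ℝ} (hc : 0 < c) (ht : 0 ≤ t) (hl : c * t ≤ l) :
    (1 + t) ^ 2 * Real.exp (l / 2) ≤ (1 + 4 / c) ^ 2 * Real.exp l := by
  have h1 : 1 + t ≤ (1 + 4 / c) * Real.exp (l / 4) := by
    have h2 := Real.add_one_le_exp (l / 4)
    have h3 : t ≤ 4 / c * (l / 4) := by
      rw [div_mul_div_comm, le_div_iff₀ (by positivity)]; linarith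
    have h4 : 0 ≤ l := (mul_nonneg hc.le ht).trans hl
    have h5 : 0 < 4 / c := by positivity
    nlinarith [mul_le_mul_of_nonneg_left h2 (by linarith : 0 ≤ 1 + 4 / c)]
  have e : Real.exp l = Real.exp (l / 4) ^ 2 * Real.exp (l / 2) := by
    rw [sq, ← Real.exp_add, ← Real.exp_add]; congr 1; ring
  rw [e, ← mul_assoc, ← mul_pow]
  gcongr

theorem Cut2.mo_eq (h : Cut2 R X X') (J : Jt ℓ) (i : Fin 6) (m : ℤ) (s : II) :
    mo R X' J i m (xr R X s) = Wi.co (J i) m (h.phi s) := (h.comp_apply _ s).symm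

theorem Cut2.mo_X (h : Cut2 R X X') (J : Jt ℓ) (i : Fin 6) (m : ℤ) :
    mo R X' J i m X = Wi.co (J i) m (h.phi i1) := by rw [← h.mo_eq, xr_i1]

theorem Cut2.dt_eq (h : Cut2 R X X') (J : Jt ℓ) :
    h.dt J = -(mo R X' J 0 0 X / (((X : ℂ) ^ 2 - 2) / 2)) := by
  rw [h.mo_X, Cut2.dt, div_div_eq_mul_div]; ring

theorem Cut2.tauX_eq (h : Cut2 R X X') (a : ℂ) (J : Jt ℓ) : tauX R X X' a J = h.tau a J := by
  rw [Cut2.tau, h.dt_eq, tauX, sub_neg_eq_add]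

theorem Dr.co_vJ (R : ℝ) (X a : ℂ) (J : Jt ℓ) (i : Fin 6) (m : ℤ) :
    Wi.co (vJ R X a J i) m = Wi.co (J i) m + if m = 0 then
      ![1 + (a / 2) • (gam R X ^ 2 - 2), a • gam R X, a • (1 : CI), 0, 0, 0] i else 0 := by
  rw [vJ, Pi.add_apply, Wi.co_add]
  congr 1
  fin_cases i
  · exact Wi.co_cst _ m
  · exact Wi.co_cst _ m
  · exact Wi.co_cst _ m
  all_goals exact (Wi.co_zero m).trans (ite_self _).symm

theorem Dr.co_vJ_ne (R : ℝ) (X a : ℂ) (J : Jt ℓ) (i : Fin 6) {m : ℤ} (hm : m ≠ 0) :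
    Wi.co (vJ R X a J i) m = Wi.co (J i) m := by
  rw [Dr.co_vJ, if_neg hm, add_zero]

theorem Dr.co_vJ_zero (R : ℝ) (X a : ℂ) (J : Jt ℓ) (i : Fin 6) (s : II) :
    Wi.co (vJ R X a J i) 0 s =
      Wi.co (J i) 0 s + ![et a (gam R X s), a * gam R X s, a, 0, 0, 0] i := by
  have e : (2 : CI) s = 2 := rfl
  rw [Dr.co_vJ, if_pos rfl, ContinuousMap.add_apply]
  congr 1
  fin_cases i <;> simp [et, e]
  ring

/-- the jets of `v` agree mode by mode -/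
theorem Cut2.co_vJ (h : Cut2 R X X') (a : ℂ) (J : Jt ℓ) (i : Fin 6) (m : ℤ) (s : II) :
    Wi.co (vJ R X' a J i) m (h.phi s) = Wi.co (vJ R X (h.tau a J) (h.resJ J) i) m s := by
  by_cases hm : m = 0
  · subst hm
    rw [Dr.co_vJ_zero, Dr.co_vJ_zero, h.gam_phi, gam_real]
    fin_cases i
    · simp only [Fin.zero_eta, Matrix.cons_val_zero, h.co_resJ_0, et, Cut2.tau]; ring
    · simp only [Fin.mk_one, Matrix.cons_val_one, Matrix.cons_val_zero, h.co_resJ_1, Cut2.tau]; ring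
    · simp only [Fin.reduceFinMk, Matrix.cons_val, h.co_resJ_2, Cut2.tau]; ring
    · simp only [Fin.reduceFinMk, Matrix.cons_val, h.resJ_3, h.co_resW_apply]
    · simp only [Fin.reduceFinMk, Matrix.cons_val, h.resJ_4, h.co_resW_apply]
    · simp only [Fin.reduceFinMk, Matrix.cons_val, h.resJ_5, h.co_resW_apply]
  · rw [Dr.co_vJ_ne _ _ _ _ _ hm, Dr.co_vJ_ne _ _ _ _ _ hm, h.co_resJ_ne J i hm]

theorem Cut2.xc (h : Cut2 R X X') (a : ℂ) {J' J : Jt ℓ} {N : ℝ} (hw : Wc R X (h.resJ J') J N) :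
    Xc R X X' (vJ R X' a J') (vJ R X (h.tau a J') J) N := fun i => by
  obtain ⟨β, b1, b2, b3⟩ := hw i
  refine ⟨β, b1, b2, fun m x hx => ?_⟩
  obtain ⟨s, rfl⟩ := exists_xr h.lo hx
  have e : mo R X' (vJ R X' a J') i m (xr R X s) - mo R X (vJ R X (h.tau a J') J) i m (xr R X s) =
      Wi.co (h.resJ J' i - J i) m s := by
    rw [h.mo_eq, h.co_vJ, mo, fx_xr h.lo, Wi.co_sub, ContinuousMap.sub_apply]
    by_cases hm : m = 0
    · subst hm; rw [Dr.co_vJ_zero, Dr.co_vJ_zero]; ring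
    · rw [Dr.co_vJ_ne _ _ _ _ _ hm, Dr.co_vJ_ne _ _ _ _ _ hm]
  rw [e, sig_xr h.lo]
  exact b3 m s

theorem Dr.xc_mono {J' J : Jt ℓ} {N N' : ℝ} (h : Xc R X X' J' J N) (hN : N ≤ N') :
    Xc R X X' J' J N' := fun i => by
  obtain ⟨β, b1, b2, b3⟩ := h i
  exact ⟨β, b1, b2.trans hN, b3⟩

theorem Dr.ex0 : Ex (13 / 8) (7 / 4) := by unfold Ex; norm_num

theorem Dr.pow_mul_le {X p q r : ℝ} (hX : 1 ≤ X) (h : p + q ≤ r) : X ^ p * X ^ q ≤ X ^ r := by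
  rw [← Real.rpow_add (by linarith)]
  exact Real.rpow_le_rpow_of_exponent_le hX h

theorem driftS_of (hA : ApS) (hL : LogS) (hM : M1S) (hW : WkS) : DriftS := by
  intro Ch hCh
  obtain ⟨CA, hCA, hA⟩ := hA
  obtain ⟨CL, hCL, hL⟩ := hL Ch (9 * CA) hCh (by positivity)
  obtain ⟨CM, eM, hCM, heM, hM⟩ := hM _ _ Dr.ex0
  obtain ⟨RW, c0, eW, cW, CW, hc0, heW, hcW, hCW, hW⟩ := hW _ _ Dr.ex0
  obtain ⟨cg, G⟩ := Dr.ex0.gg
  obtain ⟨ε, hε0, hε1, hε2⟩ : ∃ ε : ℝ, 0 < ε ∧ ε ≤ 1 / 10 ^ 5 ∧ ε ≤ eM :=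
    ⟨min (1 / 10 ^ 5) eM, lt_min (by norm_num) heM, min_le_left _ _, min_le_right _ _⟩
  obtain ⟨c1, hc1, c1a, c1b⟩ : ∃ c1 : ℝ, 0 < c1 ∧ c1 ≤ 1 / 4 ∧ 2 * c1 ≤ cW :=
    ⟨min (1 / 4) (cW / 2), lt_min (by norm_num) (by positivity), min_le_left _ _,
      by linarith [min_le_right (1 / 4) (cW / 2)]⟩
  obtain ⟨e0, he0, e0a, e0b, e0c, e0d⟩ :
      ∃ e0 : ℝ, 0 < e0 ∧ e0 ≤ 1 / 100 ∧ e0 ≤ eM ∧ 18 * e0 ≤ eW ∧ 3 * e0 ≤ c1 := by
    refine ⟨min (min (1 / 100) eM) (min (eW / 18) (c1 / 3)), by positivity,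
      (min_le_left _ _).trans (min_le_left _ _), (min_le_left _ _).trans (min_le_right _ _), ?_, ?_⟩
    · linarith [(min_le_right (min (1 / 100) eM) _).trans (min_le_left (eW / 18) (c1 / 3))]
    · linarith [(min_le_right (min (1 / 100) eM) _).trans (min_le_right (eW / 18) (c1 / 3))]
  have h4ε : 4 ≤ 4 / ε := by rw [le_div_iff₀ hε0]; norm_num at hε1; linarith
  refine ⟨max (4 / ε) RW, 4 / ε, c0, e0, c1, CL, hc0, he0, hc1, hCL, fun ℓ R c hR hℓ hc hcℓ => ?_⟩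
  have hR1 : 4 / ε ≤ R := (le_max_left _ _).trans hR
  have hR2 : RW ≤ R := (le_max_right _ _).trans hR
  have hR4 : 4 ≤ R := h4ε.trans hR1
  refine ⟨CW * ((1 + 4 / c) ^ 2 * 3 * e0 + (CL + 2 * Ch) + 2 * CM), by positivity,
    fun K X X' a h' b J' hK hX hKX hXX hadm ha hh' hS hB => ?_⟩
  have h : Cut2 R X X' := ⟨by linarith, hXX⟩
  have hK0 : 0 ≤ K := by linarith
  have hX1 : 1 ≤ X := by linarith
  have hX0 : 0 < X := by linarith
  have hK4 : 4 * K ≤ X ^ 2 := four_le_of_sqrt hK0 hKX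
  have hOk : Ok ε a R X' := hadm.ok' hε1 hε0 hR1 hK (by linarith) (hKX.trans hXX)
  have hrho : ∀ x ∈ Icc R X', 0 < rho K X' x ∧ rho K X' x ≤ (et a x).re := fun x hx =>
    ⟨R2.rho_pos' hK0 (by linarith [hx.1]) hx.2,
      hadm.rho_le (by linarith) (by nlinarith [hx.1])⟩
  have hm' := xr_mem' h.lo'
  have hPt : ∀ s : II, Pt ε a (xr R X' s) := fun s => hOk.2 _ (hm' s)
  have hRX : R ≤ X := by linarith
  have hsub : Icc X X' ⊆ Icc R X' := Icc_subset_Icc hRX le_rfl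
  -- the scalar lemma
  obtain ⟨l1, l2⟩ := hL ε X X' a (mo R X' J' 0 0) (mo R X' J' 1 0) (mo R X' J' 2 0) hXX
    (fun x hx => hOk.2 x (hsub hx)) (ha.trans c1a) (((hS.jet.d0 0).dv h.lo').mono hRX le_rfl)
    (((hS.jet.d1 0).dv h.lo').mono hRX le_rfl) ((fx_right h.lo' _).trans hS.bc.far0)
    (by
      have e : mo R X' J' 1 0 X' = h' :=
        ((fx_right h.lo' _).trans (hS.bc.slope 0)).trans (Wi.co_single_self _ _)
      rwa [e])
    (fun x hx => by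
      have k4 := (hA ℓ R K _ _ cg ε e0 X' a _ J' G h.lo' hOk hrho e0a hS hB x (hsub hx)).1
      have hp := hOk.2 x (hsub hx)
      have k5 := Dr.W_div_le (g := 13 / 8) (g' := 7 / 4) hp (by norm_num) (by norm_num)
      have k6 : (W (13 / 8) (7 / 4) a x / ‖et a x‖) ^ 2 ≤ 9 / x ^ 3 := by
        have h1 : 1 ≤ x := by linarith [hp.x_ge]
        refine (pow_le_pow_left₀ (div_pos (hp.W_pos _ _) hp.npos).le k5 2).trans ?_
        have := Dr.pow_mul_le (p := -(13 / 8)) (q := -(13 / 8)) (r := -((3 : ℕ) : ℝ)) h1 (by norm_num)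
        rw [Real.rpow_neg hp.xpos.le ((3 : ℕ) : ℝ), Real.rpow_natCast] at this
        rw [mul_pow, sq (x ^ _), div_eq_mul_inv 9]
        linarith
      obtain ⟨s, rfl⟩ := exists_xr h.lo' (hsub hx)
      have k0 := hB.b0.zero_le (fun s => (hrho _ (hm' s)).1) (fun s => (hPt s).W_pos _ _) s
      have k1 := hB.b1.zero_le (fun s => inv_pos.2 (hPt s).xpos)
        (fun s => div_pos ((hPt s).W_pos _ _) (mul_pos (hPt s).xpos (hPt s).npos)) s
      have k2 := hB.b2.zero_le (fun _ => one_pos)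
        (fun s => div_pos ((hPt s).W_pos _ _) (hPt s).npos) s
      refine ⟨?_, ?_, ?_, k4.trans ?_⟩
      · rw [mo, fx_xr h.lo']
        have := hrho _ (hm' s)
        nlinarith [this.1, this.2]
      · rw [mo, fx_xr h.lo']
        rw [← div_eq_mul_inv, le_div_iff₀ hp.xpos] at k1
        linarith
      · rw [mo, fx_xr h.lo']; linarith
      · rw [mul_comm 9 CA, mul_div_assoc]; gcongr)
  have hR2' : 2 ≤ R := by linarith
  have ha2 : ‖a‖ * X ^ 2 ≤ 1 / 2 := by linarith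
  have hdt : ‖h.dt J'‖ * X ^ 2 ≤ c1 := by
    have h1 := h.norm_dt hR2' hK0 ha2 hB
    have h2 : rho K X' X ≤ 1 :=
      R2.rho_le_one (by nlinarith) (by linarith) (by nlinarith)
    have h3 : X ^ 2 ≤ 3 * ((X ^ 2 - 2) / 2) := by nlinarith
    nlinarith [norm_nonneg (h.dt J')]
  refine ⟨l1, ?_, fun h0 J hh0 hS' hB' => ?_⟩
  · rw [h.tauX_eq, Cut2.tau, sub_sub_cancel_left, norm_neg, le_div_iff₀ (by positivity)]
    exact hdt
  rw [h.tauX_eq] at hS' hB' ⊢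
  have hτ : ‖h.tau a J'‖ * X ^ 2 ≤ cW := by
    have := mul_le_mul_of_nonneg_right (norm_sub_le a (h.dt J')) (sq_nonneg X)
    rw [Cut2.tau]; linarith
  have hB1 := h.inB hR2' ⟨hK0, by linarith, by norm_num, by norm_num, ha2, by linarith⟩ hS.jet hB
  have hPX : ∀ s : II, Pt ε a (xr R X s) := fun s => hOk.2 _ (h.mem s)
  obtain ⟨β, bp, -, b1, b2, -, b4⟩ := (h.wb hB.b1).nf i0 (inv_pos.2 (hPX _).xpos)
    (div_pos ((hPX _).W_pos _ _) (mul_pos (hPX _).xpos (hPX _).npos))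
  have hs := (b1.hasSum.mul_left ((1 + 4 / c) ^ 2 * 3 * X ^ (-21 / 8 : ℝ))).add
    (hasSum_ite_eq (0 : ℤ) ((CL + 2 * Ch) / X ^ 3))
  have key := hW ℓ R K X _ _ _ _ _ _ hR2 hℓ hX hK0 hK4 hτ (h.sol (by linarith) hS)
    (Dr.inB_mono hB1 e0c) hS' (Dr.inB_mono hB' (by linarith)) rfl hs.summable (fun m => ?_)
  · refine Dr.xc_mono (h.xc a key) ?_
    rw [hs.tsum_eq, mul_assoc CW]
    refine mul_le_mul_of_nonneg_left ?_ hCW.le
    have m1 : ∀ m : ℤ, m ^ 2 = 1 → ‖Wi.co (h.resJ J' 0) m i1 - 0‖ ≤ CM * X ^ (-(2 * (13 / 8)) : ℝ) :=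
      fun m hm => by
        have hm0 : m ≠ 0 := by rintro rfl; simp at hm
        have := hM ℓ R K ε e0 X' a _ J' h.lo' hOk hrho hε2 e0b hS hB rfl m hm
          (Wi.co_single_ne hm0 _) X ⟨hRX, hXX⟩
        rw [sub_zero, h.co_resJ_ne _ _ hm0, ← h.mo_X]
        have := mul_nonneg hX0.le (norm_nonneg (mo R X' J' 1 m X))
        linarith
    have p1 := Dr.pow_mul_le (p := -15 / 8) (q := -21 / 8) (r := -33 / 8) hX1 (by norm_num)
    have p2 := Dr.pow_mul_le (p := -15 / 8) (q := -((3 : ℕ) : ℝ)) (r := -33 / 8) hX1 (by norm_num)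
    have p3 := Dr.pow_mul_le (p := -7 / 8) (q := -(2 * (13 / 8))) (r := -33 / 8) hX1 (by norm_num)
    rw [Real.rpow_neg hX0.le ((3 : ℕ) : ℝ), Real.rpow_natCast] at p2
    have q1 : 0 ≤ X ^ (-15 / 8 : ℝ) := by positivity
    have q2 : 0 ≤ X ^ (-21 / 8 : ℝ) := by positivity
    have q3 : 0 ≤ X ^ (-7 / 8 : ℝ) := by positivity
    calc _ ≤ X ^ (-15 / 8 : ℝ) * ((1 + 4 / c) ^ 2 * 3 * X ^ (-21 / 8 : ℝ) * e0 +
            (CL + 2 * Ch) / X ^ 3) + X ^ (-7 / 8 : ℝ) *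
            (CM * X ^ (-(2 * (13 / 8)) : ℝ) + CM * X ^ (-(2 * (13 / 8)) : ℝ)) := by
          gcongr
          · exact m1 1 (by norm_num)
          · exact m1 (-1) (by norm_num)
      _ = (1 + 4 / c) ^ 2 * 3 * e0 * (X ^ (-15 / 8 : ℝ) * X ^ (-21 / 8 : ℝ)) +
            (CL + 2 * Ch) * (X ^ (-15 / 8 : ℝ) * (X ^ 3)⁻¹) +
            2 * CM * (X ^ (-7 / 8 : ℝ) * X ^ (-(2 * (13 / 8)) : ℝ)) := by ring
      _ ≤ (1 + 4 / c) ^ 2 * 3 * e0 * X ^ (-33 / 8 : ℝ) + (CL + 2 * Ch) * X ^ (-33 / 8 : ℝ) +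
            2 * CM * X ^ (-33 / 8 : ℝ) := by gcongr
      _ = _ := by ring
  · change _ * ‖Wi.co (farH (h.resJ J') - Wi.single _ 0 h0) m‖ ≤ _
    have hC0 : 0 ≤ (1 + 4 / c) ^ 2 * 3 * X ^ (-21 / 8 : ℝ) * β m := by
      have := bp m; positivity
    rw [Wi.co_sub]
    by_cases hm : m = 0
    · subst hm
      rw [h.far_slope_0 hS.jet, Wi.co_single_self, ℓ.zero, if_pos rfl, ← h.mo_X, h.dt_eq]
      have e : mo R X' J' 1 0 X + -(mo R X' J' 0 0 X / (((X : ℂ) ^ 2 - 2) / 2)) * X =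
          mo R X' J' 1 0 X - X * (mo R X' J' 0 0 X / (((X : ℂ) ^ 2 - 2) / 2)) := by ring
      have := norm_sub_le (mo R X' J' 1 0 X - X * (mo R X' J' 0 0 X / (((X : ℂ) ^ 2 - 2) / 2))) h0
      rw [e, add_div]
      simp only [Int.cast_zero, abs_zero, add_zero, one_pow, zero_div, Real.exp_zero, one_mul]
      linarith
    · rw [h.far_slope_ne hS.jet hm, Wi.co_single_ne hm, sub_zero, if_neg hm, add_zero]
      have k1 := b4 m hm i1
      have hp := hPX i1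
      rw [Res.sig_two, one_mul, h.co_resW_apply, xr_i1] at k1
      rw [xr_i1] at hp
      have k2 : W (13 / 8) (7 / 4) a X / (X * ‖et a X‖) ≤ 3 * X ^ (-21 / 8 : ℝ) := by
        rw [mul_comm X, ← div_div, div_le_iff₀ hX0]
        refine (Dr.W_div_le hp (by norm_num) (by norm_num)).trans_eq ?_
        rw [mul_assoc, ← Real.rpow_add_one hX0.ne']
        norm_num
      calc _ ≤ (1 + 4 / c) ^ 2 * Real.exp (ℓ.l m) * ‖Wi.co (J' 1) m (h.phi i1)‖ :=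
            mul_le_mul_of_nonneg_right (Dr.sq_le_exp hc (abs_nonneg _) (hcℓ m)) (norm_nonneg _)
        _ ≤ (1 + 4 / c) ^ 2 * (β m * (3 * X ^ (-21 / 8 : ℝ))) := by
            rw [mul_assoc]
            exact mul_le_mul_of_nonneg_left
              (k1.trans (mul_le_mul_of_nonneg_left k2 (bp m))) (by positivity)
        _ = _ := by ring

end Crest.Agent.N250.B1

end
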