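import Crest.Agent.N250.B1.DrS
import Crest.Agent.N250.B1.Low

/-!
# Row 250, block B1 (helper77): the logarithmic drift of the mode `0`
-/

set_option autoImplicit false
open Set Filter Topology

noncomputable section

namespace Crest.Agent.N250.B1

namespace Lg

/-- the pointwise bound of the derivative of the almost conserved quantity -/
theorem psi_pt {t u j M rr : ℝ} {α y xy ax p q r iv iq Λ : ℂ} (ht : 0 ≤ t) (hu : 1 ≤ 3 * u)
    (hj0 : 0 ≤ j) (hj : j ≤ 3 * t ^ 2) (hM : 560 ≤ M) (hα : ‖α‖ ≤ 13 * t ^ 2)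
    (hy : ‖y‖ ≤ M * t ^ 3 * u) (hxy : ‖xy‖ ≤ M * t ^ 2 * u) (hax : ‖ax‖ ≤ 13 * t)
    (hp : ‖p‖ ≤ 10 * t) (hq : ‖q‖ ≤ M * t ^ 2 * u) (hr : ‖r‖ ≤ rr) (hiv : ‖iv‖ ≤ 2 * u)
    (hiq : ‖iq‖ ≤ u) :
    ‖2 * (α * y * j * Λ) + (2 * (t * t * j) + 4 * (j * j)) * y - 2 * (α * α * t * j * iv) -
      α * α * (2 * α + xy) * t * iv - 2 * (t * j * (p * p * q * iq)) +
      t * j * (p * p * p * p * iv * iq) - t * j * (y * (p + ax) * iv) - 2 * (t * j * r)‖ ≤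
      2000 * M * t ^ 7 * u ^ 2 + 39 * M * t ^ 7 * ‖Λ‖ ^ 2 + 6 * rr * t ^ 3 := by
  have hu0 : 0 ≤ u := by linarith
  have hM0 : 0 ≤ M := by linarith
  have nt : ‖(t : ℂ)‖ ≤ t := by rw [Complex.norm_real, Real.norm_of_nonneg ht]
  have nj : ‖(j : ℂ)‖ ≤ 3 * t ^ 2 := by rw [Complex.norm_real, Real.norm_of_nonneg hj0]; exact hj
  have n2 : ‖(2 : ℂ)‖ ≤ 2 := by simp
  have n4 : ‖(4 : ℂ)‖ ≤ 4 := by simp
  have m := fun {a b : ℂ} {A B : ℝ} (h : ‖a‖ ≤ A) (k : ‖b‖ ≤ B) => norm_mul_le_of_le h k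
  have s := fun {a b : ℂ} {A B : ℝ} (h : ‖a‖ ≤ A) (k : ‖b‖ ≤ B) => norm_add_le_of_le h k
  have d := fun {a b : ℂ} {A B : ℝ} (h : ‖a‖ ≤ A) (k : ‖b‖ ≤ B) => norm_sub_le_of_le h k
  refine (d (d (s (d (d (d (s (m n2 (m (m (m hα hy) nj) le_rfl))
    (m (s (m n2 (m (m nt nt) nj)) (m n4 (m nj nj))) hy))
    (m n2 (m (m (m (m hα hα) nt) nj) hiv)))
    (m (m (m (m hα hα) (s (m n2 hα) hxy)) nt) hiv))
    (m n2 (m (m nt nj) (m (m (m hp hp) hq) hiq))))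
    (m (m nt nj) (m (m (m (m (m hp hp) hp) hp) hiv) hiq)))
    (m (m nt nj) (m (m hy (s hp hax)) hiv))) (m n2 (m (m nt nj) hr))).trans ?_
  have h7 : 0 ≤ t ^ 7 := by positivity
  have a1 : u ≤ 3 * u ^ 2 := by nlinarith
  have a2 : 2 * (u * ‖Λ‖) ≤ u ^ 2 + ‖Λ‖ ^ 2 := by nlinarith [sq_nonneg (u - ‖Λ‖)]
  have a3 : 560 * u ^ 2 ≤ M * u ^ 2 := by gcongr
  have b1 := mul_le_mul_of_nonneg_left a1 h7
  have b2 := mul_le_mul_of_nonneg_left a2 (mul_nonneg hM0 h7)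
  have b3 := mul_le_mul_of_nonneg_left a3 h7
  have b4 := mul_le_mul_of_nonneg_left a1 (mul_nonneg hM0 h7)
  have b5 : 0 ≤ t ^ 7 * u ^ 2 := by positivity
  nlinarith

variable {ε X X' x : ℝ} {a : ℂ}

theorem hasDerivAt_re (a : ℂ) (x : ℝ) : HasDerivAt (fun y : ℝ => (et a y).re) (a.re * x) x := by
  have := Complex.reCLM.hasFDerivAt.comp_hasDerivAt x (hasDerivAt_et a x)
  exact (show HasDerivAt (fun y : ℝ => (et a y).re) _ x from this).congr_deriv (by simp)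

/-- integration of `A₁ x⁻⁷ (Re η)⁻² + A₂ x⁻⁶` -/
theorem int_le (hX : X ≤ X') (hP : ∀ x ∈ Icc X X', Pt ε a x) {f f1 : ℝ → ℂ} (hf : Dv X X' f f1)
    {A1 A2 : ℝ} (h1 : 0 ≤ A1) (h2 : 0 ≤ A2)
    (h : ∀ x ∈ Icc X X', ‖f1 x‖ ≤ A1 * (x⁻¹ ^ 7 * ((et a x).re)⁻¹ ^ 2) + A2 * x⁻¹ ^ 6) :
    ‖f X - f X'‖ ≤ 9 * A1 * (X⁻¹ ^ 6 * ((et a X').re)⁻¹) + A2 * X⁻¹ ^ 5 := by
  have hP' := hP X' (right_mem_Icc.2 hX)
  have h0 := hP'.repos
  have hΩ : Dv X X' (fun x => A1 * (x⁻¹ ^ 6 * (9 * ((et a X').re)⁻¹ - ((et a x).re)⁻¹)) + A2 * x⁻¹ ^ 5)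
      fun x => -(A1 * (x⁻¹ ^ 7 * ((et a x).re)⁻¹ ^ 2 * (54 * ((et a X').re)⁻¹ * (et a x).re ^ 2 -
        6 * (et a x).re - a.re * x ^ 2)) + 5 * (A2 * x⁻¹ ^ 6)) := by
    refine Dv.of_hasDerivAt fun x hx => ?_
    have h1 := (hP x hx).repos.ne'
    have h2 := (hP x hx).xpos.ne'
    refine (((((hasDerivAt_inv h2).fun_pow 6).fun_mul (((hasDerivAt_re a x).fun_inv h1).const_sub
      (9 * ((et a X').re)⁻¹))).const_mul A1).fun_add
      (((hasDerivAt_inv h2).fun_pow 5).const_mul A2)).congr_deriv ?_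
    simp; field_simp; ring
  have := Dv.back (β := fun _ => 0) (G := f1) (y := fun x => f x - f X') (M := 1)
    (γ := fun x => A1 * (x⁻¹ ^ 7 * ((et a x).re)⁻¹ ^ 2) + A2 * x⁻¹ ^ 6) continuousOn_const
    (fun x hx => by simpa using (hf x hx).sub_const (f X')) hΩ zero_le_one
    (fun x hx => ?_) (fun x hx => by rw [one_mul]; exact h x hx) ?_ X (left_mem_Icc.2 hX)
  · rw [one_mul] at this
    refine this.trans ?_
    have g1 := (hP X (left_mem_Icc.2 hX)).repos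
    have g2 := (hP X (left_mem_Icc.2 hX)).xpos
    have : 0 ≤ A1 * (X⁻¹ ^ 6 * ((et a X).re)⁻¹) := by positivity
    linarith
  · have g := hP x hx
    have g1 := g.repos
    have g2 := g.xpos
    have g3 : 1 ≤ 3 * ((et a X').re)⁻¹ := by
      rw [← div_eq_mul_inv, le_div_iff₀ h0]; linarith [hP'.re_le_three]
    have g4 : a.re * x ^ 2 = 2 * ((et a x).re - 1 + a.re) := by rw [et_re]; ring
    have g5 := (le_abs_self _).trans ((Complex.abs_re_le_norm a).trans g.a_le_three)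
    have g6 := g.small
    have g7 : 1 ≤ 54 * ((et a X').re)⁻¹ * (et a x).re ^ 2 - 6 * (et a x).re - a.re * x ^ 2 := by
      have := mul_le_mul_of_nonneg_right g3 (sq_nonneg (et a x).re)
      norm_num at g6
      nlinarith [sq_nonneg ((et a x).re - 2 / 9)]
    have g8 : 0 ≤ A1 * (x⁻¹ ^ 7 * ((et a x).re)⁻¹ ^ 2) := by positivity
    have g9 : 0 ≤ A2 * x⁻¹ ^ 6 := by positivity
    have := mul_le_mul_of_nonneg_left g7 g8
    simp only [Complex.zero_re, zero_mul]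
    linarith
  · have := hP'.xpos
    have e : 9 * ((et a X').re)⁻¹ - ((et a X').re)⁻¹ = 8 * ((et a X').re)⁻¹ := by ring
    simp only [sub_self, norm_zero, e]
    positivity

/-- the hypotheses on the mode `0` -/
structure Md0 (ε X X' rr : ℝ) (a : ℂ) (V p q : ℝ → ℂ) : Prop where
  le : X ≤ X'
  pt : ∀ x ∈ Icc X X', Pt ε a x
  dV : Dv X X' V p
  dp : Dv X X' p q
  v : ∀ x ∈ Icc X X', ‖V x - et a x‖ ≤ (et a x).re / 10
  p1 : ∀ x ∈ Icc X X', ‖p x‖ ≤ 10 / x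
  q1 : ∀ x ∈ Icc X X', ‖q x‖ ≤ 1
  eq : ∀ x ∈ Icc X X', ‖q x - x / 2 * p x + V x - 1 - p x ^ 2 * (1 + q x) / (2 * V x + p x ^ 2)‖ ≤
    rr * x⁻¹ ^ 3
  rr0 : 0 ≤ rr
  far : V X' = et a X'

/-- `α = (V - 1) / J` -/
def al (V : ℝ → ℂ) (x : ℝ) : ℂ := (V x - 1) / (((x : ℂ) ^ 2 - 2) / 2)

/-- `y = J α'` -/
def yy (V p : ℝ → ℂ) (x : ℝ) : ℂ := p x - x * al V x

/-- the right hand side of the equation -/
def GG (V p q : ℝ → ℂ) (x : ℝ) : ℂ := q x - x / 2 * p x + V x - 1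

/-- `log x² - Log V` -/
def LL (V : ℝ → ℂ) (x : ℝ) : ℂ := (Real.log (x ^ 2) : ℝ) - Complex.log (V x)

/-- the almost conserved quantity -/
def Psi (V p : ℝ → ℂ) (x : ℝ) : ℂ :=
  al V x + al V x ^ 2 * LL V x - ((2 * (x⁻¹ * (2 / (x ^ 2 - 2))) : ℝ) : ℂ) * yy V p x

theorem J_ne (h : Pt ε a x) : (x : ℂ) ^ 2 - 2 ≠ 0 := by
  exact_mod_cast h.sq_sub_pos.ne'

theorem j_le (h : Pt ε a x) : 0 ≤ 2 / (x ^ 2 - 2) ∧ 2 / (x ^ 2 - 2) ≤ 3 * x⁻¹ ^ 2 := by
  have h1 := h.sq_sub_pos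
  have h2 := h.x_ge
  refine ⟨by positivity, ?_⟩
  rw [inv_pow, ← div_eq_mul_inv, div_le_div_iff₀ h1 (by positivity)]
  nlinarith

theorem u_ge (h : Pt ε a x) : 1 ≤ 3 * ((et a x).re)⁻¹ := by
  rw [← div_eq_mul_inv, le_div_iff₀ h.repos]; linarith [h.re_le_three]

theorem tu_le (h : Pt ε a x) : x⁻¹ ^ 2 ≤ (et a x).re / 10 ^ 5 := by
  have h1 := h.x_le
  have h2 := h.small
  have h3 := h.xpos
  have h4 := h.repos
  rw [inv_pow, inv_le_iff_one_le_mul₀ (by positivity)]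
  calc _ ≤ _ := h1
    _ ≤ 1 / 10 ^ 5 * x ^ 2 * (et a x).re := by gcongr
    _ = _ := by ring

theorem hx_c (x : ℝ) : HasDerivAt (fun y : ℝ => (y : ℂ)) 1 x := Complex.ofRealCLM.hasDerivAt

namespace Md0
variable {rr M : ℝ} {V p q : ℝ → ℂ}

theorem re_V (h : Md0 ε X X' rr a V p q) (hx : x ∈ Icc X X') : 9 / 10 * (et a x).re ≤ (V x).re := by
  have h1 := (abs_le.1 ((Complex.abs_re_le_norm _).trans (h.v x hx))).1
  rw [Complex.sub_re] at h1
  linarith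

theorem V_ge (h : Md0 ε X X' rr a V p q) (hx : x ∈ Icc X X') : (et a x).re / 2 ≤ ‖V x‖ := by
  linarith [h.re_V hx, Complex.re_le_norm (V x), (h.pt x hx).repos]

theorem V_le (h : Md0 ε X X' rr a V p q) (hx : x ∈ Icc X X') : ‖V x‖ ≤ 33 / 10 := by
  have := norm_le_norm_add_norm_sub' (V x) (et a x)
  linarith [h.v x hx, (h.pt x hx).norm_le, (h.pt x hx).re_le_three]

theorem V_ne (h : Md0 ε X X' rr a V p q) (hx : x ∈ Icc X X') : V x ≠ 0 :=
  norm_pos_iff.1 (by linarith [h.V_ge hx, (h.pt x hx).repos])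

theorem p_le (h : Md0 ε X X' rr a V p q) (hx : x ∈ Icc X X') : ‖p x‖ ≤ 10 * x⁻¹ :=
  (h.p1 x hx).trans_eq (div_eq_mul_inv _ _)

theorem Q_ge (h : Md0 ε X X' rr a V p q) (hx : x ∈ Icc X X') :
    3 / 2 * (et a x).re ≤ ‖2 * V x + p x ^ 2‖ := by
  have h1 : ‖p x ^ 2‖ ≤ (10 * x⁻¹) ^ 2 := by
    rw [norm_pow]; exact pow_le_pow_left₀ (norm_nonneg _) (h.p_le hx) 2
  have h2 := tu_le (h.pt x hx)
  have h3 := norm_sub_le (2 * V x + p x ^ 2) (p x ^ 2)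
  rw [add_sub_cancel_right, norm_mul, Complex.norm_two] at h3
  have h4 := (h.pt x hx).repos
  linarith [h.re_V hx, Complex.re_le_norm (V x), mul_pow 10 x⁻¹ 2]

theorem Q_ne (h : Md0 ε X X' rr a V p q) (hx : x ∈ Icc X X') : 2 * V x + p x ^ 2 ≠ 0 :=
  norm_pos_iff.1 (by linarith [h.Q_ge hx, (h.pt x hx).repos])

theorem iq_le (h : Md0 ε X X' rr a V p q) (hx : x ∈ Icc X X') :
    ‖(2 * V x + p x ^ 2)⁻¹‖ ≤ 2 / 3 * ((et a x).re)⁻¹ := by
  have h4 := (h.pt x hx).repos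
  rw [norm_inv]
  refine (inv_anti₀ (by positivity) (h.Q_ge hx)).trans_eq (by field_simp)

theorem iv_le (h : Md0 ε X X' rr a V p q) (hx : x ∈ Icc X X') :
    ‖(V x)⁻¹‖ ≤ 2 * ((et a x).re)⁻¹ := by
  have h4 := (h.pt x hx).repos
  rw [norm_inv]
  refine (inv_anti₀ (by positivity) (h.V_ge hx)).trans_eq (by field_simp)

theorem al_eq (V : ℝ → ℂ) (x : ℝ) : al V x = (V x - 1) * ((2 / (x ^ 2 - 2) : ℝ) : ℂ) := by
  unfold al; push_cast; rw [div_div_eq_mul_div, mul_div_assoc]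

theorem al_le (h : Md0 ε X X' rr a V p q) (hx : x ∈ Icc X X') : ‖al V x‖ ≤ 13 * x⁻¹ ^ 2 := by
  obtain ⟨h1, h2⟩ := j_le (h.pt x hx)
  have h3 : ‖V x - 1‖ ≤ 43 / 10 := (norm_sub_le _ _).trans (by rw [norm_one]; linarith [h.V_le hx])
  rw [al_eq, norm_mul, Complex.norm_real, Real.norm_of_nonneg h1]
  nlinarith [mul_le_mul h3 h2 h1 (by norm_num), sq_nonneg x⁻¹]

theorem G_le (h : Md0 ε X X' rr a V p q) (hx : x ∈ Icc X X') :
    ‖GG V p q x‖ ≤ (140 + rr) * (x⁻¹ ^ 2 * ((et a x).re)⁻¹) := by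
  have hP := h.pt x hx
  have h0 := hP.xpos
  have h1 : ‖p x ^ 2 * (1 + q x) / (2 * V x + p x ^ 2)‖ ≤
      (10 * x⁻¹) ^ 2 * (1 + 1) * (2 / 3 * ((et a x).re)⁻¹) := by
    rw [div_eq_mul_inv]
    refine norm_mul_le_of_le (norm_mul_le_of_le ?_ (norm_add_le_of_le norm_one.le (h.q1 x hx)))
      (h.iq_le hx)
    rw [norm_pow]; exact pow_le_pow_left₀ (norm_nonneg _) (h.p_le hx) 2
  have h2 : rr * x⁻¹ ^ 3 ≤ rr * (x⁻¹ ^ 2 * ((et a x).re)⁻¹) := by
    refine mul_le_mul_of_nonneg_left ?_ h.rr0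
    rw [pow_succ]
    refine mul_le_mul_of_nonneg_left (inv_anti₀ hP.repos ?_) (sq_nonneg _)
    linarith [hP.re_le_three, hP.x_ge]
  have h3 := norm_le_norm_add_norm_sub' (GG V p q x) (p x ^ 2 * (1 + q x) / (2 * V x + p x ^ 2))
  have h4 : ‖GG V p q x - p x ^ 2 * (1 + q x) / (2 * V x + p x ^ 2)‖ ≤ _ := h.eq x hx
  have h6 : 0 ≤ x⁻¹ ^ 2 * ((et a x).re)⁻¹ := by have := hP.repos; positivity
  nlinarith

theorem d_al (h : Md0 ε X X' rr a V p q) :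
    Dv X X' (al V) fun x => yy V p x * ((2 / (x ^ 2 - 2) : ℝ) : ℂ) := fun x hx => by
  have hJ := J_ne (h.pt x hx)
  have := ((h.dV x hx).sub_const 1).fun_div
    (((((hx_c x).fun_pow 2).sub_const 2).div_const 2).hasDerivWithinAt) (div_ne_zero hJ two_ne_zero)
  refine HasDerivWithinAt.congr_deriv this ?_
  unfold yy al; push_cast; field_simp

theorem d_yy (h : Md0 ε X X' rr a V p q) :
    Dv X X' (yy V p) fun x => ((x / 2 - l0 x : ℝ) : ℂ) * yy V p x + GG V p q x := fun x hx => by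
  have hJ := J_ne (h.pt x hx)
  have := (h.dp x hx).fun_sub ((hx_c x).hasDerivWithinAt.fun_mul (h.d_al x hx))
  refine HasDerivWithinAt.congr_deriv this ?_
  unfold yy al GG l0; push_cast; field_simp; ring

theorem al_far (h : Md0 ε X X' rr a V p q) : al V X' = a := by
  have hJ := J_ne (h.pt X' (right_mem_Icc.2 h.le))
  unfold al; rw [h.far]; unfold et; field_simp; ring

/-- the bootstrap bound -/
theorem yy_le (h : Md0 ε X X' rr a V p q) (hM : 560 + 4 * rr ≤ M)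
    (hf : ‖p X' - a * X'‖ ≤ M / (X' ^ 3 * (et a X').re)) :
    ∀ x ∈ Icc X X', ‖yy V p x‖ ≤ M * (x ^ 3 * (et a x).re)⁻¹ := by
  have hΩ : Dv X X' (fun x => (x ^ 3 * (et a x).re)⁻¹)
      fun x => -(3 / x + a.re * x / (et a x).re) * (x ^ 3 * (et a x).re)⁻¹ := by
    refine Dv.of_hasDerivAt fun x hx => ?_
    have h1 := (h.pt x hx).repos
    have h2 := (h.pt x hx).xpos
    refine ((((hasDerivAt_id' x).fun_pow 3).fun_mul (hasDerivAt_re a x)).fun_inv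
      (by positivity)).congr_deriv ?_
    simp; field_simp
  refine Dv.back (γ := fun x => x / 4 * (x ^ 3 * (et a x).re)⁻¹) ?_ h.d_yy hΩ (by linarith [h.rr0])
    (fun x hx => ?_) (fun x hx => (h.G_le hx).trans ?_) ?_
  · refine Complex.continuous_ofReal.comp_continuousOn ((by fun_prop : ContinuousOn
      (fun x : ℝ => x / 2) _).sub fun x hx => ?_)
    exact (h.pt x hx).hasDerivAt_l0.continuousAt.continuousWithinAt
  · have hP := h.pt x hx
    have h1 := hP.repos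
    have h2 := hP.xpos
    rw [Complex.ofReal_re, ← add_mul]
    refine mul_le_mul_of_nonneg_right ?_ (by positivity)
    have h3 : -(ε * x) ≤ a.re * x / (et a x).re := by
      rw [le_div_iff₀ h1]
      have := (abs_le.1 ((Complex.abs_re_le_norm a).trans hP.a_le)).1
      nlinarith
    have h4 := hP.l0_le
    have h5 := mul_le_mul_of_nonneg_right hP.small h2.le
    linarith
  · have h1 := (h.pt x hx).repos
    have h2 := (h.pt x hx).xpos
    have : x / 4 * (x ^ 3 * (et a x).re)⁻¹ = x⁻¹ ^ 2 * ((et a x).re)⁻¹ / 4 := by field_simp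
    rw [this]
    have : 0 ≤ x⁻¹ ^ 2 * ((et a x).re)⁻¹ := by positivity
    nlinarith
  · unfold yy; rw [h.al_far, mul_comm (X' : ℂ)]; exact hf

theorem q_le (h : Md0 ε X X' rr a V p q) (hM : 560 + 4 * rr ≤ M) (hx : x ∈ Icc X X')
    (hy : ‖yy V p x‖ ≤ M * (x ^ 3 * (et a x).re)⁻¹) :
    ‖x * yy V p x‖ ≤ M * x⁻¹ ^ 2 * ((et a x).re)⁻¹ ∧ ‖q x‖ ≤ M * x⁻¹ ^ 2 * ((et a x).re)⁻¹ := by
  have hP := h.pt x hx
  have h1 := hP.repos
  have h2 := hP.xpos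
  have hJ := J_ne hP
  have h3 : ‖x * yy V p x‖ ≤ M * x⁻¹ ^ 2 * ((et a x).re)⁻¹ := by
    rw [norm_mul, Complex.norm_real, Real.norm_of_nonneg h2.le]
    refine (mul_le_mul_of_nonneg_left hy h2.le).trans_eq (by field_simp)
  refine ⟨h3, ?_⟩
  have e : q x = GG V p q x + al V x + x * yy V p x / 2 := by
    unfold GG yy al; field_simp; ring
  have h4 : ‖q x‖ ≤ ‖GG V p q x‖ + ‖al V x‖ + ‖x * yy V p x‖ / 2 := by
    rw [e]; refine norm_add₃_le.trans_eq ?_; rw [norm_div, Complex.norm_two]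
  have h5 := mul_le_mul_of_nonneg_left (u_ge hP) (sq_nonneg x⁻¹)
  have h6 : 0 ≤ x⁻¹ ^ 2 * ((et a x).re)⁻¹ := by positivity
  nlinarith [h.G_le hx, h.al_le hx, h.rr0]

theorem LL_le (h : Md0 ε X X' rr a V p q) (hx : x ∈ Icc X X') : ‖LL V x‖ ^ 2 ≤ 144 * x := by
  have hP := h.pt x hx
  have h1 := hP.repos
  have h2 := hP.x_ge
  have h3 : 0 < ‖V x‖ := norm_pos_iff.2 (h.V_ne hx)
  have h4 : 0 ≤ Real.log (x ^ 2) := Real.log_nonneg (by nlinarith)
  have h5 : |Real.log ‖V x‖| ≤ Real.log (x ^ 2) := by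
    rw [abs_le]
    constructor
    · rw [← Real.log_inv, ← inv_pow]
      exact Real.log_le_log (by positivity) (by linarith [tu_le hP, h.V_ge hx])
    · exact Real.log_le_log h3 (by nlinarith [h.V_le hx])
  have h6 : ‖Complex.log (V x)‖ ≤ Real.log (x ^ 2) + 4 := by
    refine (Complex.norm_le_abs_re_add_abs_im _).trans ?_
    rw [Complex.log_re, Complex.log_im]
    linarith [Complex.abs_arg_le_pi (V x), Real.pi_lt_four]
  have h7 : 10 ≤ √x := Real.le_sqrt_of_sq_le (by linarith)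
  have h8 : Real.log (x ^ 2) ≤ 4 * √x := by
    have := Real.log_le_sub_one_of_pos (show 0 < √x by linarith)
    rw [Real.log_sqrt (by linarith)] at this
    rw [Real.log_pow]; push_cast; linarith
  have h9 : ‖LL V x‖ ≤ 12 * √x := by
    refine (norm_sub_le _ _).trans ?_
    rw [Complex.norm_real, Real.norm_of_nonneg h4]; linarith
  calc _ ≤ (12 * √x) ^ 2 := pow_le_pow_left₀ (norm_nonneg _) h9 2
    _ = _ := by rw [mul_pow, Real.sq_sqrt (by linarith)]; ring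

theorem d_LL (h : Md0 ε X X' rr a V p q) : Dv X X' (LL V) fun x => 2 / x - p x / V x := by
  intro x hx
  have hP := h.pt x hx
  have h2 := hP.xpos
  have h1 : HasDerivAt (fun x : ℝ => ((Real.log (x ^ 2) : ℝ) : ℂ)) (2 / x) x := by
    refine ((((hasDerivAt_id' x).fun_pow 2).log (by positivity)).ofReal_comp).congr_deriv ?_
    have : (x : ℂ) ≠ 0 := by exact_mod_cast h2.ne'
    push_cast; field_simp
  exact h1.hasDerivWithinAt.fun_sub ((h.dV x hx).clog_real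
    (Or.inl (by linarith [h.re_V hx, hP.repos])))

theorem d_Psi (h : Md0 ε X X' rr a V p q) (hM : 560 + 4 * rr ≤ M)
    (hf : ‖p X' - a * X'‖ ≤ M / (X' ^ 3 * (et a X').re)) :
    ∃ f1, Dv X X' (Psi V p) f1 ∧ ∀ x ∈ Icc X X', ‖f1 x‖ ≤
      2000 * M * (x⁻¹ ^ 7 * ((et a x).re)⁻¹ ^ 2) + (5616 * M + 6 * rr) * x⁻¹ ^ 6 := by
  have hk : Dv X X' (fun x => 2 * (x⁻¹ * (2 / (x ^ 2 - 2))))
      fun x => -(2 * (x⁻¹ ^ 2 * (2 / (x ^ 2 - 2))) + 2 * (2 / (x ^ 2 - 2)) ^ 2) := by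
    refine Dv.of_hasDerivAt fun x hx => ?_
    have h1 := (h.pt x hx).sq_sub_pos.ne'
    have h2 := (h.pt x hx).xpos.ne'
    refine (((hasDerivAt_inv h2).fun_mul ((hasDerivAt_const x 2).fun_div
      (((hasDerivAt_id' x).fun_pow 2).sub_const 2) h1)).const_mul 2).congr_deriv ?_
    simp; field_simp; ring
  refine ⟨_, fun x hx => ((h.d_al x hx).fun_add (((h.d_al x hx).fun_pow 2).fun_mul
    (h.d_LL x hx))).fun_sub ((hk.ofReal x hx).fun_mul (h.d_yy x hx)), fun x hx => ?_⟩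
  have hP := h.pt x hx
  have h1 := hP.repos
  have h2 := hP.xpos
  have hJ := J_ne hP
  have hV := h.V_ne hx
  have hQ := h.Q_ne hx
  have hx0 : (x : ℂ) ≠ 0 := by exact_mod_cast h2.ne'
  have hy := h.yy_le hM hf x hx
  obtain ⟨h3, h4⟩ := h.q_le hM hx hy
  have h5 : ‖al V x * x‖ ≤ 13 * x⁻¹ := by
    rw [norm_mul, Complex.norm_real, Real.norm_of_nonneg h2.le]
    exact (mul_le_mul_of_nonneg_right (h.al_le hx) h2.le).trans_eq (by field_simp)
  have h6 := psi_pt (Λ := LL V x) (by positivity) (u_ge hP) (j_le hP).1 (j_le hP).2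
    (by linarith [h.rr0]) (h.al_le hx)
    (hy.trans_eq (by field_simp)) h3 h5 (h.p_le hx) h4 (h.eq x hx) (h.iv_le hx)
    ((h.iq_le hx).trans (by have : 0 < ((et a x).re)⁻¹ := by positivity
                            linarith))
  have hM0 : 0 ≤ M := by linarith [h.rr0]
  have h7 : 39 * M * x⁻¹ ^ 7 * ‖LL V x‖ ^ 2 ≤ 5616 * M * x⁻¹ ^ 6 :=
    (mul_le_mul_of_nonneg_left (h.LL_le hx) (by positivity)).trans_eq (by field_simp; ring)
  refine le_trans (le_of_eq ?_) (h6.trans (by linarith))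
  congr 1
  have hQ' : V x * 2 + p x ^ 2 ≠ 0 := by rwa [mul_comm]
  unfold yy al GG l0
  push_cast
  field_simp
  ring

end Md0

end Lg

open Lg in
/-- **the logarithmic drift**: `τ = Lg.al V X = (V X - 1) / ((X² - 2) / 2)` -/
theorem log_drift {ε X X' rr M : ℝ} {a : ℂ} {V p q : ℝ → ℂ} (h : Md0 ε X X' rr a V p q)
    (hM : 560 + 4 * rr ≤ M) (hX : 1 / 2 ≤ (et a X).re)
    (hf : ‖p X' - a * X'‖ ≤ M / (X' ^ 3 * (et a X').re)) :
    ‖Gi.hat X (al V X) - Gi.hat X' a‖ ≤ 20000 * M * (1 / (X ^ 6 * (et a X').re) + 1 / X ^ 5) ∧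
    ‖yy V p X‖ ≤ 2 * M / X ^ 3 := by
  have hl := left_mem_Icc.2 h.le
  have hr := right_mem_Icc.2 h.le
  have hP := h.pt X hl
  have hP' := h.pt X' hr
  have h1 := hP.xpos
  have h2 := hP'.repos
  have hrr := h.rr0
  have hM0 : 0 < M := by linarith
  have e1 : et (al V X) X = V X := by
    have := J_ne hP
    unfold et al; field_simp; ring
  have k0 : ((et a X).re)⁻¹ ≤ 2 := (inv_anti₀ (by norm_num) hX).trans (by norm_num)
  refine ⟨?_, (h.yy_le hM hf X hl).trans ?_⟩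
  · obtain ⟨f1, hd1, hb⟩ := h.d_Psi hM hf
    have k1 := int_le h.le h.pt hd1 (by positivity) (by positivity) hb
    have k2 : ∀ x ∈ Icc X X', ‖((2 * (x⁻¹ * (2 / (x ^ 2 - 2))) : ℝ) : ℂ) * yy V p x‖ ≤
        6 * M * X⁻¹ ^ 6 * ((et a x).re)⁻¹ := fun x hx => by
      have g1 := (h.pt x hx).xpos
      have g2 := (h.pt x hx).repos
      have g3 : x⁻¹ ≤ X⁻¹ := inv_anti₀ h1 hx.1
      obtain ⟨g4, g5⟩ := j_le (h.pt x hx)
      have g6 := h.yy_le hM hf x hx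
      rw [norm_mul, Complex.norm_real, Real.norm_of_nonneg (by positivity)]
      calc _ ≤ 2 * (x⁻¹ * (3 * x⁻¹ ^ 2)) * (M * (x ^ 3 * (et a x).re)⁻¹) := by gcongr
        _ = 6 * M * x⁻¹ ^ 6 * ((et a x).re)⁻¹ := by field_simp; ring
        _ ≤ _ := by gcongr
    have e2 : Gi.hat X (al V X) - Gi.hat X' a = Psi V p X - Psi V p X' +
        ((2 * (X⁻¹ * (2 / (X ^ 2 - 2))) : ℝ) : ℂ) * yy V p X -
        ((2 * (X'⁻¹ * (2 / (X' ^ 2 - 2))) : ℝ) : ℂ) * yy V p X' := by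
      unfold Gi.hat Gi.Lam Psi LL
      rw [e1, h.al_far, h.far]; ring
    rw [e2]
    refine (norm_sub_le_of_le (norm_add_le_of_le k1 (k2 X hl)) (k2 X' hr)).trans ?_
    have k3 : ((et a X).re)⁻¹ ≤ 6 * ((et a X').re)⁻¹ := by linarith [u_ge hP']
    have k4 := mul_le_mul_of_nonneg_left k3 (show 0 ≤ 6 * M * X⁻¹ ^ 6 by positivity)
    have e3 : 1 / (X ^ 6 * (et a X').re) = X⁻¹ ^ 6 * ((et a X').re)⁻¹ := by field_simp
    have e4 : 1 / X ^ 5 = X⁻¹ ^ 5 := by field_simp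
    have k5 : 0 ≤ M * (X⁻¹ ^ 6 * ((et a X').re)⁻¹) := by positivity
    have k6 : 0 ≤ X⁻¹ ^ 5 := by positivity
    rw [e3, e4]
    nlinarith
  · rw [mul_inv]
    calc _ ≤ M * ((X ^ 3)⁻¹ * 2) := by gcongr
      _ = _ := by ring

open Lg in
theorem logS_holds : LogS := by
  intro Ch Cn hCh hCn
  refine ⟨20000 * (560 + 4 * Cn + Ch), by positivity,
    fun ε X X' a w p q hX hP ha hw hp hw0 hp0 hb => ?_⟩
  have hl := left_mem_Icc.2 hX
  have hr := right_mem_Icc.2 hX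
  have h : Md0 ε X X' Cn a (fun x => et a x + w x) (fun x => a * x + p x) fun x => a + q x := by
    refine ⟨hX, hP, (Dv.of_hasDerivAt fun x _ => hasDerivAt_et a x).add hw,
      (Dv.of_hasDerivAt fun x _ => by simpa using (hx_c x).const_mul a).add hp, fun x hx => ?_,
      fun x hx => ?_, fun x hx => ?_, fun x hx => ?_, hCn, by simp [hw0]⟩
    · rw [add_sub_cancel_left]; linarith [(hb x hx).1, (hP x hx).repos]
    · have g1 := (hP x hx).xpos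
      have g2 := mul_le_mul_of_nonneg_right (norm_add_le (a * x) (p x)) g1.le
      rw [norm_mul, Complex.norm_real, Real.norm_of_nonneg g1.le] at g2
      rw [le_div_iff₀ g1]
      nlinarith [(hb x hx).2.1, (hP x hx).a_sq_le]
    · have g1 := (hP x hx).small
      norm_num at g1
      linarith [norm_add_le a (q x), (hb x hx).2.2.1, (hP x hx).a_le_three]
    · refine le_trans (le_of_eq ?_) ((hb x hx).2.2.2.trans_eq (by rw [inv_pow, div_eq_mul_inv]))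
      congr 1
      unfold g0
      rw [← add_assoc 1 a]
      unfold et; ring
  have h1 := (hP X hl).xpos
  have h2 : 1 / 2 ≤ (et a X).re := by
    have g1 := (abs_le.1 (Complex.abs_re_le_norm a)).1
    have g2 := (hP X hl).sq_sub_pos
    rw [et_re]
    nlinarith [norm_nonneg a]
  have h3 := (hP X' hr).repos
  have h4 := (hP X' hr).xpos
  obtain ⟨k1, k2⟩ := log_drift h (M := 560 + 4 * Cn + Ch) (by linarith) h2 (by
    rw [add_sub_cancel_left]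
    refine hp0.trans ?_
    gcongr
    · linarith
    · exact (hP X' hr).re_le)
  have hJ := J_ne (hP X hl)
  have e1 : al (fun x => et a x + w x) X = a + w X / ((X ^ 2 - 2) / 2) := by
    unfold al et; field_simp; ring
  rw [e1] at k1
  refine ⟨k1, le_trans (le_of_eq ?_) (k2.trans ?_)⟩
  · unfold yy; rw [e1]; congr 1; ring
  · gcongr; norm_num

end Crest.Agent.N250.B1

end
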