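import Crest.Agent.N250.B1.M1
import Crest.Agent.N250.B1.DrS

/-!
# Row 250, block B1 (helper70): `M1S`
-/

set_option autoImplicit false
open Set Filter Topology

noncomputable section

namespace Crest.Agent.N250.B1

theorem m1S_of (hA : ApS) : M1S := by
  intro g g' hg
  obtain ⟨c, G⟩ := hg.gg
  obtain ⟨C, C0, hC⟩ := hA
  refine ⟨3600 * C, min (1 / 100) (1 / (2000 * C)), by positivity, by positivity, ?_⟩
  intro ℓ R K ε M X a D J hX ok hρ hε hM sol inb hD m hm hH x hx
  have e1 := min_le_left (1 / 100 : ℝ) (1 / (2000 * C))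
  have e2 := min_le_right (1 / 100 : ℝ) (1 / (2000 * C))
  have hR := ok.2 R (left_mem_Icc.2 ok.1.le)
  have ap := hC ℓ R K g g' c ε M X a D J G hX ok hρ (hM.trans e1) sol inb
  have d : C * (max M 0 + ε) ≤ 1 / 1000 := by
    have : max M 0 ≤ 1 / (2000 * C) := max_le (hM.trans e2) (by positivity)
    calc C * (max M 0 + ε) ≤ C * (1 / (2000 * C) + 1 / (2000 * C)) := by gcongr; exact hε.trans e2
      _ = 1 / 1000 := by field_simp; norm_num
  have z0 : mo R X J 0 m X = 0 := by
    rw [mo, fx_right hX]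
    rcases sq_eq_one_iff.1 hm with rfl | rfl
    · rw [sol.bc.farp]; exact congrArg Prod.fst hD
    · rw [sol.bc.farm]; exact congrArg Prod.snd hD
  have z1 : mo R X J 1 m X = 0 := by rw [mo, fx_right hX, sol.bc.slope]; exact hH
  have o : 0 ≤ 3 * C * W (2 * g) 1 a X := by
    have := (ok.2 X (right_mem_Icc.2 ok.1.le)).W_pos (2 * g) 1
    positivity
  have k := m1_ode (n := 2 * g) (A := 3 * C) (w := mo R X J 0 m) (p := mo R X J 1 m)
    (G := fun x => mo R X J 2 m x - x / 2 * mo R X J 1 m x - Vm a m x * mo R X J 0 m x) hm hR.xpos ok.1.le ok.2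
    (by linarith [G.lo]) ⟨(sol.jet.d0 m).dv hX, ((sol.jet.d1 m).dv hX).congr (fun _ _ => rfl) fun x _ => by
      simp only [mo, dr, Vx, Vm]; push_cast; ring⟩ (by have := hR.εpos; positivity) d (by positivity)
    (fun x hx => by
      have h := ok.2 x hx
      rw [show dr x * mo R X J 1 m x + Vx a m x * mo R X J 0 m x + (mo R X J 2 m x - x / 2 * mo R X J 1 m x -
        Vm a m x * mo R X J 0 m x) = mo R X J 2 m x by simp only [dr, Vx, Vm]; push_cast; ring]
      refine ((ap x hx).2 m hm).trans ?_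
      have a1 := mul_le_mul_of_nonneg_left (h.th_sq (g := g) (by linarith [G.lo']) G.hi') C0.le
      have a2 : 0 ≤ (et a x).re / ‖et a x‖ * (‖mo R X J 0 m x‖ / ‖et a x‖ + x * ‖mo R X J 1 m x‖ +
          ‖mo R X J 2 m x‖) := by have := h.repos; have := h.xpos; positivity
      have a3 := mul_le_mul_of_nonneg_right (mul_le_mul_of_nonneg_left (le_max_left M 0) C0.le) a2
      nlinarith) (by simpa [z0] using o) (by simpa [z0, z1] using o) x hx
  have h := ok.2 x hx
  have r : 0 < x ^ (-(2 * g)) := Real.rpow_pos_of_pos h.xpos _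
  rw [W_one] at k
  nlinarith [mul_le_mul_of_nonneg_left h.norm_le (mul_pos C0 r).le, k.1, k.2, mul_pos C0 r]

end Crest.Agent.N250.B1
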