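import Crest.Agent.N250.B1.Drift
import Crest.Agent.N250.B1.Ap
import Crest.Agent.N250.B1.M1b
import Crest.Agent.N250.B1.Log

/-! # Row 250, block B1, S10 (helper53): the drift statement from the weak Lipschitz bound -/

set_option autoImplicit false

namespace Crest.Agent.N250.B1

theorem driftS_of_wk (hW : WkS) : DriftS := driftS_of apS_holds logS_holds (m1S_of apS_holds) hW

end Crest.Agent.N250.B1
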