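import Crest.Agent.N250.B1.Nl

/-!
# Row 250, B1 (helper45): rescaling the oscillating part of the weight

`ω.scale θ` multiplies the weight of the modes `m ≠ 0` by `θ⁻¹` (`‖θ‖ ≤ 1`); the coefficientwise
identity is an isomorphism of Banach algebras `up : Wi ω → Wi (ω.scale θ)`.
-/

set_option autoImplicit false
set_option linter.unusedSectionVars false
open Metric Set

noncomputable section

namespace Crest.Agent.N250.Nl

open Wi
variable {A : Type*} [NormedCommRing A] [NormOneClass A] [NormedAlgebra ℂ A] [CompleteSpace A]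

/-- an invertible element of norm `≤ 1` -/
structure Th (A : Type*) [NormedCommRing A] where
  t : A
  ti : A
  mul_inv : t * ti = 1
  le : ‖t‖ ≤ 1

lemma Th.mul_le (θ : Th A) (a : A) : ‖θ.t * a‖ ≤ ‖a‖ :=
  (norm_mul_le _ _).trans (mul_le_of_le_one_left (norm_nonneg _) θ.le)

/-- the rescaled weight -/
def scale (ω : WiW A) (θ : Th A) : WiW A where
  w m := if m = 0 then 1 else θ.ti * ω.w m
  wi m := if m = 0 then 1 else θ.t * ω.wi m
  mul_inv m := by
    split_ifs
    · simp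
    · calc _ = (θ.t * θ.ti) * (ω.w m * ω.wi m) := by ring
        _ = 1 := by rw [θ.mul_inv, ω.mul_inv, one_mul]
  zero := by simp
  sub j l := by
    have hi := θ.mul_inv
    by_cases hj : j = 0
    · subst hj
      simp only [zero_add, if_true, one_mul]
      split_ifs
      · simp
      · have : θ.ti * ω.w l * (θ.t * ω.wi l) = 1 := by
          calc _ = (θ.t * θ.ti) * (ω.w l * ω.wi l) := by ring
            _ = 1 := by rw [hi, ω.mul_inv, one_mul]
        rw [this, norm_one]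
    by_cases hl : l = 0
    · subst hl
      simp only [add_zero, if_true, mul_one, if_neg hj]
      have : θ.ti * ω.w j * (θ.t * ω.wi j) = 1 := by
        calc _ = (θ.t * θ.ti) * (ω.w j * ω.wi j) := by ring
          _ = 1 := by rw [hi, ω.mul_inv, one_mul]
      rw [this, norm_one]
    rw [if_neg hj, if_neg hl]
    split_ifs with h
    · have e : 1 * (θ.t * ω.wi j * (θ.t * ω.wi l)) =
          θ.t * (θ.t * (ω.w (j + l) * (ω.wi j * ω.wi l))) := by rw [h, ω.zero]; ring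
      rw [e]; exact (θ.mul_le _).trans ((θ.mul_le _).trans (ω.sub j l))
    · have e : θ.ti * ω.w (j + l) * (θ.t * ω.wi j * (θ.t * ω.wi l)) =
          θ.t * (ω.w (j + l) * (ω.wi j * ω.wi l)) := by
        linear_combination (θ.t * (ω.w (j + l) * (ω.wi j * ω.wi l))) * hi
      rw [e]; exact (θ.mul_le _).trans (ω.sub j l)
  inv_le m := by
    split_ifs
    · simp
    · exact (θ.mul_le _).trans (ω.inv_le m)

variable {ω : WiW A} {θ : Th A}

lemma scale_w {m : ℤ} (hm : m ≠ 0) : (scale ω θ).w m = θ.ti * ω.w m := if_neg hm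
lemma scale_wi {m : ℤ} (hm : m ≠ 0) : (scale ω θ).wi m = θ.t * ω.wi m := if_neg hm

/-- the gain of the rescaled weight -/
lemma gain_scale {φ : A} {C : ℝ} (h : ‖φ * θ.t‖ ≤ C) : Gain (scale ω θ) φ C := by
  intro j l hj hl
  have hi := θ.mul_inv
  have hC : 0 ≤ C := (norm_nonneg _).trans h
  rw [scale_wi hj, scale_wi hl]
  by_cases h0 : j + l = 0
  · have e : φ * ((scale ω θ).w (j + l) * (θ.t * ω.wi j * (θ.t * ω.wi l))) =
        φ * θ.t * (θ.t * (ω.w (j + l) * (ω.wi j * ω.wi l))) := by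
      rw [h0, ω.zero, (scale ω θ).zero]; ring
    rw [e]
    exact (mul_le h ((θ.mul_le _).trans (ω.sub j l))).trans (by simp)
  · have e : φ * ((scale ω θ).w (j + l) * (θ.t * ω.wi j * (θ.t * ω.wi l))) =
        φ * θ.t * (ω.w (j + l) * (ω.wi j * ω.wi l)) := by
      rw [scale_w h0]
      linear_combination (φ * θ.t * (ω.w (j + l) * (ω.wi j * ω.wi l))) * hi
    rw [e]
    exact (mul_le h (ω.sub j l)).trans (by simp)

/-! ### change of weight -/

section tr
variable {ω₁ ω₂ : WiW A} {C : ℝ}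

lemma tr_term (h : ∀ m, ‖ω₂.w m * ω₁.wi m‖ ≤ C) (u : Wi ω₁) (m : ℤ) :
    ‖ω₂.w m * co u m‖ ≤ C * ‖ω₁.w m * co u m‖ := by
  rw [w_mul_co, co, ← mul_assoc]
  exact mul_le (h m) le_rfl

lemma tr_sum (h : ∀ m, ‖ω₂.w m * ω₁.wi m‖ ≤ C) (u : Wi ω₁) :
    Summable fun m => ‖ω₂.w m * co u m‖ :=
  ((summable_w u).mul_left C).of_nonneg_of_le (fun _ => norm_nonneg _) (tr_term h u)

/-- the coefficientwise identity between two comparable weights -/
def tr (h : ∀ m, ‖ω₂.w m * ω₁.wi m‖ ≤ C) : Wi ω₁ →A[ℂ] Wi ω₂ where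
  toFun u := mk ω₂ (co u) (tr_sum h u)
  map_one' := Wi.ext fun m => by rw [co_mk, co_one, co_one]
  map_mul' u v := Wi.ext fun m => by simp only [co_mk, co_mul]
  map_zero' := Wi.ext fun m => by simp
  map_add' u v := Wi.ext fun m => by simp
  commutes' c := Wi.ext fun m => by
    simp only [co_mk, Algebra.algebraMap_eq_smul_one, co_smul, co_one]
  cont := AddMonoidHomClass.continuous_of_bound
    (⟨⟨fun u => mk ω₂ (co u) (tr_sum h u), Wi.ext fun m => by simp⟩,
      fun u v => Wi.ext fun m => by simp⟩ : Wi ω₁ →+ Wi ω₂) C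
    fun u => norm_le_of ((hasSum_norm u).mul_left C) fun m => by
      simpa using tr_term h u m

@[simp] lemma co_tr (h : ∀ m, ‖ω₂.w m * ω₁.wi m‖ ≤ C) (u : Wi ω₁) (m : ℤ) :
    co (tr h u) m = co u m := co_mk _ (tr_sum h u) _

lemma norm_tr_le (h : ∀ m, ‖ω₂.w m * ω₁.wi m‖ ≤ C) (u : Wi ω₁) : ‖tr h u‖ ≤ C * ‖u‖ :=
  norm_le_of ((hasSum_norm u).mul_left C) fun m => by simpa using tr_term h u m

@[simp] lemma tr_cst (h : ∀ m, ‖ω₂.w m * ω₁.wi m‖ ≤ C) (a : A) : tr h (cst ω₁ a) = cst ω₂ a :=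
  Wi.ext fun m => by simp [co_cst]

@[simp] lemma tr_osc (h : ∀ m, ‖ω₂.w m * ω₁.wi m‖ ≤ C) (u : Wi ω₁) :
    tr h (osc u) = osc (tr h u) := Wi.ext fun m => by simp [co_osc]

@[simp] lemma syn_tr (h : ∀ m, ‖ω₂.w m * ω₁.wi m‖ ≤ C) (u : Wi ω₁) (t : ℝ) :
    syn (tr h u) t = syn u t := by simp [syn]

end tr

variable (ω θ) in
lemma up_bd (m : ℤ) : ‖(scale ω θ).w m * ω.wi m‖ ≤ 1 + ‖θ.ti‖ := by
  by_cases hm : m = 0
  · rw [hm, (scale ω θ).zero, one_mul]; exact (ω.inv_le 0).trans (by simp)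
  · rw [scale_w hm, mul_assoc, ω.mul_inv, mul_one]; simp

variable (ω θ) in
lemma dn_bd (m : ℤ) : ‖ω.w m * (scale ω θ).wi m‖ ≤ 1 := by
  by_cases hm : m = 0
  · rw [hm, ω.zero, one_mul]; exact (scale ω θ).inv_le 0
  · rw [scale_wi hm, mul_left_comm, ω.mul_inv, mul_one]; exact θ.le

variable (θ) in
/-- from the basic weight to the rescaled one -/
def up : Wi ω →A[ℂ] Wi (scale ω θ) := tr (up_bd ω θ)

variable (θ) in
/-- from the rescaled weight to the basic one -/
def dn : Wi (scale ω θ) →A[ℂ] Wi ω := tr (dn_bd ω θ)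

@[simp] lemma co_up (u : Wi ω) (m : ℤ) : co (up θ u) m = co u m := co_tr _ _ _
@[simp] lemma co_dn (u : Wi (scale ω θ)) (m : ℤ) : co (dn θ u) m = co u m := co_tr _ _ _
@[simp] lemma dn_up (u : Wi ω) : dn θ (up θ u) = u := Wi.ext fun m => by simp
@[simp] lemma up_dn (u : Wi (scale ω θ)) : up θ (dn θ u) = u := Wi.ext fun m => by simp
@[simp] lemma up_cst (a : A) : up θ (cst ω a) = cst _ a := tr_cst _ _
@[simp] lemma dn_cst (a : A) : dn θ (cst (scale ω θ) a) = cst ω a := tr_cst _ _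
@[simp] lemma up_osc (u : Wi ω) : up θ (osc u) = osc (up θ u) := tr_osc _ _
@[simp] lemma dn_osc (u : Wi (scale ω θ)) : dn θ (osc u) = osc (dn θ u) := tr_osc _ _

lemma norm_dn_le (u : Wi (scale ω θ)) : ‖dn θ u‖ ≤ ‖u‖ :=
  (norm_tr_le (dn_bd ω θ) u).trans (one_mul _).le

lemma norm_split (u : Wi ω) : ‖u‖ = ‖co u 0‖ + ‖osc u‖ := by
  rw [norm_eq u, norm_eq (osc u), (summable_w u).tsum_eq_add_tsum_ite 0, ω.zero, one_mul]
  congr 1
  refine tsum_congr fun m => ?_
  rw [co_osc]; split_ifs <;> simp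

lemma norm_up_zm {u : Wi ω} (h : co u 0 = 0) : ‖up θ u‖ = ‖cst ω θ.ti * u‖ := by
  rw [norm_eq, norm_eq]
  refine tsum_congr fun m => ?_
  rw [co_up, co_cst_mul]
  by_cases hm : m = 0
  · rw [hm, h]; simp
  · rw [scale_w hm]; congr 1; ring

/-- the norm of the rescaled algebra in terms of the basic one -/
theorem norm_up (u : Wi ω) : ‖up θ u‖ = ‖co u 0‖ + ‖cst ω θ.ti * osc u‖ := by
  rw [norm_split, co_up, ← up_osc, norm_up_zm (co_osc_zero u)]

theorem norm_eq_dn (u : Wi (scale ω θ)) : ‖u‖ = ‖co u 0‖ + ‖cst ω θ.ti * osc (dn θ u)‖ := by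
  rw [← co_dn u, ← norm_up, up_dn]

lemma osc_of {u : Wi ω} (h : co u 0 = 0) : osc u = u := by simp [osc, h]

lemma osc_cst_mul (a : A) (u : Wi ω) : osc (cst ω a * u) = cst ω a * osc u :=
  Wi.ext fun m => by
    simp only [co_osc, co_cst_mul]; split_ifs <;> simp

lemma osc_add (u v : Wi ω) : osc (u + v) = osc u + osc v := by
  simp only [osc, co_add, map_add]; ring

lemma osc_sub (u v : Wi ω) : osc (u - v) = osc u - osc v := by
  simp only [osc, co_sub, map_sub]; ring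

@[simp] lemma osc_cst (a : A) : osc (cst ω a) = 0 := by simp [osc, co_cst]

@[simp] lemma osc_osc (u : Wi ω) : osc (osc u) = osc u := osc_of (co_osc_zero u)

lemma cst_add_osc (u : Wi ω) : cst ω (co u 0) + osc u = u := by simp [osc]

variable (ω) in
/-- `osc` as a continuous linear map -/
def oscL : Wi ω →L[ℂ] Wi ω :=
  ContinuousLinearMap.id ℂ _ - (cst ω).toContinuousLinearMap.comp (coL ω 0)

@[simp] lemma oscL_apply (u : Wi ω) : oscL ω u = osc u := rfl

lemma norm_cst_mul_le (a : A) (u : Wi ω) : ‖cst ω a * u‖ ≤ ‖a‖ * ‖u‖ :=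
  (norm_mul_le _ _).trans (by rw [norm_cst])

lemma cst_mul_le {a : A} {u : Wi ω} {x y : ℝ} (ha : ‖a‖ ≤ x) (hu : ‖u‖ ≤ y) :
    ‖cst ω a * u‖ ≤ x * y := mul_le (by rwa [norm_cst]) hu

section diff
variable {E : Type*} [NormedAddCommGroup E] [NormedSpace ℂ E] {U : Set E}

lemma diff_hom {R R' : Type*} [NormedCommRing R] [NormedAlgebra ℂ R] [NormedCommRing R']
    [NormedAlgebra ℂ R'] (f : R →A[ℂ] R') {g : E → R} (h : DifferentiableOn ℂ g U) :
    DifferentiableOn ℂ (fun z => f (g z)) U :=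
  f.toContinuousLinearMap.differentiable.comp_differentiableOn h

lemma diff_cst {g : E → A} (h : DifferentiableOn ℂ g U) :
    DifferentiableOn ℂ (fun z => cst ω (g z)) U := diff_hom (cst ω) h

lemma diff_osc {g : E → Wi ω} (h : DifferentiableOn ℂ g U) :
    DifferentiableOn ℂ (fun z => osc (g z)) U :=
  (oscL ω).differentiable.comp_differentiableOn h

lemma diff_co {g : E → Wi ω} (h : DifferentiableOn ℂ g U) (m : ℤ) :
    DifferentiableOn ℂ (fun z => co (g z) m) U :=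
  (coL ω m).differentiable.comp_differentiableOn h

end diff

end Crest.Agent.N250.Nl

end
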