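import Crest.Agent.N250.B1.Stm
import Crest.Agent.N250.B1.Nl2

/-!
# Row 250, B1 (helper6): definitions for the proof of `EndS`

Base point `(X₀, a₀)` (`X₀` real), nearby parameter `z = (X, a, D)`.  A jet `J` for the speed `dgam R X`
is converted into the jet `toB J` for the speed `dgam R X₀`.
-/

set_option autoImplicit false
open Set Complex Filter Topology

noncomputable section

namespace Crest.Agent.N250.B1

variable {ℓ : Ell}

/-- pointwise inverse in `CI` (for nowhere vanishing functions) -/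
abbrev iv (f : CI) : CI := Ring.inverse f

theorem unit_of_ne {f : CI} (h : ∀ s, f s ≠ 0) : IsUnit f :=
  (ContinuousMap.isUnit_iff_forall_ne_zero f).2 h

theorem iv_apply {f : CI} (h : ∀ s, f s ≠ 0) (s : II) : iv f s = (f s)⁻¹ := by
  have h1 : (f * iv f) s = 1 := by rw [iv, Ring.mul_inverse_cancel _ (unit_of_ne h)]; rfl
  exact eq_inv_of_mul_eq_one_right h1

theorem mul_iv {f : CI} (h : ∀ s, f s ≠ 0) : f * iv f = 1 := Ring.mul_inverse_cancel _ (unit_of_ne h)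

/-- `η` along the path -/
def etC (R : ℝ) (X a : ℂ) : CI := 1 + (a / 2) • (gam R X ^ 2 - 2)

theorem etC_apply (R : ℝ) (X a : ℂ) (s : II) : etC R X a s = et a (gam R X s) := by
  have : (2 : CI) s = 2 := rfl
  simp only [etC, et, ContinuousMap.add_apply, ContinuousMap.one_apply, ContinuousMap.smul_apply,
    ContinuousMap.sub_apply, ContinuousMap.pow_apply, this, smul_eq_mul]
  ring

/-- `(2 s - 1)₊` in `CI` -/
def cubC : CI := ⟨fun s => ((cub s : ℝ) : ℂ), by have := continuous_cub; fun_prop⟩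

/-- ratio of the speeds `e = γ_X' / γ_{X₀}'` -/
def eC (R X0 : ℝ) (X : ℂ) : CI := dgam R X * iv (dgam R X0)

/-- `de/dx₀` -/
def kC (R X0 : ℝ) (X : ℂ) : CI := (48 * (X - X0)) • (cubC * iv (dgam R X0) ^ 3)

/-- multiplication by a function of `s` -/
abbrev cm (φ : CI) (u : Wi (om ℓ)) : Wi (om ℓ) := Wi.cst (om ℓ) φ * u

/-- the jet with respect to the base speed -/
def toB (R X0 : ℝ) (X : ℂ) (J : Jt ℓ) : Jt ℓ :=
  ![J 0, cm (eC R X0 X) (J 1), cm (eC R X0 X ^ 2) (J 2) + cm (kC R X0 X) (J 1), J 3,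
    cm (eC R X0 X) (J 4), J 5]

/-- the inverse conversion -/
def ofB (R X0 : ℝ) (X : ℂ) (J : Jt ℓ) : Jt ℓ :=
  ![J 0, cm (iv (eC R X0 X)) (J 1),
    cm (iv (eC R X0 X) ^ 2) (J 2 - cm (kC R X0 X * iv (eC R X0 X)) (J 1)), J 3,
    cm (iv (eC R X0 X)) (J 4), J 5]

/-- the data with respect to the base speed -/
def datB (R X0 : ℝ) (X : ℂ) (D : Dat ℓ) : Dat ℓ := (D.1, eC R X0 X i1 • D.2.1, D.2.2)

/-- the nonlinearity `G` on a jet -/
def GJ (R : ℝ) (X a : ℂ) (J : Jt ℓ) : Wi (om ℓ) :=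
  Nl.G (cm (iv (etC R X a)) (J 0)) (cm (iv (etC R X a)) (J 3)) (cm (iv (etC R X a)) (J 5))
    (Wi.cst _ (a • gam R X ^ 2) + cm (gam R X) (J 1)) (cm (iv (gam R X * etC R X a)) (J 4))
    (Wi.cst _ (cst a) + J 2) (Wi.cst _ (iv (gam R X ^ 2 * etC R X a)))

/-- the right hand side of the base equation, as a function of the jet `J` (speed of `X`) -/
def src (R X0 : ℝ) (a0 X a : ℂ) (J : Jt ℓ) : Wi (om ℓ) :=
  cm (eC R X0 X ^ 2) (GJ R X a J) +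
    cm ((1 / 2 : ℂ) • (eC R X0 X ^ 2 * gam R X) + kC R X0 X -
      (1 / 2 : ℂ) • (eC R X0 X * gam R X0)) (J 1) +
    cm (1 - eC R X0 X ^ 2) (J 0) +
    cm ((1 / 2 : ℂ) • (iv (etC R X0 a0) - eC R X0 X ^ 2 * iv (etC R X a))) (J 5)

/-- facts at the base point, at the real point `x` -/
structure BsP (K g g' X0 : ℝ) (a0 : ℂ) (ν x : ℝ) : Prop where
  one_le : 1 ≤ x
  rho_pos : 0 < rho K X0 x
  rho_le : rho K X0 x ≤ (et a0 x).re
  norm_le : ‖et a0 x‖ ≤ 3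
  W_le : W g g' a0 x ≤ (et a0 x).re
  nu : 1 ≤ ν * (x ^ 2 * (et a0 x).re)

/-- facts at the base point -/
def Bs (R K g g' X0 : ℝ) (a0 : ℂ) (ν : ℝ) : Prop :=
  R + 2 ≤ X0 ∧ ∀ s : II, BsP K g g' X0 a0 ν (xr R X0 s)

/-- `1/κ = |η₀| / Re η₀` -/
def kk (a0 : ℂ) (x : ℝ) : ℝ := ‖et a0 x‖ / (et a0 x).re

/-- `(X, a)` is near the base point; `x0` real base point, `x` complex point, `e`, `kx` as above -/
structure NrP (a0 a : ℂ) (δ A x0 : ℝ) (x e kx : ℂ) : Prop where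
  n1 : kk a0 x0 * ‖e ^ 2 * x / 2 + kx - e * x0 / 2‖ < δ * x0
  n2 : kk a0 x0 * ‖1 - e ^ 2‖ < δ
  n3 : kk a0 x0 * ‖1 - e ^ 2 * et a0 x0 / et a x‖ < δ
  n4 : ‖et a0 x0‖ < 2 * ‖et a x‖
  n5 : ‖x‖ < 2 * x0
  n5' : x0 < 2 * ‖x‖
  n6 : ‖e‖ < 2
  n6' : 1 < 2 * ‖e‖
  n7 : ‖kx‖ < x0
  n8 : ‖a * x ^ 2‖ < 3
  n8' : ‖a‖ < 1 / 2
  n9 : kk a0 x0 * ‖a ^ 2 * x ^ 2 / et a x‖ ≤ A

/-- `(X, a)` is near the base point -/
def Nr (R X0 : ℝ) (a0 : ℂ) (δ A : ℝ) (X a : ℂ) : Prop :=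
  ∀ s : II, NrP a0 a δ A (xr R X0 s) (gam R X s) (eC R X0 X s) (kC R X0 X s)

/-- (End3) the quantitative facts on the domain, base point `(Re X, a)` -/
def NrS : Prop :=
  ∀ g g', Ex g g' → ∀ δ > 0, ∃ R1 K1 C : ℝ, 0 < C ∧ ∀ R K, R1 ≤ R → K1 ≤ K → ∀ X a : ℂ,
    2 * R + 4 < X.re → 2 * √K < X.re → |X.im| < X.re⁻¹ → Adm K X.re a →
      Bs R K g g' X.re a δ ∧ Nr R X.re a δ (C * (‖a‖ * X.re ^ 2 / K)) X a

/-- (End3) stability: openness of `Nr`, comparison of the balls and of the data sizes -/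
def StabS : Prop :=
  ∀ (ℓ : Ell) (R K g g' ν δ A : ℝ) (z0 : Par ℓ), Bs R K g g' z0.1.re z0.2.1 ν →
    Nr R z0.1.re z0.2.1 δ A z0.1 z0.2.1 → ∀ η > 0, ∀ᶠ z : Par ℓ in 𝓝 z0,
      Nr R z0.1.re z0.2.1 δ (A + η) z.1 z.2.1 ∧
      dn R g g' z0.1.re z0.2.1 z.2.2 < dn R g g' z0.1.re z0.2.1 z0.2.2 + η ∧
      ∀ (M : ℝ) (J : Jt ℓ), InB R K g g' z0.1.re z0.2.1 M J → InB R K g g' z.1.re z.2.1 (2 * M) J

/-- (End2) conversion of jets and of the equation; `32 M ≤ 1` keeps the inverses honest -/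
def CvS : Prop :=
  ∀ (ℓ : Ell) (R K g g' X0 : ℝ) (a0 : ℂ) (ν δ A : ℝ) (z : Par ℓ), Bs R K g g' X0 a0 ν →
    Nr R X0 a0 δ A z.1 z.2.1 → ν ≤ 1 / 1000 →
    (∀ J : Jt ℓ, ofB R X0 z.1 (toB R X0 z.1 J) = J ∧ toB R X0 z.1 (ofB R X0 z.1 J) = J) ∧
    (∀ (J : Jt ℓ) (M : ℝ), InB R K g g' X0 a0 M J → InB R K g g' X0 a0 (12 * M) (ofB R X0 z.1 J)) ∧
    (∀ D : Dat ℓ, dn R g g' X0 a0 (datB R X0 z.1 D) ≤ 2 * dn R g g' X0 a0 D) ∧
    ∀ (J : Jt ℓ) (M : ℝ), InB R K g g' X0 a0 M J → 32 * M ≤ 1 →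
      (Sol R z J ↔ Lin R X0 a0 (toB R X0 z.1 J) (src R X0 a0 z.1 z.2.1 J) ∧
        BC (datB R X0 z.1 z.2.2) (toB R X0 z.1 J))

/-- (End2) size of the source; jets `3, 4, 5` have no mode `0` -/
def SrcS : Prop :=
  ∃ C > 0, ∀ (ℓ : Ell) (R K g g' X0 : ℝ) (a0 : ℂ) (ν δ A : ℝ) (X a : ℂ), Bs R K g g' X0 a0 ν →
    Nr R X0 a0 δ A X a → ν ≤ 1 / 1000 → ∀ (J : Jt ℓ) (M : ℝ), InB R K g g' X0 a0 M J → 32 * M ≤ 1 →
    Wi.co (J 3) 0 = 0 → Wi.co (J 4) 0 = 0 → Wi.co (J 5) 0 = 0 →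
    ∀ (θ : Nl.Th CI) (k : CI), (∀ s : II, θ.t s = (W g g' a0 (xr R X0 s) / ‖et a0 (xr R X0 s)‖ : ℝ)) →
      (∀ s : II, k s = kk a0 (xr R X0 s)) →
      ‖Nl.up θ (cm k (src R X0 a0 X a J))‖ ≤ C * (M ^ 2 + A + δ * M)

/-- (End2) holomorphy of the source and of the conversion along holomorphic families -/
def HolS : Prop :=
  ∀ (ℓ : Ell) (R K g g' X0 : ℝ) (a0 : ℂ) (ν δ A M : ℝ) (E : Type) [NormedAddCommGroup E]
    [NormedSpace ℂ E] (U : Set E) (X a : E → ℂ) (J : E → Jt ℓ), Bs R K g g' X0 a0 ν → ν ≤ 1 / 1000 →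
    (∀ p ∈ U, Nr R X0 a0 δ A (X p) (a p)) → DifferentiableOn ℂ X U → DifferentiableOn ℂ a U →
    DifferentiableOn ℂ J U →
    DifferentiableOn ℂ (fun p => ofB R X0 (X p) (J p)) U ∧
    DifferentiableOn ℂ (fun p => eC R X0 (X p) i1) U ∧
    ((∀ p ∈ U, InB R K g g' X0 a0 M (J p) ∧ Wi.co (J p 3) 0 = 0 ∧ Wi.co (J p 5) 0 = 0) → 32 * M ≤ 1 →
      DifferentiableOn ℂ (fun p => src R X0 a0 (X p) (a p) (J p)) U)

/-! ### the dictionary between `WB` and norms -/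

section wb
variable {R X : ℝ} {f0 f : ℝ → ℝ} {u : Wi (om ℓ)} {M : ℝ}

theorem om_w_apply (m : ℤ) (s : II) :
    (om ℓ).w m s = ((Real.exp (sig (2 * s) * ℓ.l m) : ℝ) : ℂ) := rfl

theorem norm_w_mul (m : ℤ) (c : CI) (s : II) :
    ‖((om ℓ).w m * c) s‖ = Real.exp (sig (2 * s) * ℓ.l m) * ‖c s‖ := by
  rw [ContinuousMap.mul_apply, norm_mul, om_w_apply, norm_real, Real.norm_eq_abs,
    abs_of_pos (Real.exp_pos _)]

theorem WB.mono (h : WB R X f0 f u M) {M' : ℝ} (hM : M ≤ M') : WB R X f0 f u M' :=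
  let ⟨β, h1, h2, h3⟩ := h; ⟨β, h1, h2.trans hM, h3⟩

/-- with positive weights the majorants are nonnegative -/
theorem WB.exists (h : WB R X f0 f u M) (h0 : ∀ s : II, 0 < f0 (xr R X s))
    (h1 : ∀ s : II, 0 < f (xr R X s)) :
    ∃ β : ℤ → ℝ, (∀ m, 0 ≤ β m) ∧ Summable β ∧ ∑' m, β m ≤ M ∧
      (∀ s : II, ‖Wi.co u 0 s‖ ≤ β 0 * f0 (xr R X s)) ∧
      ∀ m, m ≠ 0 → ∀ s : II, Real.exp (sig (2 * s) * ℓ.l m) * ‖Wi.co u m s‖ ≤ β m * f (xr R X s) := by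
  obtain ⟨β, a, b, c, d⟩ := h
  refine ⟨β, fun m => ?_, a, b, c, d⟩
  by_cases hm : m = 0
  · subst hm
    exact nonneg_of_mul_nonneg_left ((norm_nonneg _).trans (c i0)) (h0 i0)
  · exact nonneg_of_mul_nonneg_left (le_trans (by positivity) (d m hm i0)) (h1 i0)

theorem WB.nonneg (h : WB R X f0 f u M) (h0 : ∀ s : II, 0 < f0 (xr R X s))
    (h1 : ∀ s : II, 0 < f (xr R X s)) : 0 ≤ M :=
  let ⟨_, a, _, b, _⟩ := h.exists h0 h1; (tsum_nonneg a).trans b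

/-- multiplication by `φ` and change of the weights -/
theorem WB.cm (h : WB R X f0 f u M) (h0 : ∀ s : II, 0 < f0 (xr R X s))
    (h1 : ∀ s : II, 0 < f (xr R X s)) {X' A : ℝ} {k0 k : ℝ → ℝ} {φ : CI} (hA : 0 ≤ A)
    (e0 : Wi.co u 0 = 0 ∧ (∀ s : II, 0 ≤ k0 (xr R X' s)) ∨
      ∀ s : II, ‖φ s‖ * f0 (xr R X s) ≤ A * k0 (xr R X' s))
    (e1 : ∀ s : II, ‖φ s‖ * f (xr R X s) ≤ A * k (xr R X' s)) :
    WB R X' k0 k (cm φ u) (A * M) := by
  obtain ⟨β, p, a, b, c, d⟩ := h.exists h0 h1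
  refine ⟨fun m => A * β m, a.mul_left A, ?_, fun s => ?_, fun m hm s => ?_⟩
  · rw [tsum_mul_left]; exact mul_le_mul_of_nonneg_left b hA
  · rw [Wi.co_cst_mul, ContinuousMap.mul_apply, norm_mul]
    rcases e0 with ⟨e, e'⟩ | e0
    · rw [e]; simpa using mul_nonneg (mul_nonneg hA (p 0)) (e' s)
    · calc _ ≤ ‖φ s‖ * (β 0 * f0 (xr R X s)) := mul_le_mul_of_nonneg_left (c s) (norm_nonneg _)
        _ = β 0 * (‖φ s‖ * f0 (xr R X s)) := by ring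
        _ ≤ β 0 * (A * k0 (xr R X' s)) := mul_le_mul_of_nonneg_left (e0 s) (p 0)
        _ = _ := by ring
  · rw [Wi.co_cst_mul, ContinuousMap.mul_apply, norm_mul]
    calc _ = ‖φ s‖ * (Real.exp (sig (2 * s) * ℓ.l m) * ‖Wi.co u m s‖) := by ring
      _ ≤ ‖φ s‖ * (β m * f (xr R X s)) := mul_le_mul_of_nonneg_left (d m hm s) (norm_nonneg _)
      _ = β m * (‖φ s‖ * f (xr R X s)) := by ring
      _ ≤ β m * (A * k (xr R X' s)) := mul_le_mul_of_nonneg_left (e1 s) (p m)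
      _ = _ := by ring

/-- change of the weights (and of the base point) -/
theorem WB.wt (h : WB R X f0 f u M) (h0 : ∀ s : II, 0 < f0 (xr R X s))
    (h1 : ∀ s : II, 0 < f (xr R X s)) {X' A : ℝ} {k0 k : ℝ → ℝ} (hA : 0 ≤ A)
    (e0 : ∀ s : II, f0 (xr R X s) ≤ A * k0 (xr R X' s))
    (e1 : ∀ s : II, f (xr R X s) ≤ A * k (xr R X' s)) : WB R X' k0 k u (A * M) := by
  have := h.cm h0 h1 (φ := 1) hA (Or.inr (by simpa using e0)) (by simpa using e1)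
  simpa [B1.cm] using this

theorem WB.add {v : Wi (om ℓ)} {M' : ℝ} (h : WB R X f0 f u M) (h' : WB R X f0 f v M') :
    WB R X f0 f (u + v) (M + M') := by
  obtain ⟨β, a, b, c, d⟩ := h
  obtain ⟨β', a', b', c', d'⟩ := h'
  refine ⟨fun m => β m + β' m, a.add a', ?_, fun s => ?_, fun m hm s => ?_⟩
  · rw [a.tsum_add a']; exact add_le_add b b'
  · rw [Wi.co_add, add_mul]; exact norm_add_le_of_le (c s) (c' s)
  · rw [Wi.co_add, add_mul]
    refine le_trans ?_ (add_le_add (d m hm s) (d' m hm s))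
    rw [← mul_add]
    exact mul_le_mul_of_nonneg_left (norm_add_le _ _) (Real.exp_pos _).le

theorem WB.neg (h : WB R X f0 f u M) : WB R X f0 f (-u) M := by
  obtain ⟨β, a, b, c, d⟩ := h
  exact ⟨β, a, b, by simpa using c, by simpa using d⟩

theorem WB.sub {v : Wi (om ℓ)} {M' : ℝ} (h : WB R X f0 f u M) (h' : WB R X f0 f v M') :
    WB R X f0 f (u - v) (M + M') := by
  rw [sub_eq_add_neg]; exact h.add h'.neg

/-- the norm in the basic algebra -/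
theorem wb_one_iff : WB R X (fun _ => 1) (fun _ => 1) u M ↔ ‖u‖ ≤ M := by
  constructor
  · intro h
    obtain ⟨β, p, a, b, c, d⟩ := h.exists (fun _ => one_pos) fun _ => one_pos
    refine (Wi.norm_le_of a.hasSum fun m => (ContinuousMap.norm_le _ (p m)).2 fun s => ?_).trans b
    rw [norm_w_mul]
    by_cases hm : m = 0
    · subst hm; simpa [ℓ.zero] using c s
    · simpa using d m hm s
  · intro h
    refine ⟨fun m => ‖(om ℓ).w m * Wi.co u m‖, Wi.summable_w u, (Wi.norm_eq u).symm.le.trans h,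
      fun s => ?_, fun m _ s => ?_⟩
    · have := ((om ℓ).w 0 * Wi.co u 0).norm_coe_le_norm s
      rw [norm_w_mul] at this
      simpa [ℓ.zero] using this
    · rw [mul_one, ← norm_w_mul]; exact ContinuousMap.norm_coe_le_norm _ s

/-- the norm in the rescaled algebra; `t` is the modulus of `θ` -/
theorem wb_up_iff (θ : Nl.Th CI) {t : ℝ → ℝ} (ht : ∀ s : II, ‖θ.t s‖ = t (xr R X s)) :
    WB R X (fun _ => 1) t u M ↔ ‖Nl.up θ u‖ ≤ M := by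
  have hi : ∀ s : II, ‖θ.t s‖ * ‖θ.ti s‖ = 1 := fun s => by
    rw [← norm_mul, ← ContinuousMap.mul_apply, θ.mul_inv]; simp
  have hp : ∀ s : II, 0 < t (xr R X s) := fun s => by
    rw [← ht]
    exact lt_of_le_of_ne (norm_nonneg _) fun e => by simpa [← e] using hi s
  have key : ∀ m, m ≠ 0 → ∀ s : II, ‖((Nl.scale (om ℓ) θ).w m * Wi.co u m) s‖ * t (xr R X s) =
      Real.exp (sig (2 * s) * ℓ.l m) * ‖Wi.co u m s‖ := fun m hm s => by
    rw [Nl.scale_w hm, mul_assoc, ContinuousMap.mul_apply, norm_mul, norm_w_mul, ← ht]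
    linear_combination (Real.exp (sig (2 * s) * ℓ.l m) * ‖Wi.co u m s‖) * hi s
  constructor
  · intro h
    obtain ⟨β, p, a, b, c, d⟩ := h.exists (fun _ => one_pos) hp
    refine (Wi.norm_le_of a.hasSum fun m => (ContinuousMap.norm_le _ (p m)).2 fun s => ?_).trans b
    rw [Nl.co_up]
    by_cases hm : m = 0
    · subst hm; rw [(Nl.scale (om ℓ) θ).zero, one_mul]; simpa using c s
    · exact le_of_mul_le_mul_right ((key m hm s).trans_le (d m hm s)) (hp s)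
  · intro h
    refine ⟨fun m => ‖(Nl.scale (om ℓ) θ).w m * Wi.co (Nl.up θ u) m‖, Wi.summable_w _,
      (Wi.norm_eq _).symm.le.trans h, fun s => ?_, fun m hm s => ?_⟩
    · simp only [(Nl.scale (om ℓ) θ).zero, one_mul, mul_one, Nl.co_up]
      exact ContinuousMap.norm_coe_le_norm _ s
    · rw [← key m hm s]
      simp only [Nl.co_up]
      exact mul_le_mul_of_nonneg_right (ContinuousMap.norm_coe_le_norm _ s) (hp s).le

end wb

theorem BsP.re_pos {K g g' X0 : ℝ} {a0 : ℂ} {ν x : ℝ} (h : BsP K g g' X0 a0 ν x) :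
    0 < (et a0 x).re := h.rho_pos.trans_le h.rho_le

theorem BsP.norm_pos {K g g' X0 : ℝ} {a0 : ℂ} {ν x : ℝ} (h : BsP K g g' X0 a0 ν x) :
    0 < ‖et a0 x‖ := h.re_pos.trans_le (re_le_norm _)

theorem BsP.x_pos {K g g' X0 : ℝ} {a0 : ℂ} {ν x : ℝ} (h : BsP K g g' X0 a0 ν x) : 0 < x :=
  one_pos.trans_le h.one_le

theorem BsP.W_pos {K g g' X0 : ℝ} {a0 : ℂ} {ν x : ℝ} (h : BsP K g g' X0 a0 ν x) :
    0 < W g g' a0 x :=
  mul_pos (Real.rpow_pos_of_pos h.x_pos _) (Real.rpow_pos_of_pos h.norm_pos _)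

theorem BsP.mu_eq {K g g' X0 : ℝ} {a0 : ℂ} {ν x : ℝ} (_h : BsP K g g' X0 a0 ν x) :
    mu a0 x = (et a0 x).re / ‖et a0 x‖ ^ 2 := by
  rw [mu, inv_re, normSq_eq_norm_sq]

theorem gam_ofReal (R X : ℝ) (s : II) : gam R X s = (xr R X s : ℝ) := by
  simp [gam, xr]

end Crest.Agent.N250.B1

end
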