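import Crest.Agent.N250.B1.End0

/-!
# Row 250, B1 (helper6): the linear solution operator as a continuous linear map
-/

set_option autoImplicit false
open Set Complex Filter Topology

noncomputable section

namespace Crest.Agent.N250.B1

variable {ℓ : Ell}

theorem exists_clm_rel {E F : Type*} [NormedAddCommGroup E] [NormedSpace ℂ E] [NormedAddCommGroup F]
    [NormedSpace ℂ F] (r : E → F → Prop) (hex : ∀ x, ∃ y, r x y)
    (hadd : ∀ x y x' y', r x y → r x' y' → r (x + x') (y + y'))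
    (hsmul : ∀ (c : ℂ) x y, r x y → r (c • x) (c • y)) {A : ℝ}
    (hb : ∀ x y, r x y → ‖y‖ ≤ A * ‖x‖) : ∃ T : E →L[ℂ] F, ∀ x y, r x y ↔ y = T x := by
  have hu : ∀ x y y', r x y → r x y' → y = y' := fun x y y' h h' => by
    have := hb _ _ (hadd _ _ _ _ h (hsmul (-1) _ _ h'))
    simp only [neg_smul, one_smul, add_neg_cancel, norm_zero, mul_zero, norm_le_zero_iff] at this
    exact eq_of_sub_eq_zero (by rwa [sub_eq_add_neg])
  choose f hf using hex
  refine ⟨LinearMap.mkContinuous ⟨⟨f, fun x y => hu _ _ _ (hf _) (hadd _ _ _ _ (hf x) (hf y))⟩,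
    fun c x => hu _ _ _ (hf _) (hsmul c _ _ (hf x))⟩ A fun x => hb _ _ (hf x), fun x y => ?_⟩
  exact ⟨fun h => hu _ _ _ h (hf x), fun h => h ▸ hf x⟩

theorem IsJet.add {c : CI} {J J' : Jt ℓ} (h : IsJet c J) (h' : IsJet c J') : IsJet c (J + J') where
  d0 m := by simpa [mul_add] using (h.d0 m).add (h'.d0 m)
  d1 m := by simpa [mul_add] using (h.d1 m).add (h'.d1 m)
  t0 m := by
    rw [Pi.add_apply, Pi.add_apply, Wi.co_add, Wi.co_add, h.t0, h'.t0]; ext s; simp [mul_add]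
  t1 m := by
    rw [Pi.add_apply, Pi.add_apply, Wi.co_add, Wi.co_add, h.t1, h'.t1]; ext s; simp [mul_add]
  t2 m := by
    rw [Pi.add_apply, Pi.add_apply, Wi.co_add, Wi.co_add, h.t2, h'.t2]; ext s; simp [mul_add]

theorem IsJet.smul {c : CI} {J : Jt ℓ} (h : IsJet c J) (t : ℂ) : IsJet c (t • J) where
  d0 m := by simpa using (h.d0 m).smul t
  d1 m := by simpa using (h.d1 m).smul t
  t0 m := by simp only [Pi.smul_apply, Wi.co_smul, h.t0, smul_comm t]
  t1 m := by simp only [Pi.smul_apply, Wi.co_smul, h.t1, smul_comm t]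
  t2 m := by simp only [Pi.smul_apply, Wi.co_smul, h.t2, smul_comm t]

theorem IsJet.z3 {c : CI} {J : Jt ℓ} (h : IsJet c J) : Wi.co (J 3) 0 = 0 := by
  rw [h.t0]; ext s; simp

theorem IsJet.z4 {c : CI} {J : Jt ℓ} (h : IsJet c J) : Wi.co (J 4) 0 = 0 := by
  rw [h.t1]; ext s; simp

theorem IsJet.z5 {c : CI} {J : Jt ℓ} (h : IsJet c J) : Wi.co (J 5) 0 = 0 := by
  rw [h.t2]; ext s; simp

theorem BC.add {D D' : Dat ℓ} {J J' : Jt ℓ} (h : BC D J) (h' : BC D' J') : BC (D + D') (J + J') where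
  inner m hm := by simp [h.inner m hm, h'.inner m hm]
  slope m := by simp [h.slope, h'.slope]
  far0 := by simp [h.far0, h'.far0]
  farp := by simp [h.farp, h'.farp]
  farm := by simp [h.farm, h'.farm]

theorem BC.smul {D : Dat ℓ} {J : Jt ℓ} (h : BC D J) (t : ℂ) : BC (t • D) (t • J) where
  inner m hm := by simp [h.inner m hm]
  slope m := by simp [h.slope]
  far0 := by simp [h.far0]
  farp := by simp [h.farp]
  farm := by simp [h.farm]

theorem Lin.add {R X : ℝ} {a : ℂ} {J J' : Jt ℓ} {G G' : Wi (om ℓ)} (h : Lin R X a J G)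
    (h' : Lin R X a J' G') : Lin R X a (J + J') (G + G') :=
  ⟨h.1.add h'.1, fun m s => by
    simp only [Pi.add_apply, Wi.co_add, ContinuousMap.add_apply, ← h.2 m s, ← h'.2 m s]; ring⟩

theorem Lin.smul {R X : ℝ} {a : ℂ} {J : Jt ℓ} {G : Wi (om ℓ)} (h : Lin R X a J G) (t : ℂ) :
    Lin R X a (t • J) (t • G) :=
  ⟨h.1.smul t, fun m s => by
    simp only [Pi.smul_apply, Wi.co_smul, ContinuousMap.smul_apply, ← h.2 m s, smul_eq_mul]; ring⟩

theorem InB.mono {R K g g' X : ℝ} {a : ℂ} {M M' : ℝ} {J : Jt ℓ} (h : InB R K g g' X a M J)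
    (hM : M ≤ M') : InB R K g g' X a M' J :=
  ⟨h.b0.mono hM, h.b1.mono hM, h.b2.mono hM, h.b3.mono hM, h.b4.mono hM, h.b5.mono hM⟩

/-! ### continuity of the weights at a base point -/

theorem cont_xr (R X : ℝ) : Continuous fun s : II => xr R X s := by
  have := continuous_cub; unfold xr; fun_prop

theorem xr_far (R X : ℝ) : xr R X (i1 : II) = X := by
  have : cub 1 = 1 := by norm_num [cub]
  simp only [xr, i1, this]; ring

section base
variable {R K g g' X : ℝ} {a : ℂ} {ν : ℝ}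

theorem cont_et (R X : ℝ) (a : ℂ) : Continuous fun s : II => et a (xr R X s) := by
  have := cont_xr R X; unfold et; fun_prop

theorem Bs.cont_W (h : Bs R K g g' X a ν) : Continuous fun s : II => W g g' a (xr R X s) :=
  ((cont_xr R X).rpow_const fun s => Or.inl (h.2 s).x_pos.ne').mul
    ((cont_et R X a).norm.rpow_const fun s => Or.inl (h.2 s).norm_pos.ne')

theorem bdd_above {f : II → ℝ} (hf : Continuous f) : ∃ A, 0 ≤ A ∧ ∀ s, f s ≤ A * 1 := by
  obtain ⟨A, hA⟩ := isCompact_univ.exists_bound_of_continuousOn hf.continuousOn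
  exact ⟨A, (norm_nonneg _).trans (hA i0 trivial), fun s => by
    simpa using (Real.le_norm_self _).trans (hA s trivial)⟩

theorem WB.norm_le {f0 f : ℝ → ℝ} (c0 : Continuous fun s : II => f0 (xr R X s))
    (c1 : Continuous fun s : II => f (xr R X s)) (h0 : ∀ s : II, 0 < f0 (xr R X s))
    (h1 : ∀ s : II, 0 < f (xr R X s)) :
    ∃ A, 0 ≤ A ∧ ∀ (u : Wi (om ℓ)) (M : ℝ), WB R X f0 f u M → ‖u‖ ≤ A * M := by
  obtain ⟨A, hA, e⟩ := bdd_above (c0.max c1)
  exact ⟨A, hA, fun u M h => (wb_one_iff (R := R) (X := X)).1 (h.wt h0 h1 hA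
    (fun s => (le_max_left _ _).trans (e s)) fun s => (le_max_right _ _).trans (e s))⟩

theorem Bs.norm_le (h : Bs R K g g' X a ν) :
    ∃ A, 0 ≤ A ∧ ∀ (J : Jt ℓ) (M : ℝ), InB R K g g' X a M J → ‖J‖ ≤ A * M := by
  have cx := cont_xr R X
  have ce := (cont_et R X a).norm
  have cW := h.cont_W
  have px := fun s => (h.2 s).x_pos
  have pe := fun s => (h.2 s).norm_pos
  have pW := fun s => (h.2 s).W_pos
  obtain ⟨A0, p0, e0⟩ := WB.norm_le (ℓ := ℓ) (f0 := rho K X) (f := W g g' a)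
    (by unfold rho; fun_prop) cW (fun s => (h.2 s).rho_pos) pW
  obtain ⟨A1, p1, e1⟩ := WB.norm_le (ℓ := ℓ) (f0 := fun x => x⁻¹)
    (f := fun x => W g g' a x / (x * ‖et a x‖)) (cx.inv₀ fun s => (px s).ne')
    (cW.div (cx.mul ce) fun s => (mul_pos (px s) (pe s)).ne') (fun s => inv_pos.2 (px s))
    fun s => div_pos (pW s) (mul_pos (px s) (pe s))
  obtain ⟨A2, p2, e2⟩ := WB.norm_le (ℓ := ℓ) (f0 := fun _ => 1)
    (f := fun x => W g g' a x / ‖et a x‖) continuous_const (cW.div ce fun s => (pe s).ne')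
    (fun _ => one_pos) fun s => div_pos (pW s) (pe s)
  obtain ⟨A3, p3, e3⟩ := WB.norm_le (ℓ := ℓ) (f0 := fun _ => 1) (f := W g g' a) continuous_const cW
    (fun _ => one_pos) pW
  obtain ⟨A4, p4, e4⟩ := WB.norm_le (ℓ := ℓ) (f0 := fun _ => 1) (f := fun x => x * W g g' a x)
    continuous_const (cx.mul cW) (fun _ => one_pos) fun s => mul_pos (px s) (pW s)
  refine ⟨A0 + A1 + A2 + A3 + A4, by positivity, fun J M hJ => ?_⟩
  have hM : 0 ≤ M := hJ.b3.nonneg (fun _ => one_pos) pW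
  have q0 := mul_nonneg p0 hM
  have q1 := mul_nonneg p1 hM
  have q2 := mul_nonneg p2 hM
  have q3 := mul_nonneg p3 hM
  have q4 := mul_nonneg p4 hM
  refine (pi_norm_le_iff_of_nonneg (by positivity)).2 fun i => ?_
  fin_cases i
  · exact (e0 _ _ hJ.b0).trans (by linarith)
  · exact (e1 _ _ hJ.b1).trans (by linarith)
  · exact (e2 _ _ hJ.b2).trans (by linarith)
  · exact (e3 _ _ hJ.b3).trans (by linarith)
  · exact (e4 _ _ hJ.b4).trans (by linarith)
  · exact (e3 _ _ hJ.b5).trans (by linarith)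

theorem BsP.mu_pos {x : ℝ} (h : BsP K g g' X a ν x) : 0 < mu a x := by
  rw [h.mu_eq]; exact div_pos h.re_pos (pow_pos h.norm_pos 2)

theorem Bs.wb_src (h : Bs R K g g' X a ν) : ∃ A, 0 ≤ A ∧ ∀ G : Wi (om ℓ),
    WB R X (fun _ => 1) (fun x => mu a x * W g g' a x) G (A * ‖G‖) := by
  have cm' : Continuous fun s : II => mu a (xr R X s) :=
    continuous_re.comp ((cont_et R X a).inv₀ fun s => norm_pos_iff.1 (h.2 s).norm_pos)
  have pm := fun s => mul_pos (h.2 s).mu_pos (h.2 s).W_pos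
  obtain ⟨A, hA, e⟩ := bdd_above (continuous_const.max ((cm'.mul h.cont_W).inv₀ fun s => (pm s).ne')
    (f := fun _ => 1))
  refine ⟨A, hA, fun G => ((wb_one_iff (R := R) (X := X)).2 le_rfl).wt (fun _ => one_pos) (fun _ => one_pos) hA
    (fun s => (le_max_left _ _).trans (e s)) fun s => ?_⟩
  have := (le_max_right _ _).trans (e s)
  rw [mul_one] at this
  exact (inv_le_iff_one_le_mul₀ (pm s)).1 this

theorem Bs.atX (h : Bs R K g g' X a ν) : BsP K g g' X a ν X := by simpa [xr_far] using h.2 i1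

theorem Bs.R_pos (h : Bs R K g g' X a ν) : 0 < R := by
  have := (h.2 i0).x_pos
  have e : cub 0 = 0 := by norm_num [cub]
  simpa [xr, i0, e] using this

theorem Bs.dn_nonneg (h : Bs R K g g' X a ν) (D : Dat ℓ) : 0 ≤ dn R g g' X a D := by
  have := h.atX.x_pos
  have := h.atX.W_pos
  have := h.atX.re_pos
  have := h.R_pos
  unfold dn; positivity

theorem Bs.dn_le (h : Bs R K g g' X a ν) : ∃ A, 0 ≤ A ∧ ∀ D : Dat ℓ, dn R g g' X a D ≤ A * ‖D‖ := by
  have hX := h.atX.x_pos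
  have hW := mul_pos h.atX.W_pos h.atX.re_pos
  have hR := Real.rpow_pos_of_pos h.R_pos g
  refine ⟨R ^ g + X + (X + 1 + 1) / (W g g' a X * (et a X).re), by positivity, fun D => ?_⟩
  have n1 : ‖D.1‖ ≤ ‖D‖ := norm_fst_le D
  have n2 : ‖D.2.1‖ ≤ ‖D‖ := (norm_fst_le D.2).trans (norm_snd_le D)
  have n3 : ‖D.2.2.1‖ ≤ ‖D‖ := (norm_fst_le D.2.2).trans ((norm_snd_le D.2).trans (norm_snd_le D))
  have n4 : ‖D.2.2.2‖ ≤ ‖D‖ := (norm_snd_le D.2.2).trans ((norm_snd_le D.2).trans (norm_snd_le D))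
  have n5 : ‖Wi.co D.2.1 0‖ ≤ ‖D‖ := (Wi.norm_co_le _ _).trans n2
  have n6 : ‖D.2.1 - Wi.single _ 0 (Wi.co D.2.1 0)‖ ≤ ‖D‖ := (Nl.norm_osc_le D.2.1).trans n2
  rw [dn, add_mul, add_mul, div_mul_eq_mul_div, add_mul, add_mul, one_mul]
  gcongr

/-- the linear solution operator -/
theorem Bs.exists_T (h : Bs R K g g' X a ν) {C : ℝ}
    (hex : ∀ (G : Wi (om ℓ)) (D : Dat ℓ), ∃ J, Lin R X a J G ∧ BC D J)
    (hap : ∀ (J : Jt ℓ) (G : Wi (om ℓ)) (D : Dat ℓ) (M : ℝ), Lin R X a J G → BC D J →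
      WB R X (fun _ => 1) (fun x => mu a x * W g g' a x) G M → dn R g g' X a D ≤ M →
      InB R K g g' X a (C * M) J) :
    ∃ T : Wi (om ℓ) × Dat ℓ →L[ℂ] Jt ℓ, ∀ p J, (Lin R X a J p.1 ∧ BC p.2 J) ↔ J = T p := by
  obtain ⟨A1, p1, e1⟩ := h.norm_le (ℓ := ℓ)
  obtain ⟨A2, p2, e2⟩ := h.wb_src (ℓ := ℓ)
  obtain ⟨A3, p3, e3⟩ := h.dn_le (ℓ := ℓ)
  refine exists_clm_rel (fun (p : Wi (om ℓ) × Dat ℓ) (J : Jt ℓ) => Lin R X a J p.1 ∧ BC p.2 J) (fun p => hex p.1 p.2)
    (fun _ _ _ _ k k' => ⟨k.1.add k'.1, k.2.add k'.2⟩) (fun c _ _ k => ⟨k.1.smul c, k.2.smul c⟩)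
    (A := A1 * (C * (A2 + A3))) fun p J k => ?_
  have n1 : A2 * ‖p.1‖ ≤ A2 * ‖p‖ := mul_le_mul_of_nonneg_left (norm_fst_le p) p2
  have n2 : A3 * ‖p.2‖ ≤ A3 * ‖p‖ := mul_le_mul_of_nonneg_left (norm_snd_le p) p3
  have q2 := mul_nonneg p2 (norm_nonneg p)
  have q3 := mul_nonneg p3 (norm_nonneg p)
  have := e1 J _ (hap J p.1 p.2 ((A2 + A3) * ‖p‖) k.1 k.2 ((e2 p.1).mono (by linarith))
    ((e3 p.2).trans (by linarith)))
  calc _ ≤ _ := this
    _ = _ := by ring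

/-- the weight `θ = W/|η|`, the factors `κ = Re η/|η|` and `k = 1/κ` -/
theorem Bs.exists_th (h : Bs R K g g' X a ν) : ∃ (θ : Nl.Th CI) (k κ : CI),
    (∀ s : II, θ.t s = (W g g' a (xr R X s) / ‖et a (xr R X s)‖ : ℝ)) ∧
    (∀ s : II, k s = kk a (xr R X s)) ∧ κ * k = 1 ∧
    ∀ u : Wi (Nl.scale (om ℓ) θ),
      WB R X (fun _ => 1) (fun x => mu a x * W g g' a x) (cm κ (Nl.dn θ u)) ‖u‖ := by
  have ce := cont_et R X a
  have cW := h.cont_W
  have pe := fun s => (h.2 s).norm_pos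
  have pW := fun s => (h.2 s).W_pos
  have pr := fun s => (h.2 s).re_pos
  let t : CI := ⟨fun s => (W g g' a (xr R X s) / ‖et a (xr R X s)‖ : ℝ),
    continuous_ofReal.comp (cW.div ce.norm fun s => (pe s).ne')⟩
  have ht : ∀ s, t s ≠ 0 := fun s => ofReal_ne_zero.2 (div_pos (pW s) (pe s)).ne'
  have nt : ∀ s : II, ‖t s‖ = W g g' a (xr R X s) / ‖et a (xr R X s)‖ := fun s => by
    simp only [t, ContinuousMap.coe_mk, norm_real, Real.norm_eq_abs]
    exact abs_of_pos (div_pos (pW s) (pe s))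
  let k : CI := ⟨fun s => (kk a (xr R X s) : ℝ),
    continuous_ofReal.comp (ce.norm.div (continuous_re.comp ce) fun s => (pr s).ne')⟩
  have hk : ∀ s, k s ≠ 0 := fun s => ofReal_ne_zero.2 (div_pos (pe s) (pr s)).ne'
  have nk : ∀ s : II, ‖iv k s‖ = (et a (xr R X s)).re / ‖et a (xr R X s)‖ := fun s => by
    rw [iv_apply hk, norm_inv]
    simp only [k, ContinuousMap.coe_mk, norm_real, Real.norm_eq_abs, kk]
    rw [abs_of_pos (div_pos (pe s) (pr s)), inv_div]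
  let θ : Nl.Th CI := ⟨t, iv t, mul_iv ht, (ContinuousMap.norm_le _ zero_le_one).2 fun s => by
    rw [nt, div_le_one (pe s)]; exact (h.2 s).W_le.trans (re_le_norm _)⟩
  refine ⟨θ, k, iv k, fun _ => rfl, fun _ => rfl, by rw [mul_comm, mul_iv hk], fun u => ?_⟩
  have h1 : WB R X (fun _ => 1) (fun x => W g g' a x / ‖et a x‖) (Nl.dn θ u) ‖u‖ :=
    (wb_up_iff θ nt).2 (by rw [Nl.up_dn])
  have := h1.cm (fun _ => one_pos) (fun s => div_pos (pW s) (pe s)) (φ := iv k) (X' := X)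
    (k0 := fun _ => 1) (k := fun x => mu a x * W g g' a x) zero_le_one
    (Or.inr fun s => by
      rw [nk, mul_one, mul_one, div_le_one (pe s)]; exact re_le_norm _)
    fun s => by
      rw [nk, (h.2 s).mu_eq, one_mul]
      exact le_of_eq (by have := (pe s).ne'; field_simp)
  rwa [one_mul] at this

end base

end Crest.Agent.N250.B1

end
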