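import Crest.Agent.N250.B1.End1

/-!
# Row 250, B1 (helper6): the end solver from its leaves
-/

set_option autoImplicit false
open Set Complex Filter Topology Metric

noncomputable section

namespace Crest.Agent.N250.B1

variable {ℓ : Ell}

theorem cm_cm (φ ψ : CI) (u : Wi (om ℓ)) : cm φ (cm ψ u) = cm (φ * ψ) u := by
  simp only [cm, map_mul, mul_assoc]

theorem cm_one (u : Wi (om ℓ)) : cm 1 u = u := by simp [cm]

/-- the end solver near one base point -/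
theorem local_end (hCv : CvS) (hHol : HolS) {CS : ℝ} (hCS : 0 < CS)
    {R K g g' X0 : ℝ} {a0 : ℂ} {δ A CL r : ℝ}
    (hS : ∀ (A : ℝ) (X a : ℂ), Nr R X0 a0 δ A X a → ∀ (J : Jt ℓ) (M : ℝ), InB R K g g' X0 a0 M J →
      32 * M ≤ 1 → Wi.co (J 3) 0 = 0 → Wi.co (J 4) 0 = 0 → Wi.co (J 5) 0 = 0 →
      ∀ (θ : Nl.Th CI) (k : CI),
        (∀ s : II, θ.t s = (W g g' a0 (xr R X0 s) / ‖et a0 (xr R X0 s)‖ : ℝ)) →
        (∀ s : II, k s = kk a0 (xr R X0 s)) →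
        ‖Nl.up θ (cm k (src R X0 a0 X a J))‖ ≤ CS * (M ^ 2 + A + δ * M))
    (hB : Bs R K g g' X0 a0 δ) (hδ0 : 0 < δ) (hδ : δ ≤ 1 / 1000) (hCL : 0 < CL)
    (hex : ∀ (G : Wi (om ℓ)) (D : Dat ℓ), ∃ J, Lin R X0 a0 J G ∧ BC D J)
    (hap : ∀ (J : Jt ℓ) (G : Wi (om ℓ)) (D : Dat ℓ) (M : ℝ), Lin R X0 a0 J G → BC D J →
      WB R X0 (fun _ => 1) (fun x => mu a0 x * W g g' a0 x) G M → dn R g g' X0 a0 D ≤ M →
      InB R K g g' X0 a0 (CL * M) J)
    (hr : 0 < r) (r1 : 32 * (24 * CL * r) ≤ 1) (r2 : 32 * (576 * CS * CL ^ 2 * r) ≤ 1)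
    (d1 : 32 * (24 * CS * CL * δ) ≤ 1) (hA : 32 * (CS * A) ≤ r)
    {U : Set (Par ℓ)} (hU : IsOpen U)
    (hN : ∀ z ∈ U, Nr R X0 a0 δ A z.1 z.2.1 ∧ 2 * dn R g g' X0 a0 z.2.2 ≤ r) :
    ∃ V : Par ℓ → Jt ℓ, DifferentiableOn ℂ V U ∧ ∀ z ∈ U, Sol R z (V z) ∧
      (∀ A', Nr R X0 a0 δ A' z.1 z.2.1 →
        InB R K g g' X0 a0 (14 * CL * (CS * A' + 2 * dn R g g' X0 a0 z.2.2)) (V z)) ∧
      ∀ J, Sol R z J → InB R K g g' X0 a0 (24 * CL * r) J → J = V z := by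
  obtain ⟨T, hT⟩ := hB.exists_T hex hap
  obtain ⟨θ, k, κ, hθ, hk, hκ, hG⟩ := hB.exists_th (ℓ := ℓ)
  have cv := fun z (hz : z ∈ U) => hCv ℓ R K g g' X0 a0 δ δ A z hB (hN z hz).1 hδ
  let Jb : Par ℓ × Wi (Nl.scale (om ℓ) θ) → Jt ℓ := fun p =>
    T (cm κ (Nl.dn θ p.2), datB R X0 p.1.1 p.1.2.2)
  let Jx : Par ℓ × Wi (Nl.scale (om ℓ) θ) → Jt ℓ := fun p => ofB R X0 p.1.1 (Jb p)
  let N : Par ℓ × Wi (Nl.scale (om ℓ) θ) → Wi (Nl.scale (om ℓ) θ) := fun p =>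
    Nl.up θ (cm k (src R X0 a0 p.1.1 p.1.2.1 (Jx p)))
  have hNe : ∀ z u, N (z, u) = Nl.up θ (cm k (src R X0 a0 z.1 z.2.1 (Jx (z, u)))) := fun z u => by
    dsimp only [N]
  have hJb : ∀ p, Lin R X0 a0 (Jb p) (cm κ (Nl.dn θ p.2)) ∧ BC (datB R X0 p.1.1 p.1.2.2) (Jb p) :=
    fun p => (hT (_, _) _).2 rfl
  have hIn : ∀ z ∈ U, ∀ u, InB R K g g' X0 a0 (12 * (CL * (‖u‖ + 2 * dn R g g' X0 a0 z.2.2)))
      (Jx (z, u)) := fun z hz u => by
    have d0 := hB.dn_nonneg z.2.2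
    refine (cv z hz).2.1 _ _ (hap _ _ _ _ (hJb (z, u)).1 (hJb (z, u)).2 ((hG u).mono (by linarith)) ?_)
    exact ((cv z hz).2.2.1 _).trans (by linarith [norm_nonneg u])
  have hIn' : ∀ z ∈ U, ∀ u, ‖u‖ ≤ r → InB R K g g' X0 a0 (24 * CL * r) (Jx (z, u)) :=
    fun z hz u hu => (hIn z hz u).mono (by nlinarith [(hN z hz).2])
  have z3 : ∀ p, Wi.co (Jx p 3) 0 = 0 := fun p => (hJb p).1.1.z3
  have z4 : ∀ p, Wi.co (Jx p 4) 0 = 0 := fun p => by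
    change Wi.co (cm _ (Jb p 4)) 0 = 0
    rw [Wi.co_cst_mul, (hJb p).1.1.z4, mul_zero]
  have z5 : ∀ p, Wi.co (Jx p 5) 0 = 0 := fun p => (hJb p).1.1.z5
  have num : CS * ((24 * CL * r) ^ 2 + A + δ * (24 * CL * r)) ≤ r / 8 := by
    nlinarith [mul_le_mul_of_nonneg_right r2 hr.le, mul_le_mul_of_nonneg_right d1 hr.le]
  have back : ∀ u : Wi (om ℓ), cm κ (Nl.dn θ (Nl.up θ (cm k u))) = u := fun u => by
    rw [Nl.dn_up, cm_cm, hκ, cm_one]
  have hd : DifferentiableOn ℂ Jx (U ×ˢ ball 0 r) ∧ DifferentiableOn ℂ N (U ×ˢ ball 0 r) := by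
    have h := fun J : Par ℓ × Wi (Nl.scale (om ℓ) θ) → Jt ℓ =>
      hHol ℓ R K g g' X0 a0 δ δ A (24 * CL * r) _ (U ×ˢ ball 0 r) (fun p => p.1.1) (fun p => p.1.2.1)
        J hB hδ (fun p hp => (hN _ hp.1).1) (by fun_prop) (by fun_prop)
    have he := (h (fun _ => 0) (differentiableOn_const _)).2.1
    have hb : DifferentiableOn ℂ Jb (U ×ˢ ball 0 r) := by
      refine T.differentiable.comp_differentiableOn (DifferentiableOn.prodMk ?_ ?_)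
      · exact (Nl.diff_hom (Nl.dn θ) differentiableOn_snd).const_mul _
      · exact DifferentiableOn.prodMk (by fun_prop)
          (DifferentiableOn.prodMk (he.smul (by fun_prop)) (by fun_prop))
    have hx : DifferentiableOn ℂ Jx (U ×ˢ ball 0 r) := (h Jb hb).1
    refine ⟨hx, Nl.diff_hom (Nl.up θ) (DifferentiableOn.const_mul ((h Jx hx).2.2 (fun p hp => ?_) r1) _)⟩
    exact ⟨hIn' p.1 hp.1 p.2 (mem_ball_zero_iff.1 hp.2).le, z3 p, z5 p⟩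
  have hb : ∀ z ∈ U, ∀ u ∈ ball (0 : Wi (Nl.scale (om ℓ) θ)) r, ‖N (z, u)‖ ≤ r / 8 := by
    intro z hz u hu
    have := hS A _ _ (hN z hz).1 _ _ (hIn' z hz u (mem_ball_zero_iff.1 hu).le) r1 (z3 (z, u))
      (z4 (z, u)) (z5 (z, u)) θ k hθ hk
    rw [hNe]; exact this.trans num
  obtain ⟨u, hu, hf⟩ := Nl.exists_sol (N := N) hU hr hd.2 hb
  refine ⟨fun z => Jx (z, u z), hd.1.comp (differentiableOn_id.prodMk hu) fun z hz =>
    ⟨hz, mem_ball_zero_iff.2 ((hf z hz).1.trans_lt (by linarith))⟩, fun z hz => ?_⟩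
  obtain ⟨f1, f2, f3⟩ := hf z hz
  rw [hNe] at f2
  beta_reduce
  have d0 := hB.dn_nonneg z.2.2
  refine ⟨?_, fun A' hA' => ?_, fun J hJ hJ' => ?_⟩
  · refine ((cv z hz).2.2.2 _ _ (hIn' z hz _ (by linarith)) r1).2 ?_
    have e1 : toB R X0 z.1 (Jx (z, u z)) = Jb (z, u z) := ((cv z hz).1 _).2
    have e2 : src R X0 a0 z.1 z.2.1 (Jx (z, u z)) = cm κ (Nl.dn θ (u z)) := by
      rw [← back (src _ _ _ _ _ _), f2]
    rw [e1, e2]; exact hJb (z, u z)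
  · set M := ‖u z‖ + 2 * dn R g g' X0 a0 z.2.2 with hM
    have M0 : 0 ≤ M := by positivity
    have M1 : M ≤ 2 * r := by linarith [(hN z hz).2]
    have c1 : 12 * (CL * M) ≤ 24 * CL * r := by nlinarith
    have := hS A' _ _ hA' _ _ (hIn z hz (u z)) (by linarith) (z3 _) (z4 _) (z5 _) θ k hθ hk
    rw [f2, ← hM] at this
    have q1 : CS * (12 * (CL * M)) ^ 2 ≤ M / 64 := by
      have : CS * (12 * (CL * M)) ^ 2 = 144 * CS * CL ^ 2 * M * M := by ring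
      have p : 0 ≤ 144 * CS * CL ^ 2 := by positivity
      rw [this]
      nlinarith [mul_le_mul_of_nonneg_right (mul_le_mul_of_nonneg_left M1 p) M0,
        mul_le_mul_of_nonneg_right r2 M0]
    have q2 : CS * (δ * (12 * (CL * M))) ≤ M / 64 := by
      nlinarith [mul_le_mul_of_nonneg_right d1 M0]
    have q3 : 12 * M ≤ 14 * (CS * A' + 2 * dn R g g' X0 a0 z.2.2) := by
      rw [mul_add, mul_add] at this; linarith
    exact (hIn z hz (u z)).mono (by nlinarith [mul_le_mul_of_nonneg_left q3 hCL.le])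
  · have h1 := ((cv z hz).2.2.2 _ _ hJ' r1).1 hJ
    set u' := Nl.up θ (cm k (src R X0 a0 z.1 z.2.1 J)) with hu'
    have n1 : ‖u'‖ ≤ r / 8 :=
      (hS A _ _ (hN z hz).1 _ _ hJ' r1 hJ.jet.z3 hJ.jet.z4 hJ.jet.z5 θ k hθ hk).trans num
    have e1 : toB R X0 z.1 J = Jb (z, u') :=
      (hT (cm κ (Nl.dn θ u'), datB R X0 z.1 z.2.2) _).1 (by rw [hu', back]; exact h1)
    have e2 : Jx (z, u') = J := by
      change ofB R X0 z.1 (Jb (z, u')) = J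
      rw [← e1, ((cv z hz).1 _).1]
    have e3 : N (z, u') = u' := by rw [hNe, e2]
    have := f3 u' (by linarith)
    rw [e3, sub_self, norm_zero, mul_zero, norm_le_zero_iff, sub_eq_zero] at this
    rw [this, e2]

theorem Adm.norm_sq_le {K X : ℝ} {a : ℂ} (h : Adm K X a) (hK : 0 ≤ K) : ‖a‖ * X ^ 2 ≤ 3 := by
  have h1 : 0 ≤ 2 * K / X ^ 2 := by positivity
  have h2 : ‖a * X ^ 2 / 2‖ ≤ ‖a * X ^ 2 / 2 - 1 / 8‖ + ‖(1 / 8 : ℂ)‖ := norm_le_norm_sub_add _ _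
  have h3 : ‖a * X ^ 2 / 2‖ = ‖a‖ * X ^ 2 / 2 := by simp
  have h4 : ‖(1 / 8 : ℂ)‖ = 1 / 8 := by simp
  unfold Adm at h
  linarith

/-- **the end solver** from the linear theory and the five leaves -/
theorem endS_of (hL : LinS) (hNr : NrS) (hSt : StabS) (hCv : CvS) (hSrc : SrcS) (hHol : HolS) :
    EndS := by
  intro g g' hg e0 he0
  obtain ⟨RL, KL, c0, CL, hRL, hKL, hc0, hCL, hL⟩ := hL g g' hg
  obtain ⟨CS, hCS, hS⟩ := hSrc
  obtain ⟨δ, δ0, δ1, δ2⟩ : ∃ δ : ℝ, 0 < δ ∧ δ ≤ 1 / 1000 ∧ 32 * (24 * CS * CL * δ) ≤ 1 := by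
    refine ⟨min (1 / 1000) (1 / (32 * (24 * CS * CL))), by positivity, min_le_left _ _, ?_⟩
    have := (le_div_iff₀ (by positivity)).1 (min_le_right (1 / 1000) (1 / (32 * (24 * CS * CL))))
    linarith
  obtain ⟨r, r0, r1, r2, r3⟩ : ∃ r : ℝ, 0 < r ∧ 32 * (24 * CL * r) ≤ 1 ∧
      32 * (576 * CS * CL ^ 2 * r) ≤ 1 ∧ 24 * CL * r ≤ e0 := by
    refine ⟨min (min (1 / (32 * (24 * CL))) (1 / (32 * (576 * CS * CL ^ 2)))) (e0 / (24 * CL)),
      by positivity, ?_, ?_, ?_⟩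
    · have := (le_div_iff₀ (by positivity)).1 ((min_le_left _ (e0 / (24 * CL))).trans
        (min_le_left (1 / (32 * (24 * CL))) (1 / (32 * (576 * CS * CL ^ 2)))))
      linarith
    · have := (le_div_iff₀ (by positivity)).1 ((min_le_left _ (e0 / (24 * CL))).trans
        (min_le_right (1 / (32 * (24 * CL))) (1 / (32 * (576 * CS * CL ^ 2)))))
      linarith
    · have := (le_div_iff₀ (by positivity)).1 (min_le_right (min (1 / (32 * (24 * CL)))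
        (1 / (32 * (576 * CS * CL ^ 2)))) (e0 / (24 * CL)))
      linarith
  obtain ⟨RN, KN, CN, hCN, hNr⟩ := hNr g g' hg δ δ0
  set c := CS * CN + 2 with hc
  have c0' : 0 < c := by positivity
  set ε := r / (128 * c) with hε
  have ε0 : 0 < ε := by positivity
  have ε1 : c * ε = r / 128 := by rw [hε]; field_simp
  set K1 := max (max KL KN) (3 / ε) with hK1
  have k1 : KL ≤ K1 := (le_max_left _ _).trans (le_max_left _ _)
  have k2 : KN ≤ K1 := (le_max_right _ _).trans (le_max_left _ _)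
  have k0 : 0 < K1 := by linarith
  have k3 : 3 / K1 ≤ ε := by
    rw [div_le_iff₀ k0, ← div_le_iff₀' ε0]; exact le_max_right _ _
  set η := r / (64 * (CS + 2)) with hη
  have η0 : 0 < η := by positivity
  have η1 : (CS + 2) * η = r / 64 := by rw [hη]; field_simp
  refine ⟨max RL RN, K1, c0, ε, 24 * CL * r, 14 * CL * c, hRL.trans (le_max_left _ _),
    hKL.trans k1, hc0, ε0, by positivity, r3, ?_, fun R K hR hK ℓ hℓ => ?_⟩
  · have := mul_le_mul_of_nonneg_left k3 c0'.le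
    nlinarith [mul_le_mul_of_nonneg_left this hCL.le, mul_pos hCL r0]
  have K0 : 0 < K := k0.trans_le hK
  have key : ∀ z0 ∈ Dom (ℓ := ℓ) R K g g' ε, ∃ V : Par ℓ → Jt ℓ, DifferentiableAt ℂ V z0 ∧
      (∀ᶠ z in 𝓝 z0, Sol R z (V z) ∧ InB R K g g' z.1.re z.2.1 (24 * CL * r) (V z)) ∧
      InB R K g g' z0.1.re z0.2.1 (14 * CL * c * (‖z0.2.1‖ * z0.1.re ^ 2 / K +
        dn R g g' z0.1.re z0.2.1 z0.2.2)) (V z0) ∧
      ∀ J, Sol R z0 J → InB R K g g' z0.1.re z0.2.1 (24 * CL * r) J → J = V z0 := by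
    rintro z0 ⟨h1, h2, h3, h4, h5⟩
    obtain ⟨hB, hN⟩ := hNr R K ((le_max_right _ _).trans hR) (k2.trans hK) _ _ h1 h2 h3 h4
    obtain ⟨hex, hap⟩ := hL R K ((le_max_left _ _).trans hR) (k1.trans hK) ℓ hℓ _ _ h1.le h2.le h4
    set t := ‖z0.2.1‖ * z0.1.re ^ 2 / K with ht
    have t0 : 0 ≤ t := by positivity
    have t1 : t ≤ ε := ((div_le_div_of_nonneg_right (h4.norm_sq_le K0.le) K0.le).trans
      (div_le_div_of_nonneg_left (by norm_num) k0 hK)).trans k3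
    have t2 : CS * (CN * t) ≤ CS * CN * ε := by
      rw [← mul_assoc]; exact mul_le_mul_of_nonneg_left t1 (by positivity)
    obtain ⟨U, hU, Uo, Uz⟩ := _root_.eventually_nhds_iff.1 (hSt ℓ R K g g' δ δ _ z0 hB hN η η0)
    have p1 := mul_pos hCS η0
    have p2 := mul_pos (mul_pos hCS hCN) ε0
    obtain ⟨V, hV, hz⟩ := local_end hCv hHol hCS
      (fun A X a hA => hS ℓ R K g g' _ _ δ δ A X a hB hA δ1) hB δ0 δ1 hCL hex hap r0 r1 r2 δ2
      (A := CN * t + η) (by nlinarith) Uo fun z hz => ⟨(hU z hz).1, by nlinarith [(hU z hz).2.1]⟩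
    refine ⟨V, hV.differentiableAt (Uo.mem_nhds Uz), ?_, ((hz z0 Uz).2.1 _ hN).mono ?_,
      (hz z0 Uz).2.2⟩
    · filter_upwards [Uo.mem_nhds Uz] with z hzU
      refine ⟨(hz z hzU).1, ((hU z hzU).2.2 _ _ ((hz z hzU).2.1 _ (hU z hzU).1)).mono ?_⟩
      have q : CS * (CN * t + η) + 2 * dn R g g' z0.1.re z0.2.1 z.2.2 ≤ r / 2 := by
        nlinarith [(hU z hzU).2.1]
      nlinarith [mul_le_mul_of_nonneg_left q hCL.le, mul_pos hCL r0]
    · have d0 := hB.dn_nonneg z0.2.2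
      rw [mul_assoc (14 * CL) c]
      refine mul_le_mul_of_nonneg_left ?_ (by positivity)
      nlinarith [mul_nonneg (mul_pos hCS hCN).le d0]
  choose! V hV using key
  refine ⟨fun z => V z z, fun z0 h0 => ?_, fun z hz => (hV z hz).2.1.self_of_nhds.1,
    fun z hz => (hV z hz).2.2.1, fun z hz => (hV z hz).2.2.2⟩
  refine (hV z0 h0).1.differentiableWithinAt.congr_of_eventuallyEq ?_ rfl
  filter_upwards [nhdsWithin_le_nhds (hV z0 h0).2.1, self_mem_nhdsWithin] with z h1 hz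
  exact ((hV z hz).2.2.2 _ h1.1 h1.2).symm

end Crest.Agent.N250.B1

end
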