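import Crest.Agent.N250.Act.FV
import Crest.Agent.N250.H.Hol

/-! # Row 250, block B1 (S8): the far boundary 1-form equals its symmetric part up to the square of
the non-symmetric part -/

set_option autoImplicit false

open Set Filter Topology Metric Complex intervalIntegral

noncomputable section

namespace Crest.Agent.N250.Far

open Act

/-- circle averages of a bounded holomorphic function of small mean zero data -/
theorem avg_le {G : ℂ × ℂ → ℂ} {M ε : ℝ} (hG : DifferentiableOn ℂ G (ball 0 (1 / 8)))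
    (hM : ∀ z ∈ ball (0 : ℂ × ℂ) (1 / 8), ‖G z‖ ≤ M) (hε : ε ≤ 1 / 16) {u τ : ℝ → ℂ}
    (cu : ContinuousOn u (Icc 0 (2 * Real.pi))) (cτ : ContinuousOn τ (Icc 0 (2 * Real.pi)))
    (hu : ∀ θ ∈ Icc 0 (2 * Real.pi), ‖u θ‖ ≤ ε) (hτ : ∀ θ ∈ Icc 0 (2 * Real.pi), ‖τ θ‖ ≤ ε ^ 2)
    (h0 : ∫ θ in (0 : ℝ)..(2 * Real.pi), u θ = 0) :
    ContinuousOn (fun θ => G (u θ, τ θ)) (Icc 0 (2 * Real.pi)) ∧
    (∀ θ ∈ Icc 0 (2 * Real.pi), ‖G (u θ, τ θ) - G 0‖ ≤ 16 * M * ε) ∧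
    ‖(∫ θ in (0 : ℝ)..(2 * Real.pi), G (u θ, τ θ)) - 2 * Real.pi * G 0‖ ≤
      2 * Real.pi * (272 * M * ε ^ 2) := by
  have hε0 : 0 ≤ ε := (norm_nonneg _).trans (hu 0 (left_mem_Icc.2 tp_pos))
  have hM0 : 0 ≤ M := (norm_nonneg _).trans (hM 0 (mem_ball_self (by norm_num)))
  have hz : ∀ θ ∈ Icc 0 (2 * Real.pi), ‖(u θ, τ θ)‖ ≤ ε := fun θ hθ =>
    max_le (hu θ hθ) ((hτ θ hθ).trans (by nlinarith))
  have hz' : ∀ θ ∈ Icc 0 (2 * Real.pi), (u θ, τ θ) ∈ ball (0 : ℂ × ℂ) (1 / 8) := fun θ hθ => by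
    rw [mem_ball_zero_iff]; linarith [hz θ hθ]
  have hc : ContinuousOn (fun θ => G (u θ, τ θ)) (Icc 0 (2 * Real.pi)) :=
    hG.continuousOn.comp (cu.prodMk cτ) hz'
  refine ⟨hc, fun θ hθ => ?_, ?_⟩
  · refine (H.lip_le hG hM (hz' θ hθ)).trans ?_
    rw [sub_zero]
    have := mul_le_mul_of_nonneg_left (hz θ hθ) (show 0 ≤ 2 * M / (1 / 8) by positivity)
    linarith
  set D := fderiv ℂ G 0 with hD
  have hDn : ‖D‖ ≤ 2 * M / (1 / 8) := H.fd_le (by norm_num) hG hM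
  have ii : ∀ {f : ℝ → ℂ}, ContinuousOn f (Icc 0 (2 * Real.pi)) →
      IntervalIntegrable f MeasureTheory.volume 0 (2 * Real.pi) := fun hf =>
    (hf.mono (uIcc_of_le tp_pos).subset).intervalIntegrable
  have e : (∫ θ in (0 : ℝ)..(2 * Real.pi), G (u θ, τ θ)) - 2 * Real.pi * G 0 =
      ∫ θ in (0 : ℝ)..(2 * Real.pi), (G (u θ, τ θ) - G 0 - u θ * D (1, 0)) := by
    have k1 : ContinuousOn (fun θ => G (u θ, τ θ) - G 0) (Icc 0 (2 * Real.pi)) :=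
      hc.sub continuousOn_const
    have k2 : ContinuousOn (fun θ => u θ * D (1, 0)) (Icc 0 (2 * Real.pi)) :=
      cu.mul continuousOn_const
    rw [integral_sub (ii k1) (ii k2),
      integral_sub (ii hc) (ii continuousOn_const), integral_mul_const, h0]
    simp
  rw [e]
  have := norm_integral_le_of_norm_le_const (a := 0) (b := 2 * Real.pi)
    (f := fun θ => G (u θ, τ θ) - G 0 - u θ * D (1, 0)) (C := 272 * M * ε ^ 2) (fun θ hθ => by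
      rw [uIoc_of_le tp_pos] at hθ
      have hθ' := Ioc_subset_Icc_self hθ
      have h1 := H.tay2 hG hM (hz' θ hθ')
      rw [sub_zero, ← hD] at h1
      have h2 : D (u θ, τ θ) = u θ * D (1, 0) + D (0, τ θ) := by
        rw [← smul_eq_mul, ← map_smul, ← map_add]; simp
      have h3 : ‖D (0, τ θ)‖ ≤ 2 * M / (1 / 8) * ε ^ 2 := by
        refine (D.le_opNorm _).trans (mul_le_mul hDn ?_ (norm_nonneg _) (by positivity))
        simpa [Prod.norm_def] using hτ θ hθ'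
      have h4 : G (u θ, τ θ) - G 0 - u θ * D (1, 0) =
          (G (u θ, τ θ) - G 0 - D (u θ, τ θ)) + D (0, τ θ) := by rw [h2]; ring
      rw [h4]
      refine (norm_add_le _ _).trans ?_
      have h5 : (‖(u θ, τ θ)‖ / (1 / 8)) ^ 2 ≤ (ε / (1 / 8)) ^ 2 := by
        gcongr; exact hz θ hθ'
      have h6 := mul_le_mul_of_nonneg_left h5 (show 0 ≤ 4 * M by positivity)
      nlinarith)
  rw [sub_zero, abs_of_nonneg tp_pos] at this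
  linarith

lemma norm_csqrt (z : ℂ) : ‖Complex.sqrt z‖ = √‖z‖ := by
  rw [← Real.sqrt_sq (norm_nonneg (Complex.sqrt z)), ← norm_pow, sqrt_sq']

/-- `Q` in the scaled variables -/
def Qs (V P : ℂ) (z : ℂ × ℂ) : ℂ :=
  2 * (V + ‖V‖ * z.1) + P ^ 2 + ‖V‖ ^ 2 * z.2 / (2 * (V + ‖V‖ * z.1))

section scaled
variable {V P : ℂ} (hV : 0 < V.re) (hP : ‖P‖ ^ 2 ≤ ‖V‖ / 4) {z : ℂ × ℂ}
  (hz : z ∈ ball (0 : ℂ × ℂ) (1 / 8))
include hV hz

lemma v_ge : 7 / 8 * ‖V‖ ≤ ‖V + ‖V‖ * z.1‖ ∧ ‖(‖V‖ : ℂ) * z.1‖ ≤ ‖V‖ / 8 := by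
  have h1 : ‖z.1‖ ≤ 1 / 8 := (norm_fst_le z).trans (mem_ball_zero_iff.1 hz).le
  have h2 : ‖(‖V‖ : ℂ) * z.1‖ ≤ ‖V‖ / 8 := by
    rw [norm_mul, Complex.norm_real, norm_norm]; nlinarith [norm_nonneg V]
  refine ⟨?_, h2⟩
  have := norm_sub_norm_le V (-(‖V‖ * z.1))
  rw [norm_neg, sub_neg_eq_add] at this
  linarith

lemma V_pos : 0 < ‖V‖ := hV.trans_le (Complex.re_le_norm V)

lemma v_ne : V + ‖V‖ * z.1 ≠ 0 := by
  have := (v_ge hV hz).1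
  have := V_pos hV hz
  exact norm_pos_iff.1 (by linarith)

include hP

lemma Qs_sub : ‖Qs V P z - 2 * V‖ ≤ ‖V‖ := by
  obtain ⟨h1, h2⟩ := v_ge hV hz
  have h0 := V_pos hV hz
  have h3 : ‖z.2‖ ≤ 1 / 8 := (norm_snd_le z).trans (mem_ball_zero_iff.1 hz).le
  have e : Qs V P z - 2 * V =
      2 * (‖V‖ * z.1) + P ^ 2 + ‖V‖ ^ 2 * z.2 / (2 * (V + ‖V‖ * z.1)) := by rw [Qs]; ring
  have h4 : ‖(‖V‖ : ℂ) ^ 2 * z.2 / (2 * (V + ‖V‖ * z.1))‖ ≤ ‖V‖ / 8 := by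
    rw [norm_div, norm_mul, norm_mul, norm_pow, Complex.norm_real, norm_norm, Complex.norm_two,
      div_le_iff₀ (by linarith)]
    nlinarith [mul_le_mul_of_nonneg_left h3 (sq_nonneg ‖V‖)]
  rw [e]
  refine (norm_add₃_le).trans ?_
  rw [norm_mul, Complex.norm_two, norm_pow]
  linarith

lemma Qs_norm : ‖V‖ ≤ ‖Qs V P z‖ ∧ ‖Qs V P z‖ ≤ 3 * ‖V‖ := by
  have h := Qs_sub hV hP hz
  have h1 := norm_sub_norm_le (2 * V) (2 * V - Qs V P z)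
  have h2 := norm_add_le (Qs V P z - 2 * V) (2 * V)
  rw [sub_sub_cancel, norm_sub_rev] at h1
  rw [sub_add_cancel] at h2
  rw [norm_mul, Complex.norm_two] at h1 h2
  constructor <;> linarith

lemma Qs_slit : Qs V P z ∈ slitPlane := by
  by_contra hn
  rw [mem_slitPlane_iff, not_or, not_lt, not_not] at hn
  have h := Qs_sub hV hP hz
  have h0 := V_pos hV hz
  set Q := Qs V P z
  have h1 : ‖Q - 2 * V‖ ^ 2 ≤ ‖V‖ ^ 2 := by gcongr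
  rw [Complex.sq_norm, Complex.sq_norm, normSq_apply, normSq_apply] at h1
  have h2 : 0 < ‖V‖ ^ 2 := by positivity
  rw [Complex.sq_norm, normSq_apply] at h2
  simp only [sub_re, sub_im, mul_re, mul_im, re_ofNat, im_ofNat, hn.2] at h1
  nlinarith [hn.1, sq_nonneg Q.re]

end scaled

/-- momentum in the scaled variables -/
def Gp (X V P : ℂ) (z : ℂ × ℂ) : ℂ := Ef X (V + ‖V‖ * z.1) * P / Complex.sqrt (Qs V P z)

/-- `Lag - p Lp` in the scaled variables -/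
def GLam (X V P : ℂ) (z : ℂ × ℂ) : ℂ :=
  Complex.sqrt (Qs V P z) * Ef X (V + ‖V‖ * z.1) - P * Gp X V P z

section bounds
variable {X V P : ℂ} (hV : 0 < V.re) (hV4 : ‖V‖ ≤ 4) (hP : ‖P‖ ^ 2 ≤ ‖V‖ / 4)
include hV hP

lemma diff_parts {z : ℂ × ℂ} (hz : z ∈ ball (0 : ℂ × ℂ) (1 / 8)) :
    DifferentiableAt ℂ (fun z => Complex.sqrt (Qs V P z)) z ∧
    DifferentiableAt ℂ (fun z : ℂ × ℂ => Ef X (V + ‖V‖ * z.1)) z ∧
    Complex.sqrt (Qs V P z) ≠ 0 := by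
  refine ⟨(differentiableAt_sqrt (Qs_slit hV hP hz)).comp z ?_, ?_, ?_⟩
  · unfold Qs
    have := v_ne hV hz
    fun_prop (disch := exact mul_ne_zero two_ne_zero this)
  · unfold Ef; fun_prop
  · intro h0
    exact slitPlane_ne_zero (Qs_slit hV hP hz) (by rw [← sqrt_sq' (z := Qs V P z), h0]; simp)

lemma Gp_diff : DifferentiableOn ℂ (Gp X V P) (ball 0 (1 / 8)) := fun z hz => by
  obtain ⟨h1, h2, h3⟩ := diff_parts (X := X) hV hP hz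
  have h4 : DifferentiableAt ℂ (fun z : ℂ × ℂ =>
      Ef X (V + ‖V‖ * z.1) * P / Complex.sqrt (Qs V P z)) z := by fun_prop (disch := exact h3)
  exact h4.differentiableWithinAt

lemma GLam_diff : DifferentiableOn ℂ (GLam X V P) (ball 0 (1 / 8)) := fun z hz => by
  obtain ⟨h1, h2, h3⟩ := diff_parts (X := X) hV hP hz
  exact ((h1.fun_mul h2).differentiableWithinAt).fun_sub ((Gp_diff hV hP z hz).const_mul P)

include hV4

omit hP in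
lemma Ef_le {z : ℂ × ℂ} (hz : z ∈ ball (0 : ℂ × ℂ) (1 / 8)) :
    ‖Ef X (V + ‖V‖ * z.1)‖ ≤ 2 * ‖Ef X V‖ := by
  have e : Ef X (V + ‖V‖ * z.1) = exp (-(‖V‖ * z.1) / 2) * Ef X V := by
    rw [Ef, Ef, ← Complex.exp_add]; congr 1; ring
  rw [e, norm_mul]
  refine mul_le_mul_of_nonneg_right ?_ (norm_nonneg _)
  have h1 : ‖-((‖V‖ : ℂ) * z.1) / 2‖ ≤ 1 / 4 := by
    rw [norm_div, norm_neg, Complex.norm_two]; linarith [(v_ge hV hz).2]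
  have h2 := Complex.norm_exp_sub_one_le (x := -((‖V‖ : ℂ) * z.1) / 2) (by linarith)
  have h3 := norm_le_norm_add_norm_sub' (exp (-((‖V‖ : ℂ) * z.1) / 2)) 1
  rw [norm_one] at h3
  linarith

lemma Gp_le {z : ℂ × ℂ} (hz : z ∈ ball (0 : ℂ × ℂ) (1 / 8)) :
    ‖Gp X V P z‖ ≤ 2 * ‖Ef X V‖ * ‖P‖ / √‖V‖ := by
  have h0 := V_pos hV hz
  rw [Gp, norm_div, norm_mul, norm_csqrt]
  have := Ef_le (X := X) hV hV4 hz
  gcongr
  exact (Qs_norm hV hP hz).1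

lemma GLam_le {z : ℂ × ℂ} (hz : z ∈ ball (0 : ℂ × ℂ) (1 / 8)) :
    ‖GLam X V P z‖ ≤ 5 * ‖Ef X V‖ * √‖V‖ := by
  have h0 := V_pos hV hz
  have hs : 0 < √‖V‖ := Real.sqrt_pos.2 h0
  have h1 := Ef_le (X := X) hV hV4 hz
  have h2 := Gp_le (X := X) hV hV4 hP hz
  have h3 : √‖Qs V P z‖ ≤ 2 * √‖V‖ := by
    rw [show 2 * √‖V‖ = √(4 * ‖V‖) by
      rw [Real.sqrt_mul (by norm_num), show (4 : ℝ) = 2 ^ 2 by norm_num, Real.sqrt_sq (by norm_num)]]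
    exact Real.sqrt_le_sqrt (by linarith [(Qs_norm hV hP hz).2])
  have h4 : ‖P‖ * (2 * ‖Ef X V‖ * ‖P‖ / √‖V‖) ≤ ‖Ef X V‖ * √‖V‖ := by
    rw [← mul_div_assoc, div_le_iff₀ hs, mul_assoc ‖Ef X V‖, Real.mul_self_sqrt h0.le]
    have k := mul_le_mul_of_nonneg_left hP (norm_nonneg (Ef X V))
    have k2 : ‖P‖ * (2 * ‖Ef X V‖ * ‖P‖) = 2 * (‖Ef X V‖ * ‖P‖ ^ 2) := by ring
    have k3 := mul_nonneg (norm_nonneg (Ef X V)) h0.le
    rw [k2]; linarith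
  refine (norm_sub_le _ _).trans ?_
  rw [norm_mul, norm_mul, norm_csqrt]
  have h5 := mul_le_mul h3 h1 (norm_nonneg _) (by positivity)
  have h6 := mul_le_mul_of_nonneg_left h2 (norm_nonneg P)
  linarith

end bounds

lemma Qs_eq {V : ℂ} (hV : 0 < V.re) (P n t : ℂ) :
    V + ‖V‖ * (n / ‖V‖) = V + n ∧ Qs V P (n / ‖V‖, t ^ 2 / ‖V‖ ^ 2) = Qf (V + n) P t := by
  have h0 : (‖V‖ : ℂ) ≠ 0 := by exact_mod_cast (hV.trans_le (Complex.re_le_norm V)).ne'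
  have e : V + ‖V‖ * (n / ‖V‖) = V + n := by field_simp
  refine ⟨e, ?_⟩
  simp only [Qs, Qf, e]
  congr 2
  field_simp

lemma Gp_eq {V : ℂ} (hV : 0 < V.re) (X P n t : ℂ) :
    Gp X V P (n / ‖V‖, t ^ 2 / ‖V‖ ^ 2) = Lp X (V + n) P t := by
  simp only [Gp, Lp, Wf, (Qs_eq hV P n t).1, (Qs_eq hV P n t).2]

lemma GLam_eq {V : ℂ} (hV : 0 < V.re) (X P n t : ℂ) :
    GLam X V P (n / ‖V‖, t ^ 2 / ‖V‖ ^ 2) = Lag X (V + n) P t - P * Lp X (V + n) P t := by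
  simp only [GLam, Gp_eq hV, Lag, Wf, (Qs_eq hV P n t).1, (Qs_eq hV P n t).2]

/-- **The far 1-form.** At the cut `v = V + n(θ)`, `v_x = P` constant, `v_θ = t(θ)`, variation
`δ = dV + dn(θ)`, `n`, `dn` of mean zero, `|n|, |t| ≤ ε |V|`, `|dn| ≤ D`. -/
theorem flux_sym {s : ℝ} {x ξ : ℝ → ℂ} {v p q δ : ℝ × ℝ → ℂ} {V P dV : ℂ} {n t dn : ℝ → ℂ}
    {ε D : ℝ} (hV : 0 < V.re) (hV4 : ‖V‖ ≤ 4) (hP : ‖P‖ ^ 2 ≤ ‖V‖ / 4) (hε : ε ≤ 1 / 16)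
    (ev : ∀ θ ∈ Icc 0 (2 * Real.pi), v (s, θ) = V + n θ)
    (ep : ∀ θ ∈ Icc 0 (2 * Real.pi), p (s, θ) = P)
    (eq : ∀ θ ∈ Icc 0 (2 * Real.pi), q (s, θ) = t θ)
    (eδ : ∀ θ ∈ Icc 0 (2 * Real.pi), δ (s, θ) = dV + dn θ)
    (cn : ContinuousOn n (Icc 0 (2 * Real.pi))) (ct : ContinuousOn t (Icc 0 (2 * Real.pi)))
    (cd : ContinuousOn dn (Icc 0 (2 * Real.pi)))
    (hn : ∀ θ ∈ Icc 0 (2 * Real.pi), ‖n θ‖ ≤ ε * ‖V‖)
    (ht : ∀ θ ∈ Icc 0 (2 * Real.pi), ‖t θ‖ ≤ ε * ‖V‖)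
    (hd : ∀ θ ∈ Icc 0 (2 * Real.pi), ‖dn θ‖ ≤ D)
    (n0 : ∫ θ in (0 : ℝ)..(2 * Real.pi), n θ = 0) (d0 : ∫ θ in (0 : ℝ)..(2 * Real.pi), dn θ = 0) :
    ‖flux s x ξ v p q δ - 2 * Real.pi * (Lp (x s) V P 0 * dV +
        (Lag (x s) V P 0 - P * Lp (x s) V P 0) * ξ s)‖ ≤
      2 * Real.pi * ‖Ef (x s) V‖ * (1360 * ε ^ 2 * √‖V‖ * ‖ξ s‖ +
        544 * ε ^ 2 * ‖P‖ / √‖V‖ * ‖dV‖ + 32 * ε * ‖P‖ / √‖V‖ * D) := by
  have h0 : 0 < ‖V‖ := hV.trans_le (Complex.re_le_norm V)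
  have cu : ContinuousOn (fun θ => n θ / ‖V‖) (Icc 0 (2 * Real.pi)) := cn.div_const _
  have cτ : ContinuousOn (fun θ => t θ ^ 2 / (‖V‖ : ℂ) ^ 2) (Icc 0 (2 * Real.pi)) :=
    (ct.pow 2).div_const _
  have hu : ∀ θ ∈ Icc 0 (2 * Real.pi), ‖n θ / ‖V‖‖ ≤ ε := fun θ hθ => by
    rw [norm_div, Complex.norm_real, norm_norm, div_le_iff₀ h0]; exact hn θ hθ
  have hτ : ∀ θ ∈ Icc 0 (2 * Real.pi), ‖t θ ^ 2 / (‖V‖ : ℂ) ^ 2‖ ≤ ε ^ 2 := fun θ hθ => by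
    rw [norm_div, norm_pow, norm_pow, Complex.norm_real, norm_norm, div_le_iff₀ (by positivity),
      ← mul_pow]
    gcongr; exact ht θ hθ
  have u0 : ∫ θ in (0 : ℝ)..(2 * Real.pi), n θ / ‖V‖ = 0 := by
    rw [intervalIntegral.integral_div, n0, zero_div]
  obtain ⟨a1, a2, a3⟩ := avg_le (Gp_diff (X := x s) hV hP) (fun _ hz => Gp_le hV hV4 hP hz) hε cu cτ
    hu hτ u0
  obtain ⟨b1, -, b3⟩ := avg_le (GLam_diff (X := x s) hV hP) (fun _ hz => GLam_le hV hV4 hP hz) hε cu cτ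
    hu hτ u0
  have g0 : Gp (x s) V P 0 = Lp (x s) V P 0 := by
    simpa [Prod.mk_zero_zero] using Gp_eq hV (x s) P 0 0
  have l0 : GLam (x s) V P 0 = Lag (x s) V P 0 - P * Lp (x s) V P 0 := by
    simpa [Prod.mk_zero_zero] using GLam_eq hV (x s) P 0 0
  rw [← l0, ← g0]
  set A : ℝ → ℂ := fun θ => Gp (x s) V P (n θ / ‖V‖, t θ ^ 2 / (‖V‖ : ℂ) ^ 2) with hA
  set B : ℝ → ℂ := fun θ => GLam (x s) V P (n θ / ‖V‖, t θ ^ 2 / (‖V‖ : ℂ) ^ 2) with hB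
  set A0 := Gp (x s) V P 0
  set B0 := GLam (x s) V P 0
  have ii : ∀ {f : ℝ → ℂ}, ContinuousOn f (Icc 0 (2 * Real.pi)) →
      IntervalIntegrable f MeasureTheory.volume 0 (2 * Real.pi) := fun hf =>
    (hf.mono (uIcc_of_le tp_pos).subset).intervalIntegrable
  have e1 : flux s x ξ v p q δ = ∫ θ in (0 : ℝ)..(2 * Real.pi),
      (A θ * dV + B θ * ξ s + ((A θ - A0) * dn θ + A0 * dn θ)) := by
    refine intervalIntegral.integral_congr fun θ hθ => ?_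
    rw [uIcc_of_le tp_pos] at hθ
    simp only [hA, hB, Gp_eq hV, GLam_eq hV, ev θ hθ, ep θ hθ, eq θ hθ, eδ θ hθ]
    ring
  have c3 : ContinuousOn (fun θ => (A θ - A0) * dn θ) (Icc 0 (2 * Real.pi)) :=
    (a1.sub continuousOn_const).mul cd
  have k1 : ContinuousOn (fun θ => A θ * dV) (Icc 0 (2 * Real.pi)) := a1.mul continuousOn_const
  have k2 : ContinuousOn (fun θ => B θ * ξ s) (Icc 0 (2 * Real.pi)) := b1.mul continuousOn_const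
  have k3 : ContinuousOn (fun θ => A0 * dn θ) (Icc 0 (2 * Real.pi)) := continuousOn_const.mul cd
  rw [e1, integral_add ((ii k1).add (ii k2)) ((ii c3).add (ii k3)),
    integral_add (ii k1) (ii k2), integral_add (ii c3) (ii k3), integral_mul_const, integral_mul_const,
    integral_const_mul, d0]
  have hε0 : 0 ≤ ε := (norm_nonneg _).trans (hu 0 (left_mem_Icc.2 tp_pos))
  have c4 := norm_integral_le_of_norm_le_const (a := 0) (b := 2 * Real.pi)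
    (f := fun θ => (A θ - A0) * dn θ) (C := 16 * (2 * ‖Ef (x s) V‖ * ‖P‖ / √‖V‖) * ε * D)
    (fun θ hθ => by
      rw [uIoc_of_le tp_pos] at hθ
      have hθ' := Ioc_subset_Icc_self hθ
      rw [norm_mul]
      exact mul_le_mul (a2 θ hθ') (hd θ hθ') (norm_nonneg _) (by positivity))
  rw [sub_zero, abs_of_nonneg tp_pos] at c4
  have e2 : ∀ I1 I2 I3 : ℂ, I1 * dV + I2 * ξ s + (I3 + A0 * 0) - 2 * Real.pi * (A0 * dV + B0 * ξ s) =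
      (I2 - 2 * Real.pi * B0) * ξ s + (I1 - 2 * Real.pi * A0) * dV + I3 := fun _ _ _ => by ring
  rw [e2]
  refine norm_add₃_le.trans ?_
  rw [norm_mul, norm_mul]
  have c5 := mul_le_mul_of_nonneg_right a3 (norm_nonneg dV)
  have c6 := mul_le_mul_of_nonneg_right b3 (norm_nonneg (ξ s))
  refine (add_le_add_three c6 c5 c4).trans (le_of_eq ?_)
  ring

end Crest.Agent.N250.Far
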