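import Crest.Agent.N250.B1.Far
import Crest.Agent.N250.B1.Stm

/-! # Row 250, block B1 (S8): the far integral of `FVS` at the level of jets -/

set_option autoImplicit false

open Set Filter Topology Metric Complex intervalIntegral

noncomputable section

namespace Crest.Agent.N250.Far

open B1

variable {ℓ : Ell}

lemma Lag_eq (x v p q : ℂ) : B1.Lag x v p q = Act.Lag x v p q := by
  simp only [B1.Lag, Act.Lag, Act.Wf, Act.Ef, Act.Qf, Po.QQ, Complex.sqrt, one_div]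

lemma Mom_eq (x v p q : ℂ) : B1.Mom x v p q = Act.Lp x v p q := by
  simp only [B1.Mom, Act.Lp, Act.Wf, Act.Ef, Act.Qf, Po.QQ, Complex.sqrt]
  rw [show (-1 / 2 : ℂ) = -(2⁻¹) by ring, cpow_neg]
  ring

lemma xr_one (R X : ℝ) : xr R X (i1 : II) = X := by
  simp only [xr, cub, i1]; norm_num

lemma gam_one (R : ℝ) (X : ℂ) : gam R X i1 = X := by
  simp only [gam, cub, i1, ContinuousMap.coe_mk]; norm_num

lemma hasSum_val (u : Wi (om ℓ)) (s : II) (θ : ℝ) :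
    HasSum (fun m => Wi.ex m θ * Wi.co u m s) (val u s θ) :=
  (Wi.hasSum_syn u θ).mapL (ContinuousMap.evalCLM ℂ s)

lemma val_cont (u : Wi (om ℓ)) (s : II) : Continuous (val u s) :=
  (ContinuousMap.evalCLM ℂ s).continuous.comp (Wi.continuous_syn u)

lemma val_mean (u : Wi (om ℓ)) (s : II) :
    ∫ θ in (0 : ℝ)..(2 * Real.pi), val u s θ = 2 * Real.pi * Wi.co u 0 s := by
  have h := Wi.integral_syn u 0
  simp only [neg_zero, Wi.ex_zero, one_smul] at h
  have h2 := (ContinuousMap.evalCLM ℂ s).intervalIntegral_comp_comm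
    ((Wi.continuous_syn u).intervalIntegrable (μ := MeasureTheory.volume) 0 (2 * Real.pi))
  rw [h] at h2
  simpa [val] using h2

/-- point values of a function without mode `0` at `s` -/
lemma val_le {R X M : ℝ} {f0 f : ℝ → ℝ} {u : Wi (om ℓ)} (h : WB R X f0 f u M) {s : II}
    (h0 : Wi.co u 0 s = 0) (hf0 : 0 < f0 (xr R X s)) (hf : 0 ≤ f (xr R X s)) (θ : ℝ) :
    ‖val u s θ‖ ≤ M * f (xr R X s) := by
  obtain ⟨β, hβ, hM, b0, b1⟩ := h
  have hb : ∀ m, ‖Wi.ex m θ * Wi.co u m s‖ ≤ β m * f (xr R X s) := fun m => by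
    rw [norm_mul, Wi.norm_ex, one_mul]
    by_cases hm : m = 0
    · subst hm
      rw [h0, norm_zero]
      exact mul_nonneg (nonneg_of_mul_nonneg_left ((norm_nonneg _).trans (b0 s)) hf0) hf
    · refine le_trans (le_mul_of_one_le_left (norm_nonneg _) (Real.one_le_exp ?_)) (b1 m hm s)
      exact mul_nonneg (sig_nonneg (by have := s.2.1; positivity)) (ℓ.nonneg m)
  refine ((hasSum_val u s θ).norm_le_of_bounded (hβ.hasSum.mul_right _) hb).trans ?_
  exact mul_le_mul_of_nonneg_right hM hf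

/-- a symmetric far slope -/
lemma val_slope {D : Dat ℓ} {J : Jt ℓ} {h : ℂ} (hbc : BC D J) (hH : D.2.1 = Wi.single _ 0 h)
    (θ : ℝ) : val (J 1) i1 θ = h := by
  refine (hasSum_val (J 1) i1 θ).unique ?_
  have := hasSum_single (f := fun m => Wi.ex m θ * Wi.co (J 1) m i1) 0 fun m hm => by
    rw [hbc.slope, hH, Wi.co_single_ne hm, mul_zero]
  simpa [hbc.slope, hH] using this

lemma adm_V {K X : ℝ} {a : ℂ} (hK : 0 ≤ K) (hX : 2 ≤ X) (hA : Adm K X a) :
    0 < (et a X).re ∧ ‖et a X‖ ≤ 9 / 4 ∧ ‖a‖ * X ^ 2 ≤ 5 / 2 ∧ 0 < rho K X X := by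
  have hX2 : 4 ≤ X ^ 2 := by nlinarith
  have h1 : ‖a * X ^ 2 / 2 - 1 / 8‖ < 9 / 8 := by
    have : 0 ≤ 2 * K / X ^ 2 := by positivity
    unfold Adm at hA; linarith
  set ζ : ℂ := a * X ^ 2 / 2 with hζ
  set t : ℝ := 1 - 2 / X ^ 2 with ht
  have hq : 0 < 2 / X ^ 2 := by positivity
  have hq1 : 2 / X ^ 2 ≤ 1 := by rw [div_le_one (by positivity)]; linarith
  have e : et a X = 1 + t * ζ := by
    have : (X : ℂ) ≠ 0 := by exact_mod_cast (by linarith : X ≠ 0)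
    simp only [et, hζ, ht]; push_cast; field_simp
  have h2 : ‖ζ‖ ≤ 5 / 4 := by
    have := norm_le_norm_add_norm_sub' ζ (1 / 8)
    rw [show ‖(1 / 8 : ℂ)‖ = 1 / 8 by simp] at this
    linarith
  have h3 : -1 < ζ.re := by
    have := (abs_le.1 (Complex.abs_re_le_norm (ζ - 1 / 8))).1
    rw [show (ζ - 1 / 8).re = ζ.re - 1 / 8 by simp] at this
    linarith
  refine ⟨?_, ?_, ?_, ?_⟩
  · rw [e]
    simp only [add_re, one_re, re_ofReal_mul]
    nlinarith
  · rw [e]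
    refine (norm_add_le _ _).trans ?_
    rw [norm_one, norm_mul, Complex.norm_real, Real.norm_eq_abs, abs_of_nonneg (by linarith)]
    nlinarith [norm_nonneg ζ]
  · rw [hζ, norm_div, norm_mul, norm_pow, Complex.norm_real, Real.norm_eq_abs, sq_abs,
      Complex.norm_two] at h2
    linarith
  · have e2 : (X ^ 2 - 2) / X ^ 2 = t := by rw [ht]; field_simp
    rw [rho, e2]
    have : 0 ≤ 2 * K / X ^ 2 := by positivity
    nlinarith

/-- the far integral of `FVS` -/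
def farI (R : ℝ) (X a : ℂ) (J : Jt ℓ) (X' a' : ℂ) (J' : Jt ℓ) : ℂ :=
  ∫ θ in (0 : ℝ)..(2 * Real.pi),
    ((B1.Lag X (vj R X a J i1 θ 0) (vj R X a J i1 θ 1) (vj R X a J i1 θ 3) -
        vj R X a J i1 θ 1 * Mom X (vj R X a J i1 θ 0) (vj R X a J i1 θ 1) (vj R X a J i1 θ 3)) * X' +
      Mom X (vj R X a J i1 θ 0) (vj R X a J i1 θ 1) (vj R X a J i1 θ 3) *
        (a' * (X ^ 2 - 2) / 2 + a * X * X' + val (J' 0) i1 θ))

/-- **The far 1-form at the level of jets**, `V = η(X)`, `P = a X + h`. -/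
theorem far_form {R K g g' X e D : ℝ} {a h X' a' : ℂ} {c : CI} {Dt : Dat ℓ} {J J' : Jt ℓ}
    (hg : Ex g g') (hK : 0 ≤ K) (hX : 2 ≤ X) (hA : Adm K X a) (he : e ≤ 1 / 64)
    (hj : IsJet c J) (hbc : BC Dt J) (hH : Dt.2.1 = Wi.single _ 0 h) (hB : InB R K g g' X a e J)
    (hP : ‖a * X + h‖ ^ 2 ≤ ‖et a X‖ / 4) (h0 : Wi.co (J' 0) 0 i1 = 0)
    (hD : ∀ θ, ‖val (J' 0) i1 θ‖ ≤ D) :
    ‖farI R X a J X' a' J' - 2 * Real.pi *
        (Mom X (et a X) (a * X + h) 0 * (a' * (X ^ 2 - 2) / 2 + a * X * X') +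
          (B1.Lag X (et a X) (a * X + h) 0 - (a * X + h) * Mom X (et a X) (a * X + h) 0) * X')‖ ≤
      2 * Real.pi * Real.exp (-X ^ 2 / 4) * X ^ (-g) *
        (X ^ (-g) * (11 * ‖X'‖ + 2 * ‖a' * (X ^ 2 - 2) / 2 + a * X * X'‖) + ‖a * X + h‖ * D) := by
  obtain ⟨hV, hV4, -, hρ⟩ := adm_V hK hX hA
  obtain ⟨g1, g2, g3⟩ := hg
  set V := et a X with hVd
  set P := a * X + h
  set dV := a' * (X ^ 2 - 2) / 2 + a * X * X'
  have hV0 : 0 < ‖V‖ := hV.trans_le (Complex.re_le_norm V)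
  have hX0 : 0 < X := by linarith
  have hxg : X ^ (-g) ≤ 1 := Real.rpow_le_one_of_one_le_of_nonpos (by linarith) (by linarith)
  have hxg0 : 0 < X ^ (-g) := Real.rpow_pos_of_pos hX0 _
  have hW : 0 ≤ W g g' a X := by unfold W; positivity
  have hD0 : 0 ≤ D := (norm_nonneg _).trans (hD 0)
  have n1 := fun θ => val_le hB.b0 (s := i1) hbc.far0 (by rw [xr_one]; exact hρ)
    (by rw [xr_one]; exact hW) θ
  have n3 := fun θ => val_le hB.b3 (s := i1) (by rw [hj.t0]; simp) one_pos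
    (by rw [xr_one]; exact hW) θ
  rw [xr_one] at n1 n3
  set κ := ‖V‖ ^ (g' - 3 / 2) with hκ
  have hκ0 : 0 < κ := Real.rpow_pos_of_pos hV0 _
  have hκ2 : κ ≤ 2 := by
    calc κ ≤ (4 : ℝ) ^ (g' - 3 / 2) := Real.rpow_le_rpow hV0.le (by linarith) (by linarith)
      _ ≤ (4 : ℝ) ^ (1 / 2 : ℝ) := Real.rpow_le_rpow_of_exponent_le (by norm_num) (by linarith)
      _ = 2 := by rw [← Real.sqrt_eq_rpow, show (4 : ℝ) = 2 ^ 2 by norm_num, Real.sqrt_sq zero_le_two]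
  have hs0 : 0 < √‖V‖ := Real.sqrt_pos.2 hV0
  have hs2 : √‖V‖ ≤ 2 := Real.sqrt_le_iff.2 ⟨zero_le_two, by linarith⟩
  set ε := X ^ (-g) * κ * √‖V‖ / 64 with hε
  have eW : W g g' a X = X ^ (-g) * κ * √‖V‖ * ‖V‖ := by
    rw [W, ← hVd, hκ, Real.sqrt_eq_rpow, mul_assoc, mul_assoc, ← Real.rpow_add_one hV0.ne',
      ← Real.rpow_add hV0]
    congr 2; ring
  have hle : e * W g g' a X ≤ ε * ‖V‖ := by
    have := mul_le_mul_of_nonneg_right he hW
    rw [hε]; rw [eW] at this ⊢; linarith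
  have hε1 : ε ≤ X ^ (-g) / 16 := by
    have : κ * √‖V‖ ≤ 4 := by nlinarith
    rw [hε]; nlinarith
  have hε0 : 0 ≤ ε := by positivity
  have key := flux_sym (s := 1) (x := fun _ => (X : ℂ)) (ξ := fun _ => X')
    (v := fun z => V + val (J 0) i1 z.2) (p := fun _ => P) (q := fun z => val (J 3) i1 z.2)
    (δ := fun z => dV + val (J' 0) i1 z.2) (V := V) (P := P) (dV := dV) (n := val (J 0) i1)
    (t := val (J 3) i1) (dn := val (J' 0) i1) (ε := ε) (D := D) hV (by linarith) hP (by linarith)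
    (fun _ _ => rfl) (fun _ _ => rfl) (fun _ _ => rfl) (fun _ _ => rfl)
    (val_cont _ _).continuousOn (val_cont _ _).continuousOn (val_cont _ _).continuousOn
    (fun θ _ => (n1 θ).trans hle) (fun θ _ => (n3 θ).trans hle) (fun θ _ => hD θ)
    (by rw [val_mean, hbc.far0, mul_zero]) (by rw [val_mean, h0, mul_zero])
  have e1 : farI R X a J X' a' J' = Act.flux 1 (fun _ => (X : ℂ)) (fun _ => X')
      (fun z => V + val (J 0) i1 z.2) (fun _ => P) (fun z => val (J 3) i1 z.2)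
      (fun z => dV + val (J' 0) i1 z.2) := by
    refine intervalIntegral.integral_congr fun θ _ => ?_
    simp only [vj, gam_one, val_slope hbc hH, Lag_eq, Mom_eq, Matrix.cons_val_zero,
      Matrix.cons_val_one, Matrix.cons_val]
    ring
  rw [e1, Lag_eq, Mom_eq]
  refine key.trans ?_
  have hE : ‖Act.Ef X V‖ ≤ Real.exp (-X ^ 2 / 4) := by
    rw [Act.Ef, Complex.norm_exp]
    refine Real.exp_le_exp.2 ?_
    have : (-(X : ℂ) ^ 2 / 4 - V / 2).re = -X ^ 2 / 4 - V.re / 2 := by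
      rw [show (-(X : ℂ) ^ 2 / 4 - V / 2) = ((-X ^ 2 / 4 : ℝ) : ℂ) - V / 2 by push_cast; ring]
      simp only [sub_re, ofReal_re, div_ofNat_re]
    rw [this]; linarith
  have hPs : ‖P‖ ≤ √‖V‖ / 2 := by
    refine abs_le_of_sq_le_sq' ?_ (by positivity) |>.2
    rw [div_pow, Real.sq_sqrt hV0.le]; linarith
  have hε2 : ε ^ 2 ≤ (X ^ (-g)) ^ 2 / 256 := by nlinarith
  have t1 : 1360 * ε ^ 2 * √‖V‖ ≤ 11 * (X ^ (-g)) ^ 2 := by nlinarith [sq_nonneg ε]
  have t2 : 544 * ε ^ 2 * ‖P‖ / √‖V‖ ≤ 2 * (X ^ (-g)) ^ 2 := by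
    rw [div_le_iff₀ hs0]
    have := mul_le_mul hε2 hPs (norm_nonneg _) (by positivity)
    nlinarith [mul_pos (pow_pos hxg0 2) hs0]
  have t3 : 32 * ε * ‖P‖ / √‖V‖ ≤ X ^ (-g) * ‖P‖ := by
    rw [div_le_iff₀ hs0, hε]
    have := mul_le_mul_of_nonneg_left hκ2
      (mul_nonneg (mul_nonneg hxg0.le (norm_nonneg P)) hs0.le)
    nlinarith
  have t4 := add_le_add_three (mul_le_mul_of_nonneg_right t1 (norm_nonneg X'))
    (mul_le_mul_of_nonneg_right t2 (norm_nonneg dV)) (mul_le_mul_of_nonneg_right t3 hD0)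
  refine (mul_le_mul (mul_le_mul_of_nonneg_left hE (by positivity)) t4 (by positivity)
    (by positivity)).trans (le_of_eq ?_)
  ring

end Crest.Agent.N250.Far
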