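import Crest.Agent.N250.B1.Far2
import Crest.Agent.N250.B1.Reg
import Crest.Agent.N250.HJ.Main

/-! # Row 250, block B1 (S8): the far integral against the Hamilton–Jacobi boundary action -/

set_option autoImplicit false

open Set Filter Topology Metric Complex

noncomputable section

namespace Crest.Agent.N250.Far

open B1

variable {ℓ : Ell} {N : ℕ} {K X : ℝ} {a : ℂ}

/-- admissible far parameters of the solver are admissible for the ansatz -/
lemma hj_adm (hK : 7 * ((N : ℝ) + 1) / 4 ≤ K) (hX : 2 ≤ X) (hKX : 4 * K ≤ X ^ 2)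
    (hA : Adm K X a) : HJ.Adm N X (et a X) ∧ 2 * K ≤ ‖et a X‖ * X ^ 2 := by
  have hN0 : (0 : ℝ) ≤ N := Nat.cast_nonneg N
  have p : Rg.Pt K X a X := ⟨hX, le_rfl, by linarith, hKX, hA⟩
  have hX0 := p.X_pos
  have h1 : 2 * K ≤ ‖et a X‖ * X ^ 2 := by
    rw [← div_le_iff₀ (by positivity)]
    exact p.k_le_rho.trans (p.rho_le.trans (re_le_norm _))
  refine ⟨⟨by exact_mod_cast hX0.ne', p.re_pos, by linarith [p.norm_le], ?_⟩, h1⟩
  rw [HJ.ww, norm_div, norm_one, norm_mul, norm_mul, norm_pow, Complex.norm_real, Complex.norm_two,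
    Real.norm_eq_abs, sq_abs]
  exact one_div_le_one_div_of_le (by positivity) (by linarith)

lemma slope_le {X V : ℂ} (h : HJ.Adm N X V) (hN : HJ.N0 ≤ N) : ‖HJ.slope N X V‖ ≤ 24 / ‖X‖ := by
  have h1 := h.tau_le hN
  have h2 := h.le_cs hN
  have h3 : 0 < ‖X‖ := norm_pos_iff.2 h.hX
  rw [HJ.slope, norm_div, norm_mul, norm_mul, norm_neg, Complex.norm_two,
    div_le_div_iff₀ (by positivity) h3]
  nlinarith [mul_le_mul_of_nonneg_left h1 h3.le, mul_le_mul_of_nonneg_left h2 h3.le]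

lemma Mom_slope {X V : ℂ} (h : HJ.Adm N X V) (hN : HJ.N0 ≤ N) :
    Mom X V (HJ.slope N X V) 0 = -2 * HJ.EE X V * HJ.tau N X V / (X * HJ.rr V) ∧
    B1.Lag X V (HJ.slope N X V) 0 - HJ.slope N X V * Mom X V (HJ.slope N X V) 0 =
      HJ.EE X V * HJ.rr V * HJ.cs N X V := by
  have e : Po.QQ V (HJ.slope N X V) 0 = 2 * V + HJ.slope N X V ^ 2 := by simp [Po.QQ]
  have e1 : Mom X V (HJ.slope N X V) 0 =
      HJ.EE X V * HJ.slope N X V / (HJ.rr V / HJ.cs N X V) := by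
    rw [Mom, e, show (-1 / 2 : ℂ) = -(1 / 2) by ring, cpow_neg, h.sqrt_Q hN, HJ.EE]; ring
  refine ⟨by rw [e1, h.mom hN], ?_⟩
  rw [e1, ← h.ham hN, B1.Lag, e, h.sqrt_Q hN, HJ.EE]; ring

/-- **(D1) at the level of one end**, any solver constant `K ≥ 0`. -/
theorem far_HJ' {R g g' e D : ℝ} {X' a' : ℂ} {c : CI} {Dt : Dat ℓ} {J J' : Jt ℓ} (hN : HJ.N0 ≤ N)
    (hg : Ex g g') (hK : 0 ≤ K) (hX : 2 ≤ X) (hA : Adm K X a) (h : HJ.Adm N X (et a X))
    (he : e ≤ 1 / 64) (hj : IsJet c J) (hbc : BC Dt J)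
    (hH : Dt.2.1 = Wi.single _ 0 (HJ.slope N X (et a X) - a * X)) (hB : InB R K g g' X a e J)
    (h0 : Wi.co (J' 0) 0 i1 = 0) (hD : ∀ θ, ‖val (J' 0) i1 θ‖ ≤ D) :
    ‖farI R X a J X' a' J' - 2 * Real.pi *
        (HJ.EE X (et a X) * HJ.rr (et a X) * HJ.nu N X (et a X) * X' +
          -2 * HJ.EE X (et a X) * HJ.tau N X (et a X) / (X * HJ.rr (et a X)) *
            (a' * (X ^ 2 - 2) / 2 + a * X * X')) +
        2 * Real.pi * HJ.R N X (et a X) * X'‖ ≤
      2 * Real.pi * Real.exp (-X ^ 2 / 4) * X ^ (-g) *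
        (X ^ (-g) * (11 * ‖X'‖ + 2 * ‖a' * (X ^ 2 - 2) / 2 + a * X * X'‖) + 24 / X * D) := by
  have hX0 : 0 < X := by linarith
  have hs := slope_le h hN
  rw [Complex.norm_real, Real.norm_eq_abs, abs_of_pos hX0] at hs
  have eP : a * X + (HJ.slope N X (et a X) - a * X) = HJ.slope N X (et a X) := by ring
  have hP : ‖HJ.slope N X (et a X)‖ ^ 2 ≤ ‖et a X‖ / 4 := by
    refine (pow_le_pow_left₀ (norm_nonneg _) hs 2).trans ?_
    have h1 := h.w_small hN
    have h2 : 0 < ‖et a X‖ := norm_pos_iff.2 h.hV0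
    rw [HJ.ww, norm_div, norm_one, norm_mul, norm_mul, norm_pow, Complex.norm_real,
      Complex.norm_two, Real.norm_eq_abs, sq_abs, div_le_div_iff₀ (by positivity) (by norm_num)] at h1
    rw [div_pow, div_le_iff₀ (by positivity)]
    linarith
  have key := far_form (R := R) (X' := X') (a' := a') hg hK hX hA he hj hbc hH hB
    (by rwa [eP]) h0 hD
  rw [eP, (Mom_slope h hN).2, (Mom_slope h hN).1] at key
  have hD0 : 0 ≤ D := (norm_nonneg _).trans (hD 0)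
  refine le_trans (le_of_eq ?_) (key.trans ?_)
  · congr 1; rw [HJ.R]; ring
  · have := Real.rpow_pos_of_pos hX0 (-g)
    gcongr

/-- **(D1) at the level of one end**: far integral of `FVS` minus `2π dS` is `-2π R dX` up to the square of
the non-symmetric part. -/
theorem far_HJ {R g g' e D : ℝ} {X' a' : ℂ} {c : CI} {Dt : Dat ℓ} {J J' : Jt ℓ} (hN : HJ.N0 ≤ N)
    (hg : Ex g g') (hK : 7 * ((N : ℝ) + 1) / 4 ≤ K) (hX : 2 ≤ X) (hKX : 4 * K ≤ X ^ 2)
    (hA : Adm K X a) (he : e ≤ 1 / 64) (hj : IsJet c J) (hbc : BC Dt J)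
    (hH : Dt.2.1 = Wi.single _ 0 (HJ.slope N X (et a X) - a * X)) (hB : InB R K g g' X a e J)
    (h0 : Wi.co (J' 0) 0 i1 = 0) (hD : ∀ θ, ‖val (J' 0) i1 θ‖ ≤ D) :
    ‖farI R X a J X' a' J' - 2 * Real.pi *
        (HJ.EE X (et a X) * HJ.rr (et a X) * HJ.nu N X (et a X) * X' +
          -2 * HJ.EE X (et a X) * HJ.tau N X (et a X) / (X * HJ.rr (et a X)) *
            (a' * (X ^ 2 - 2) / 2 + a * X * X')) +
        2 * Real.pi * HJ.R N X (et a X) * X'‖ ≤
      2 * Real.pi * Real.exp (-X ^ 2 / 4) * X ^ (-g) *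
        (X ^ (-g) * (11 * ‖X'‖ + 2 * ‖a' * (X ^ 2 - 2) / 2 + a * X * X'‖) + 24 / X * D) := by
  obtain ⟨h, h1⟩ := hj_adm hK hX hKX hA
  have hN0 : (1000000 : ℝ) ≤ N := by exact_mod_cast hN
  have hX0 : 0 < X := by linarith
  have hs := slope_le h hN
  rw [Complex.norm_real, Real.norm_eq_abs, abs_of_pos hX0] at hs
  have eP : a * X + (HJ.slope N X (et a X) - a * X) = HJ.slope N X (et a X) := by ring
  have hP : ‖HJ.slope N X (et a X)‖ ^ 2 ≤ ‖et a X‖ / 4 := by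
    refine (pow_le_pow_left₀ (norm_nonneg _) hs 2).trans ?_
    rw [div_pow, div_le_iff₀ (by positivity)]
    linarith
  have key := far_form (R := R) (X' := X') (a' := a') hg (by linarith) hX hA he hj hbc hH hB
    (by rwa [eP]) h0 hD
  rw [eP, (Mom_slope h hN).2, (Mom_slope h hN).1] at key
  have hD0 : 0 ≤ D := (norm_nonneg _).trans (hD 0)
  refine le_trans (le_of_eq ?_) (key.trans ?_)
  · congr 1; rw [HJ.R]; ring
  · have := Real.rpow_pos_of_pos hX0 (-g)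
    gcongr

end Crest.Agent.N250.Far
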