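import Crest.Agent.N250.B1.Low

/-!
Row 250, helper75 (S2).  Mode `0`: `w'' = (x/2) w' - w + g`, weight `ρ = 1 - A x²/2`.
-/

set_option autoImplicit false

open Set Filter Topology

namespace Crest.Agent.N250.B1

lemma loB0 {R X A : ℝ} (hR : 4 ≤ R) (hRX : R ≤ X) (hρ : ∀ x ∈ Icc R X, 0 < 1 - A * x ^ 2 / 2) :
    LoB R X (fun x => (x : ℂ) / 2) (fun _ => -1) (fun x => ((2 * x / (x ^ 2 - 2) : ℝ) : ℂ))
      (fun x => (((2 * (x ^ 2 - 2) - 2 * x * (2 * x)) / (x ^ 2 - 2) ^ 2 : ℝ) : ℂ))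
      (fun _ => 1 / 2) (fun x => 2 / x) (fun x => -2 / x ^ 2) (fun x => 1 - A * x ^ 2 / 2)
      (fun x => -(A * x)) := by
  have h2 : ∀ x ∈ Icc R X, 14 ≤ x ^ 2 - 2 := fun x hx => by nlinarith [hx.1]
  have h0 : ∀ x ∈ Icc R X, 0 < x := fun x hx => by linarith [hx.1]
  refine ⟨by fun_prop, Dv.ofReal (Dv.of_hasDerivAt fun x hx => ?_),
    Dv.of_hasDerivAt fun x hx => ?_, Dv.of_hasDerivAt fun x _ => ?_, hρ, by
      have := h0 X (right_mem_Icc.2 hRX); positivity, fun x hx => ?_, fun x hx => ?_,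
    fun x hx => ?_⟩
  · have a1 : HasDerivAt (fun x : ℝ => 2 * x) 2 x := by simpa using (hasDerivAt_id x).const_mul 2
    have a2 : HasDerivAt (fun x : ℝ => x ^ 2 - 2) (2 * x) x := by
      simpa using (hasDerivAt_pow 2 x).sub_const 2
    exact a1.div a2 (by linarith [h2 x hx])
  · have := (hasDerivAt_inv (h0 x hx).ne').const_mul 2
    refine (this.congr_deriv (by ring)).congr_of_eventuallyEq (Eventually.of_forall fun y => ?_)
    simp [div_eq_mul_inv]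
  · have := (((hasDerivAt_pow 2 x).const_mul A).div_const 2).const_sub 1
    exact this.congr_deriv (by simp; ring)
  · have e : ((x : ℂ) / 2 - ((2 * x / (x ^ 2 - 2) : ℝ) : ℂ)).re = x / 2 - 2 * x / (x ^ 2 - 2) := by
      rw [Complex.sub_re, Complex.ofReal_re]; simp
    rw [e]
    have a := h2 x hx
    have b := h0 x hx
    have c : (x / 2 - 2 * x / (x ^ 2 - 2)) * (2 / x) = 1 - 4 / (x ^ 2 - 2) := by
      field_simp; ring
    have d : 4 / (x ^ 2 - 2) ≤ 1 / 2 := by rw [div_le_iff₀ (by linarith)]; linarith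
    have f : -2 / x ^ 2 ≤ 0 := div_nonpos_of_nonpos_of_nonneg (by norm_num) (by positivity)
    rw [c]; linarith
  · rw [Complex.ofReal_re]
    have a := h2 x hx
    have b := h0 x hx
    have c : 2 / x ≤ 2 * x / (x ^ 2 - 2) := by
      rw [div_le_div_iff₀ b (by linarith)]; nlinarith
    have d := mul_le_mul_of_nonneg_right c (hρ x hx).le
    have e : 2 / x * (1 - A * x ^ 2 / 2) = 2 / x - A * x := by field_simp
    linarith
  · have a : (x : ℂ) ^ 2 - 2 ≠ 0 := by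
      have := h2 x hx
      have h : ((x ^ 2 - 2 : ℝ) : ℂ) ≠ 0 := by exact_mod_cast (by linarith : x ^ 2 - 2 ≠ 0)
      simpa using h
    have : (-1 : ℂ) - ((((2 * (x ^ 2 - 2) - 2 * x * (2 * x)) / (x ^ 2 - 2) ^ 2 : ℝ) : ℂ) +
        ((2 * x / (x ^ 2 - 2) : ℝ) : ℂ) * ((2 * x / (x ^ 2 - 2) : ℝ) : ℂ) -
        (x : ℂ) / 2 * ((2 * x / (x ^ 2 - 2) : ℝ) : ℂ)) = 0 := by
      push_cast; field_simp; ring
    rw [this]; simp

/-- **mode 0**: `|g| ≤ M`, `|w X| ≤ M ρ X`, `X |w' X| ≤ M` give `|w| ≤ 4 M ρ`, `x |w'| ≤ 18 M` -/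
theorem low0 {R X A M : ℝ} (hR : 4 ≤ R) (hA : 0 ≤ A)
    (hρ : ∀ x ∈ Icc R X, 0 < 1 - A * x ^ 2 / 2) {g w w1 : ℝ → ℂ}
    (hs : Sol2 R X (fun x => (x : ℂ) / 2) (fun _ => -1) g w w1) (hM : 0 ≤ M)
    (hg : ∀ x ∈ Icc R X, ‖g x‖ ≤ M) (h0 : ‖w X‖ ≤ M * (1 - A * X ^ 2 / 2))
    (h1 : X * ‖w1 X‖ ≤ M) :
    ∀ x ∈ Icc R X, ‖w x‖ ≤ 4 * M * (1 - A * x ^ 2 / 2) ∧ x * ‖w1 x‖ ≤ 18 * M := by
  intro x hx
  have hRX : R ≤ X := hx.1.trans hx.2
  have hl : ∀ y ∈ Icc R X, ∀ C : ℝ, 0 ≤ C → ‖w y‖ ≤ C * (1 - A * y ^ 2 / 2) →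
      y * ‖((2 * y / (y ^ 2 - 2) : ℝ) : ℂ) * w y‖ ≤ 5 / 2 * C := by
    intro y hy C hC hw
    have a : 14 ≤ y ^ 2 - 2 := by nlinarith [hy.1]
    have b : 0 < y := by linarith [hy.1]
    rw [norm_mul, Complex.norm_real, Real.norm_of_nonneg (by positivity), ← mul_assoc]
    have c : y * (2 * y / (y ^ 2 - 2)) ≤ 5 / 2 := by
      rw [← mul_div_assoc, div_le_iff₀ (by linarith)]; nlinarith
    have d : ‖w y‖ ≤ C := hw.trans (by nlinarith [mul_nonneg hA (sq_nonneg y)])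
    exact mul_le_mul c d (norm_nonneg _) (by norm_num)
  have hX : X ∈ Icc R X := right_mem_Icc.2 hRX
  have X0 : 0 < X := by linarith
  have x0 : 0 < x := by linarith [hx.1]
  have k := (loB0 hR hRX hρ).le hs (M := 2 * M) (by linarith)
    (fun y hy => by linarith [hg y hy]) (h0.trans (by nlinarith [hρ X hX])) (by
      have a := hl X hX M hM h0
      have b := norm_sub_le (w1 X) (((2 * X / (X ^ 2 - 2) : ℝ) : ℂ) * w X)
      have c := mul_le_mul_of_nonneg_left b X0.le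
      rw [show 2 * (2 * M) * (2 / X) = 8 * M / X by ring, le_div_iff₀ X0]
      nlinarith) x hx
  obtain ⟨k1, k2⟩ := k
  have k1' : ‖w x‖ ≤ 4 * M * (1 - A * x ^ 2 / 2) := by linarith
  refine ⟨k1', ?_⟩
  have a := hl x hx (4 * M) (by linarith) k1'
  have b := norm_le_norm_sub_add (w1 x) (((2 * x / (x ^ 2 - 2) : ℝ) : ℂ) * w x)
  have c := mul_le_mul_of_nonneg_left b x0.le
  rw [show 2 * (2 * M) * (2 / x) = 8 * M / x by ring, le_div_iff₀ x0] at k2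
  nlinarith

end Crest.Agent.N250.B1
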