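import Crest.Agent.N250.B1.Lin3
import Crest.Agent.N250.B1.Wt
import Crest.Agent.N250.B1.Low0
import Crest.Agent.N250.B1.Low1

/-! # Row 250, block B1 (helper75): the a priori estimates of the modes `0, ± 1` -/

set_option autoImplicit false

open Set Filter Topology Complex

noncomputable section

namespace Crest.Agent.N250.B1

lemma dr_eq : dr = fun x : ℝ => (x : ℂ) / 2 := by funext x; simp [dr]

/-- **mode `0`** -/
theorem mest0 {R K X C : ℝ} (a : ℂ) (hR : 4 ≤ R) (hX : R ≤ X) (hK : 0 < K) (hKX : 2 * K ≤ X ^ 2)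
    (hC : 18 ≤ C) :
    MEst R X a 0 (fun _ => 1) 0 X⁻¹ ![fun x => C * rho K X x, fun x => C * x⁻¹, fun _ => C,
      fun _ => C, fun _ => C, fun _ => C] := by
  intro G w p M hM s hG hw hp x hx
  have X0 : 0 < X := by linarith
  have x0 : 0 < x := by linarith [hx.1]
  have hk : 0 < 2 * K / X ^ 2 := by positivity
  have hk1 : 2 * K / X ^ 2 ≤ 1 := by rw [div_le_one (by positivity)]; exact hKX
  set A := 2 * (1 - 2 * K / X ^ 2) / X ^ 2 with hA
  have hA0 : 0 ≤ A := div_nonneg (by linarith) (by positivity)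
  have hρ : ∀ y ∈ Icc R X, 0 < 1 - A * y ^ 2 / 2 := fun y hy => by
    have h1 : y ^ 2 ≤ X ^ 2 := by have : 0 ≤ y := by linarith [hy.1]
                                  gcongr; exact hy.2
    have h2 : A * X ^ 2 = 2 * (1 - 2 * K / X ^ 2) := by rw [hA]; field_simp
    nlinarith [mul_le_mul_of_nonneg_left h1 hA0]
  have e : rho K X x = 1 - A * x ^ 2 / 2 + A := by rw [rho, hA]; field_simp; ring
  have eV : Vx a 0 = fun _ => -1 := by funext y; simp [Vx]
  have hp0 : pt R X 0 = X := by simp [pt]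
  rw [hp0, mul_zero] at hw
  have s' := s
  rw [dr_eq, eV] at s'
  obtain ⟨k1, k2⟩ := low0 hR hA0 hρ s' hM (fun y hy => by simpa using hG y hy)
    (hw.trans (mul_nonneg hM (hρ X (right_mem_Icc.2 hX)).le))
    (by rw [← le_div_iff₀' X0]; simpa [div_eq_mul_inv] using hp) x hx
  have h1 := hρ x hx
  have h2 : 1 - A * x ^ 2 / 2 ≤ 1 := by nlinarith [mul_nonneg hA0 (sq_nonneg x)]
  have hMC : 18 * M ≤ M * C := by nlinarith
  have hMC0 : 0 ≤ M * C := by nlinarith
  refine ⟨?_, ?_, ?_, by simpa using hMC0, by simpa using hMC0, by simpa using hMC0⟩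
  · change ‖w x‖ ≤ M * (C * rho K X x)
    rw [e, ← mul_assoc]
    exact k1.trans (mul_le_mul (by linarith) (by linarith) h1.le hMC0)
  · change ‖p x‖ ≤ M * (C * x⁻¹)
    rw [← mul_assoc, ← div_eq_mul_inv, le_div_iff₀' x0]; linarith
  · change ‖dr x * p x + Vx a 0 x * w x + G x‖ ≤ M * C
    refine norm_add₃_le.trans ?_
    rw [norm_mul, norm_mul, norm_dr x0.le, eV, norm_neg, norm_one, one_mul]
    have := hG x hx
    nlinarith [mul_le_mul_of_nonneg_left h2 hM]

lemma sig_le_one (u : ℝ) : sig u ≤ 1 := by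
  have : 0 ≤ max (1 - u) 0 ^ 3 := pow_nonneg (le_max_right _ _) _
  unfold sig; linarith

lemma exp_sig {u t : ℝ} (hu : 0 ≤ u) (h0 : 0 ≤ t) (h1 : t ≤ 1) :
    Real.exp (-(sig u * t)) ≤ 1 ∧ 1 ≤ 3 * Real.exp (-(sig u * t)) := by
  have a := sig_nonneg hu
  have b := sig_le_one u
  refine ⟨Real.exp_le_one_iff.2 (by nlinarith), ?_⟩
  have h2 : Real.exp (sig u * t) ≤ 3 :=
    (Real.exp_le_exp.2 (by nlinarith : sig u * t ≤ 1)).trans (by linarith [Real.exp_one_lt_d9])
  rw [Real.exp_neg, ← div_eq_mul_inv, le_div_iff₀ (Real.exp_pos _)]; linarith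

lemma Ok.lo1w {ε R X g g' c : ℝ} {a : ℂ} {m : ℤ} (h : Ok ε a R X) (G : GG g g' c) (hm : m ^ 2 = 1) :
    Lo1 R X 1 (Vx a m) (l1 a) (l1' a) (mu a) (lm a) (W g g' a) (lam g g' (fun _ => 0) a) where
  R0 := h.ptR.xpos
  κ0 := one_pos
  dl := h.dv_l1
  dμ := h.dv_mu
  dΩ := (h.dv_W g g').congr (fun _ _ => rfl) fun x _ => by simp [lam]
  μ0 x hx := (h.pt hx).mu_pos
  Ω0 x hx := (h.pt hx).W_pos g g'
  lm_le x hx := (le_abs_self _).trans (h.pt hx).lm_le'
  lam_le x hx := (h.pt hx).lam_le' G le_rfl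
  l_le x hx := by
    have := (re_le_norm _).trans (h.pt hx).l1_le'
    have := (h.pt hx).xpos
    linarith
  gap x hx := by
    have := (h.pt hx).lam_sub_l1 G (τ1 := fun _ => 0) le_rfl
    have := (h.pt hx).mu_pos
    linarith
  res x hx := by
    have e : Vx a m x - (l1' a x + l1 a x * l1 a x - (x : ℂ) / 2 * l1 a x) = res a x := by
      have := (h.pt hx).res_eq hm
      change Vm a m x - _ = _
      linear_combination -this
    have := (h.pt hx).res_le'
    have := (h.pt hx).mu_pos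
    rw [e]; linarith

/-- modes `± 1` without the smoothing factor -/
theorem mest1' {ε R X g g' c : ℝ} {a : ℂ} {m : ℤ} (h : Ok ε a R X) (G : GG g g' c)
    (hm : m = 1 ∨ m = -1) :
    MEst R X a m (fun x => mu a x * W g g' a x) (W g g' a X * (et a X).re)
      (W g g' a X * (et a X).re / X)
      ![fun x => 360 * W g g' a x, fun x => 360 * (W g g' a x / (x * ‖et a x‖)),
        fun x => 360 * (W g g' a x / ‖et a x‖), fun x => 360 * W g g' a x,
        fun x => 360 * (x * W g g' a x), fun x => 360 * W g g' a x] := by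
  intro G' w p M hM s hG hw hp x hx
  have hm2 : m ^ 2 = 1 := by rcases hm with rfl | rfl <;> norm_num
  have hm1 : |(m : ℝ)| = 1 := by rcases hm with rfl | rfl <;> simp
  have hm3 : (m : ℝ) ^ 2 = 1 := by exact_mod_cast hm2
  have hp0 : pt R X m = X := by rcases hm with rfl | rfl <;> simp [pt]
  rw [hp0] at hw
  have s' := s
  rw [dr_eq] at s'
  have P := h.ptX
  have hW := P.W_pos g g'
  have hMW : 0 ≤ M * W g g' a X := mul_nonneg hM hW.le
  have hl : ∀ {y : ℝ}, Pt ε a y → y * ‖et a y‖ * ‖l1 a y‖ ≤ 8 := fun q => by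
    have := q.xpos; have := q.npos
    rw [← le_div_iff₀' (by positivity)]; exact q.l1_le_inv
  obtain ⟨k1, k2⟩ := (h.lo1w G hm2).le s' (M := 5 * M) (by linarith)
    (fun y hy => (hG y hy).trans (mul_le_mul_of_nonneg_right (by linarith)
      (mul_pos (h.pt hy).mu_pos ((h.pt hy).W_pos g g')).le))
    (by have := mul_le_mul_of_nonneg_left P.re_le_three hMW
        rw [div_one]; nlinarith)
    (by
      have X0 := P.xpos
      have hn := P.npos
      have h3 := P.norm_le
      have hμ := P.mu_pos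
      have e1 : X * ‖p X‖ ≤ M * W g g' a X * (mu a X * ‖et a X‖ ^ 2) := by
        rw [P.mu_mul, ← le_div_iff₀' X0]; exact hp.trans (le_of_eq (by ring))
      have e2 : X * (‖l1 a X‖ * ‖w X‖) ≤ M * W g g' a X * mu a X * ‖et a X‖ * 8 := by
        rw [← P.mu_mul] at hw
        calc X * (‖l1 a X‖ * ‖w X‖)
            ≤ X * (‖l1 a X‖ * (M * (W g g' a X * (mu a X * ‖et a X‖ ^ 2)))) := by gcongr
          _ = M * W g g' a X * mu a X * ‖et a X‖ * (X * ‖et a X‖ * ‖l1 a X‖) := by ring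
          _ ≤ _ := by gcongr; exact hl P
      have e3 := mul_le_mul_of_nonneg_left (norm_sub_le (p X) (l1 a X * w X)) X0.le
      rw [norm_mul] at e3
      have e4 : ‖et a X‖ ^ 2 ≤ 9 := by nlinarith
      have e5 : 0 ≤ M * W g g' a X * mu a X := by positivity
      nlinarith [mul_le_mul_of_nonneg_left e4 e5, mul_le_mul_of_nonneg_left h3 e5]) x hx
  rw [div_one] at k1
  have q := h.pt hx
  have x0 := q.xpos
  have hn := q.npos
  have hΩ : 0 ≤ M * W g g' a x := mul_nonneg hM (q.W_pos g g').le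
  have hμ := mul_le_mul_of_nonneg_left q.mu_norm_le hΩ
  have r1 : x * ‖et a x‖ * ‖p x‖ ≤ 360 * (M * W g g' a x) := by
    have e1 : ‖p x‖ ≤ ‖p x - l1 a x * w x‖ + ‖l1 a x‖ * ‖w x‖ := by
      rw [← norm_mul]; exact norm_le_norm_sub_add _ _
    have e2 := mul_le_mul_of_nonneg_left e1 (mul_pos x0 hn).le
    have e3 := mul_le_mul_of_nonneg_left k2 hn.le
    have e4 := mul_le_mul (hl q) k1 (norm_nonneg _) (by norm_num)
    nlinarith
  rw [hm1, hm3, one_mul, one_mul]
  have r0 : ‖w x‖ ≤ M * (360 * W g g' a x) := by linarith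
  refine ⟨r0, ?_, ?_, r0, ?_, r0⟩
  · change ‖p x‖ ≤ M * (360 * (W g g' a x / (x * ‖et a x‖)))
    rw [← mul_div_assoc, ← mul_div_assoc, le_div_iff₀' (by positivity)]; linarith
  · change ‖dr x * p x + Vx a m x * w x + G' x‖ ≤ M * (360 * (W g g' a x / ‖et a x‖))
    rw [← mul_div_assoc, ← mul_div_assoc, le_div_iff₀' hn]
    have e1 := mul_le_mul_of_nonneg_left
      (norm_add₃_le (a := dr x * p x) (b := Vx a m x * w x) (c := G' x)) hn.le
    rw [norm_mul, norm_mul, norm_dr x0.le] at e1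
    have e2 : ‖et a x‖ * ‖Vx a m x‖ ≤ 7 / 2 := by
      have := q.Vm_norm_le m
      rw [hm3, le_div_iff₀' hn] at this
      change ‖et a x‖ * ‖Vm a m x‖ ≤ _
      linarith
    have e3 := mul_le_mul e2 k1 (norm_nonneg _) (by norm_num)
    have e4 := mul_le_mul_of_nonneg_left (hG x hx) hn.le
    nlinarith
  · change ‖p x‖ ≤ M * (360 * (x * W g g' a x))
    have e1 : 1 ≤ x ^ 2 * ‖et a x‖ := by
      have h1 := q.one_le_norm
      have h2 : ε ≤ 1 := by have := q.small; norm_num at this; linarith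
      have h3 : ε * (x ^ 2 * ‖et a x‖) ≤ 1 * (x ^ 2 * ‖et a x‖) := by gcongr
      linarith
    have e2 := mul_le_mul_of_nonneg_right e1 (norm_nonneg (p x))
    have e3 := mul_le_mul_of_nonneg_left r1 x0.le
    nlinarith

/-- **modes `± 1`** -/
theorem mest1 {ε R X g g' c t C : ℝ} {a : ℂ} {m : ℤ} (h : Ok ε a R X) (G : GG g g' c)
    (hm : m = 1 ∨ m = -1) (h0 : 0 ≤ t) (h1 : t ≤ 1) (hC : 1080 ≤ C) :
    MEst R X a m (fun x => mu a x * W g g' a x * Real.exp (-(sig (x - R) * t)))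
      (W g g' a X * (et a X).re) (W g g' a X * (et a X).re * Real.exp (-(sig (X - R) * t)) / X)
      ![fun x => C * W g g' a x * Real.exp (-(sig (x - R) * t)),
        fun x => C * (W g g' a x / (x * ‖et a x‖)) * Real.exp (-(sig (x - R) * t)),
        fun x => C * (W g g' a x / ‖et a x‖) * Real.exp (-(sig (x - R) * t)),
        fun x => C * W g g' a x * Real.exp (-(sig (x - R) * t)),
        fun x => C * (x * W g g' a x) * Real.exp (-(sig (x - R) * t)),
        fun x => C * W g g' a x * Real.exp (-(sig (x - R) * t))] := by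
  have E : ∀ x ∈ Icc R X, Real.exp (-(sig (x - R) * t)) ≤ 1 ∧
      1 ≤ 3 * Real.exp (-(sig (x - R) * t)) := fun x hx => exp_sig (by linarith [hx.1]) h0 h1
  have k : ∀ x ∈ Icc R X, ∀ u : ℝ, 0 ≤ u →
      1 * (360 * u) ≤ C * u * Real.exp (-(sig (x - R) * t)) := fun x hx u hu => by
    have e1 := mul_le_mul_of_nonneg_left (E x hx).2 hu
    have e2 := mul_le_mul_of_nonneg_right hC (mul_nonneg hu (Real.exp_pos (-(sig (x - R) * t))).le)
    nlinarith
  have P := h.ptX
  refine (mest1' h G hm).mono zero_le_one (fun x hx => ?_) (one_mul _).ge ?_ fun i x hx => ?_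
  · rw [one_mul]
    exact mul_le_of_le_one_right (mul_pos (h.pt hx).mu_pos ((h.pt hx).W_pos g g')).le (E x hx).1
  · rw [one_mul]
    exact div_le_div_of_nonneg_right (mul_le_of_le_one_right
      (mul_pos (P.W_pos g g') P.repos).le (E X (right_mem_Icc.2 h.lt.le)).1) P.xpos.le
  · have := (h.pt hx).W_pos g g'
    have := (h.pt hx).xpos
    have := (h.pt hx).npos
    fin_cases i <;> exact k x hx _ (by positivity)

end Crest.Agent.N250.B1

end
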