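import Crest.Agent.N250.B1.Ex

/-! # Row 250, block B1 (helper24): a priori bounds for one Fourier mode on `[a, b]` -/

set_option autoImplicit false

open Set Filter Topology

noncomputable section

namespace Crest.Agent.N250.B1

/-- a positive weight with logarithmic derivative `l` -/
structure LD (a b : ℝ) (f l : ℝ → ℝ) : Prop where
  pos : ∀ x ∈ Icc a b, 0 < f x
  dv : Dv a b f fun x => l x * f x

section ld
variable {a b : ℝ} {f l u k : ℝ → ℝ}

lemma LD.mul (h : LD a b f l) (h' : LD a b u k) :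
    LD a b (fun x => f x * u x) fun x => l x + k x :=
  ⟨fun x hx => mul_pos (h.pos x hx) (h'.pos x hx), fun x hx => by
    exact ((h.dv x hx).fun_mul (h'.dv x hx)).congr_deriv (by ring)⟩

lemma LD.inv (h : LD a b f l) : LD a b (fun x => (f x)⁻¹) fun x => -l x :=
  ⟨fun x hx => inv_pos.2 (h.pos x hx), fun x hx => by
    have := (h.pos x hx).ne'
    exact ((h.dv x hx).fun_inv this).congr_deriv (by field_simp)⟩

lemma LD.id (ha : 0 < a) : LD a b (fun x => x) fun x => x⁻¹ :=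
  ⟨fun x hx => ha.trans_le hx.1, fun x hx => by
    have := (ha.trans_le hx.1).ne'
    exact (hasDerivWithinAt_id x (Icc a b)).congr_deriv (by field_simp)⟩

lemma LD.one : LD a b (fun _ => 1) fun _ => 0 :=
  ⟨fun _ _ => one_pos, fun x _ => by simpa using hasDerivWithinAt_const x (Icc a b) (1 : ℝ)⟩

/-- backward barrier in logarithmic form -/
theorem LD.back {y G β : ℝ → ℂ} {r : ℝ → ℝ} {M : ℝ} (h : LD a b f l) (hab : a ≤ b)
    (hy : Dv a b y fun x => β x * y x + G x) (hr : ∀ x ∈ Icc a b, 0 < r x)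
    (hl : ∀ x ∈ Icc a b, l x + r x ≤ (β x).re)
    (hG : ∀ x ∈ Icc a b, ‖G x‖ ≤ M * (r x * f x)) (hb : ‖y b‖ ≤ M * f b) :
    ∀ x ∈ Icc a b, ‖y x‖ ≤ M * f x :=
  max1_back (γ := fun x => r x * f x) hab hy h.dv h.pos
    (fun x hx => mul_pos (hr x (Ico_subset_Icc_self hx)) (h.pos x (Ico_subset_Icc_self hx)))
    (fun x hx => by
      have := mul_le_mul_of_nonneg_right (hl x (Ico_subset_Icc_self hx))
        (h.pos x (Ico_subset_Icc_self hx)).le
      linarith)
    (fun x hx => hG x (Ico_subset_Icc_self hx)) hb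

end ld

/-- the drift `x / 2` -/
def dr (x : ℝ) : ℂ := ((x / 2 : ℝ) : ℂ)

lemma dr_re (x : ℝ) : (dr x).re = x / 2 := Complex.ofReal_re _

lemma norm_dr {x : ℝ} (hx : 0 ≤ x) : ‖dr x‖ = x / 2 := by
  rw [dr, Complex.norm_real, Real.norm_of_nonneg (by positivity)]

lemma dr_cont : Continuous dr := by unfold dr; fun_prop

/-- **low modes**: factorisation through an approximate slow exponent `l`, both data at `b`. -/
theorem low {a b M : ℝ} {V G w p l l1 : ℝ → ℂ} {Ω Ω1 Γ lΓ : ℝ → ℝ} (ha : 4 ≤ a) (hab : a ≤ b)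
    (s : Sol2 a b dr V G w p) (hl : Dv a b l l1) (hΩ : Dv a b Ω Ω1)
    (hpos : ∀ x ∈ Icc a b, 0 < Ω x) (hΓ : LD a b Γ lΓ) (hlΓ : ∀ x ∈ Icc a b, lΓ x ≤ x / 8)
    (hl' : ∀ x ∈ Icc a b, (l x).re ≤ x / 8)
    (hres : ∀ x ∈ Icc a b, ‖V x - l1 x + dr x * l x - l x ^ 2‖ * Ω x ≤ Γ x / 8)
    (hsl : ∀ x ∈ Icc a b, Ω1 x - (l x).re * Ω x ≤ -(Γ x / x))
    (hG : ∀ x ∈ Icc a b, ‖G x‖ ≤ M * Γ x) (hw : ‖w b‖ ≤ M * Ω b)
    (hp : ‖p b - l b * w b‖ ≤ 4 * M * (Γ b * b⁻¹)) :
    ∀ x ∈ Icc a b, ‖w x‖ ≤ 8 * M * Ω x ∧ ‖p x - l x * w x‖ ≤ 8 * M * (Γ x * x⁻¹) := by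
  obtain ⟨x0, hx0, M1, -, -, e1, -, hle, -⟩ := exists_max_quot hab s.d0.cont hΩ.cont hpos
  have hb : b ∈ Icc a b := right_mem_Icc.2 hab
  have hM : 0 ≤ M := nonneg_of_mul_nonneg_left ((norm_nonneg _).trans hw) (hpos b hb)
  have hM1 : 0 ≤ M1 := nonneg_of_mul_nonneg_left (e1 ▸ norm_nonneg (w x0)) (hpos x0 hx0)
  have hx : ∀ x ∈ Icc a b, 0 < x := fun x hx => by linarith [hx.1]
  have dπ : Dv a b (fun x => p x - l x * w x) fun x => (dr x - l x) * (p x - l x * w x) +
      ((V x - l1 x + dr x * l x - l x ^ 2) * w x + G x) :=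
    (s.d1.sub (hl.mul s.d0)).congr (fun _ _ => rfl) fun x _ => by ring
  have hπ := (hΓ.mul (LD.id (b := b) (by linarith : 0 < a)).inv).back (r := fun x => x / 4)
    (M := M1 / 2 + 4 * M) hab dπ (fun x h => by linarith [hx x h])
    (fun x h => by
      have := hlΓ x h; have := hl' x h; have := inv_pos.2 (hx x h)
      rw [Complex.sub_re, dr_re]; linarith)
    (fun x h => by
      have h0 := hx x h
      have e : (M1 / 2 + 4 * M) * (x / 4 * (Γ x * x⁻¹)) = M1 * (Γ x / 8) + M * Γ x := by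
        field_simp; ring
      rw [e]
      refine (norm_add_le _ _).trans (add_le_add ?_ (hG x h))
      rw [norm_mul]
      refine (mul_le_mul_of_nonneg_left (hle x h) (norm_nonneg _)).trans ?_
      have := mul_le_mul_of_nonneg_left (hres x h) hM1
      linarith)
    (hp.trans (mul_le_mul_of_nonneg_right (by linarith)
      (mul_pos (hΓ.pos b hb) (inv_pos.2 (hx b hb))).le))
  have dw : Dv a b w fun x => l x * w x + (p x - l x * w x) :=
    s.d0.congr (fun _ _ => rfl) fun x _ => by ring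
  have hw' := max1_back (γ := fun x => Γ x * x⁻¹) (M := M1 / 2 + 4 * M) hab dw hΩ hpos
    (fun x h => mul_pos (hΓ.pos x (Ico_subset_Icc_self h))
      (inv_pos.2 (hx x (Ico_subset_Icc_self h))))
    (fun x h => by simpa only [div_eq_mul_inv] using hsl x (Ico_subset_Icc_self h))
    (fun x h => hπ x (Ico_subset_Icc_self h))
    (hw.trans (mul_le_mul_of_nonneg_right (by linarith) (hpos b hb).le))
  have h8 : M1 ≤ 8 * M := by
    have := hw' x0 hx0
    rw [e1] at this
    have := le_of_mul_le_mul_right this (hpos x0 hx0)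
    linarith
  intro x h
  exact ⟨(hle x h).trans (mul_le_mul_of_nonneg_right h8 (hpos x h).le),
    (hπ x h).trans (mul_le_mul_of_nonneg_right (by linarith)
      (mul_pos (hΓ.pos x h) (inv_pos.2 (hx x h))).le)⟩

/-- **high modes**: from the bound on `w` to the bounds on `w'` and `w''`. -/
theorem high {a b M C k : ℝ} {V G w p : ℝ → ℂ} {Ω lΩ n ln : ℝ → ℝ} (ha : 4 ≤ a) (hab : a ≤ b)
    (s : Sol2 a b dr V G w p) (hΩ : LD a b Ω lΩ) (hn : LD a b n ln) (hk : 2 ≤ k) (hC : 1 ≤ C)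
    (hM : 0 ≤ M) (hlΩ : ∀ x ∈ Icc a b, lΩ x ≤ x / 8) (hln : ∀ x ∈ Icc a b, -ln x ≤ x / 8)
    (hn2 : ∀ x ∈ Icc a b, n x ≤ 3) (hn1 : ∀ x ∈ Icc a b, 1 ≤ x ^ 2 * n x)
    (hV : ∀ x ∈ Icc a b, ‖V x‖ ≤ k ^ 2 / 2 * (n x)⁻¹ + 1)
    (hG : ∀ x ∈ Icc a b, ‖G x‖ * n x ≤ M * Ω x)
    (hw : ∀ x ∈ Icc a b, k ^ 2 * ‖w x‖ ≤ C * M * Ω x) (hp : (b + k) * ‖p b‖ ≤ M * Ω b) :
    ∀ x ∈ Icc a b, x * n x * ‖p x‖ ≤ 12 * C * M * Ω x ∧ k * ‖p x‖ ≤ 6 * C * M * (x * Ω x) ∧
      n x * ‖dr x * p x + V x * w x + G x‖ ≤ 9 * C * M * Ω x := by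
  have hb : b ∈ Icc a b := right_mem_Icc.2 hab
  have hx : ∀ x ∈ Icc a b, 0 < x := fun x hx => by linarith [hx.1]
  have hid := LD.id (b := b) (by linarith : 0 < a)
  have hS : ∀ x ∈ Icc a b, n x * ‖V x * w x + G x‖ ≤ 3 * C * M * Ω x := fun x h => by
    have h0 := hn.pos x h
    have h1 : n x * ‖V x‖ ≤ 2 * k ^ 2 := by
      have := mul_le_mul_of_nonneg_left (hV x h) h0.le
      have e : n x * (k ^ 2 / 2 * (n x)⁻¹ + 1) = k ^ 2 / 2 + n x := by field_simp
      have := hn2 x h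
      nlinarith
    have h2 : n x * ‖V x * w x + G x‖ ≤ n x * ‖V x‖ * ‖w x‖ + ‖G x‖ * n x := by
      have := mul_le_mul_of_nonneg_left (norm_add_le (V x * w x) (G x)) h0.le
      rw [norm_mul] at this; linarith
    have h3 := mul_le_mul_of_nonneg_right h1 (norm_nonneg (w x))
    have h4 := mul_le_mul_of_nonneg_right hC (mul_nonneg hM (hΩ.pos x h).le)
    have := hw x h; have := hG x h
    linarith
  have d0 : Dv a b p fun x => dr x * p x + (V x * w x + G x) :=
    s.d1.congr (fun _ _ => rfl) fun x _ => by ring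
  have hCM : 0 ≤ C * M := mul_nonneg (by linarith) hM
  have h0 := ((hΩ.mul hid.inv).mul hn.inv).back (r := fun x => x / 4) (M := 12 * C * M) hab d0
    (fun x h => by linarith [hx x h])
    (fun x h => by
      have := hlΩ x h; have := hln x h; have := inv_pos.2 (hx x h)
      rw [dr_re]; linarith)
    (fun x h => by
      have h0 := hx x h; have h1 := hn.pos x h
      have e : 12 * C * M * (x / 4 * (Ω x * x⁻¹ * (n x)⁻¹)) = 3 * C * M * Ω x / n x := by
        field_simp; ring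
      rw [e, le_div_iff₀' h1]; exact hS x h)
    (by
      have h0 := hx b hb; have h1 := hn.pos b hb
      have e : 12 * C * M * (Ω b * b⁻¹ * (n b)⁻¹) = 12 * C * M * Ω b / (b * n b) := by field_simp
      rw [e, le_div_iff₀' (by positivity)]
      have h2 : b * n b * ‖p b‖ ≤ (b + k) * 3 * ‖p b‖ := by
        have := hn2 b hb
        gcongr; linarith
      have h4 := mul_le_mul_of_nonneg_right hC (mul_nonneg hM (hΩ.pos b hb).le)
      have := mul_nonneg hM (hΩ.pos b hb).le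
      linarith)
  have hk0 : 0 < k := by linarith
  have dπ : Dv a b (fun x => p x + (k : ℂ) * ((x : ℂ) * w x)) fun x =>
      (dr x + ((k * x : ℝ) : ℂ)) * (p x + (k : ℂ) * ((x : ℂ) * w x)) +
        (V x * w x + G x + ((k - k * x * (x / 2 + k * x) : ℝ) : ℂ) * w x) := by
    have hi : Dv a b (fun x => (x : ℂ)) fun _ => ((1 : ℝ) : ℂ) :=
      Dv.ofReal (w := fun x => x) fun x _ => hasDerivWithinAt_id x _
    exact (s.d1.add ((hi.mul s.d0).cmul k)).congr (fun _ _ => rfl) fun x _ => by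
      simp only [dr]; push_cast; ring
  have h1 := (hid.mul hΩ).back (r := fun x => k * x) (M := 5 * C * M / k) hab dπ
    (fun x h => mul_pos hk0 (hx x h))
    (fun x h => by
      have := hlΩ x h
      have : x⁻¹ ≤ x / 8 := by
        have := h.1
        rw [inv_eq_one_div, div_le_div_iff₀ (hx x h) (by norm_num)]; nlinarith
      rw [Complex.add_re, dr_re, Complex.ofReal_re]; linarith [hx x h])
    (fun x h => by
      have hx0 := hx x h; have h1 := hn.pos x h; have hx4 : 4 ≤ x := ha.trans h.1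
      have e : 5 * C * M / k * (k * x * (x * Ω x)) = 5 * (x ^ 2 * (C * M * Ω x)) := by field_simp
      rw [e]
      refine (norm_add_le _ _).trans ?_
      have h2 : ‖V x * w x + G x‖ ≤ 3 * (x ^ 2 * (C * M * Ω x)) := by
        have := mul_le_mul_of_nonneg_right (hn1 x h) (norm_nonneg (V x * w x + G x))
        have := mul_le_mul_of_nonneg_left (hS x h) (sq_nonneg x)
        linarith
      have h3 : |k - k * x * (x / 2 + k * x)| ≤ 2 * (x ^ 2 * k ^ 2) := by
        have : 16 ≤ x ^ 2 := by nlinarith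
        have : k * 2 ≤ k ^ 2 := by nlinarith
        have : 0 ≤ k * x ^ 2 := by positivity
        have : k * 2 * x ^ 2 ≤ k ^ 2 * x ^ 2 := by gcongr
        have : k * 16 ≤ k * x ^ 2 := by gcongr
        rw [abs_le]; constructor <;> nlinarith
      rw [norm_mul, Complex.norm_real, Real.norm_eq_abs]
      have h4 := mul_le_mul_of_nonneg_right h3 (norm_nonneg (w x))
      have h5 := mul_le_mul_of_nonneg_left (hw x h) (sq_nonneg x)
      linarith)
    (by
      have hx0 := hx b hb; have hx4 : 4 ≤ b := ha.trans hab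
      rw [div_mul_eq_mul_div, le_div_iff₀' hk0]
      have h2 : ‖p b + (k : ℂ) * ((b : ℂ) * w b)‖ ≤ ‖p b‖ + k * (b * ‖w b‖) := by
        refine (norm_add_le _ _).trans (le_of_eq ?_)
        simp [abs_of_pos hk0, abs_of_pos hx0]
      have h3 := mul_le_mul_of_nonneg_left h2 hk0.le
      have h4 := mul_le_mul_of_nonneg_left (hw b hb) hx0.le
      have h5 := mul_le_mul_of_nonneg_right hC (mul_nonneg hM (hΩ.pos b hb).le)
      have h6 := mul_nonneg hx0.le (norm_nonneg (p b))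
      have h7 := mul_le_mul_of_nonneg_right hx4 (mul_nonneg hCM (hΩ.pos b hb).le)
      have := mul_nonneg hCM (hΩ.pos b hb).le
      linarith)
  intro x h
  have hx0 := hx x h; have hn0 := hn.pos x h
  have r0 : x * n x * ‖p x‖ ≤ 12 * C * M * Ω x := by
    have := h0 x h
    have e : 12 * C * M * (Ω x * x⁻¹ * (n x)⁻¹) = 12 * C * M * Ω x / (x * n x) := by field_simp
    rwa [e, le_div_iff₀' (by positivity)] at this
  refine ⟨r0, ?_, ?_⟩
  · have h2 := h1 x h
    rw [div_mul_eq_mul_div, le_div_iff₀' hk0] at h2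
    have h3 : ‖p x‖ ≤ ‖p x + (k : ℂ) * ((x : ℂ) * w x)‖ + k * (x * ‖w x‖) := by
      refine (norm_le_add_norm_add _ ((k : ℂ) * ((x : ℂ) * w x))).trans (le_of_eq ?_)
      simp [abs_of_pos hk0, abs_of_pos hx0]
    have h4 := mul_le_mul_of_nonneg_left h3 hk0.le
    have h5 := mul_le_mul_of_nonneg_left (hw x h) hx0.le
    linarith
  · have h2 : ‖dr x * p x + V x * w x + G x‖ ≤ x / 2 * ‖p x‖ + ‖V x * w x + G x‖ := by
      rw [add_assoc]
      refine (norm_add_le _ _).trans (le_of_eq ?_)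
      rw [norm_mul, norm_dr hx0.le]
    have := mul_le_mul_of_nonneg_left h2 hn0.le
    have := hS x h
    linarith

end Crest.Agent.N250.B1

end
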