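import Crest.Agent.N250.B1.Sys

/-! # Row 250, block B1 (helper24): reparametrisation `x = γ s`, linear relations give operators -/

set_option autoImplicit false

open Set Filter Topology

noncomputable section

namespace Crest.Agent.N250.B1

/-- `γ : [a, b] → [R, X]` with continuous derivative `c ≥ 1` -/
structure Rp (a b R X : ℝ) (γ c : ℝ → ℝ) : Prop where
  le : a ≤ b
  dv : Dv a b γ c
  cc : ContinuousOn c (Icc a b)
  one_le : ∀ s ∈ Icc a b, 1 ≤ c s
  left : γ a = R
  right : γ b = X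

namespace Rp
variable {a b R X : ℝ} {γ c : ℝ → ℝ}

lemma expand (h : Rp a b R X γ c) {s t : ℝ} (hs : s ∈ Icc a b) (ht : t ∈ Icc a b) (hst : s ≤ t) :
    t - s ≤ γ t - γ s := by
  have hd : Dv a b (fun s => γ s - s) fun s => c s - 1 :=
    h.dv.sub fun x _ => hasDerivWithinAt_id x _
  have := monotoneOn_of_deriv_nonneg (convex_Icc a b) hd.cont
    (fun x hx => by
      rw [interior_Icc] at hx ⊢
      exact (hd.at hx).differentiableAt.differentiableWithinAt)
    (fun x hx => by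
      rw [interior_Icc] at hx
      rw [(hd.at hx).deriv]
      linarith [h.one_le x (Ioo_subset_Icc_self hx)]) hs ht hst
  simp only at this
  linarith

lemma maps (h : Rp a b R X γ c) : MapsTo γ (Icc a b) (Icc R X) := fun s hs => by
  have h1 := h.expand (left_mem_Icc.2 h.le) hs hs.1
  have h2 := h.expand hs (right_mem_Icc.2 h.le) hs.2
  rw [h.left] at h1; rw [h.right] at h2
  exact ⟨by linarith [hs.1], by linarith [hs.2]⟩

lemma abs_le (h : Rp a b R X γ c) {s t : ℝ} (hs : s ∈ Icc a b) (ht : t ∈ Icc a b) :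
    |t - s| ≤ |γ t - γ s| := by
  rcases le_total s t with hst | hst
  · rw [abs_of_nonneg (by linarith)]; exact (h.expand hs ht hst).trans (le_abs_self _)
  · rw [abs_sub_comm, abs_sub_comm (γ t), abs_of_nonneg (by linarith)]
    exact (h.expand ht hs hst).trans (le_abs_self _)

theorem exists_inv (h : Rp a b R X γ c) : ∃ ι : ℝ → ℝ, MapsTo ι (Icc R X) (Icc a b) ∧
    (∀ x ∈ Icc R X, γ (ι x) = x) ∧ (∀ s ∈ Icc a b, ι (γ s) = s) ∧
    Dv R X ι fun x => (c (ι x))⁻¹ := by
  have hs : ∀ x, ∃ s, x ∈ Icc R X → s ∈ Icc a b ∧ γ s = x := fun x => by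
    by_cases hx : x ∈ Icc R X
    · obtain ⟨s, h1, h2⟩ := intermediate_value_Icc h.le h.dv.cont (by rwa [h.left, h.right])
      exact ⟨s, fun _ => ⟨h1, h2⟩⟩
    · exact ⟨0, fun h => absurd h hx⟩
  choose ι hι using hs
  have hc : ContinuousOn ι (Icc R X) := by
    refine LipschitzOnWith.continuousOn (K := 1) (LipschitzOnWith.of_dist_le_mul fun x hx y hy => ?_)
    have := h.abs_le (hι y hy).1 (hι x hx).1
    rw [(hι y hy).2, (hι x hx).2] at this
    simpa [Real.dist_eq] using this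
  refine ⟨ι, fun x hx => (hι x hx).1, fun x hx => (hι x hx).2, fun s hs => ?_, fun x hx => ?_⟩
  · have := h.abs_le hs (hι _ (h.maps hs)).1
    rw [(hι _ (h.maps hs)).2, sub_self, abs_zero] at this
    exact sub_eq_zero.1 (abs_nonpos_iff.1 this)
  · have h0 : c (ι x) ≠ 0 := by linarith [h.one_le _ (hι x hx).1]
    have h1 : HasFDerivWithinAt γ
        ((ContinuousLinearEquiv.unitsEquivAut ℝ (Units.mk0 (c (ι x)) h0) : ℝ ≃L[ℝ] ℝ) : ℝ →L[ℝ] ℝ)
        (Icc a b) (ι x) :=
      (h.dv _ (hι x hx).1).hasFDerivWithinAt.congr_fderiv (by ext; simp)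
    have h2 := h1.of_local_left_inverse (g := ι) (s := Icc R X)
      ((hc x hx).tendsto_nhdsWithin fun y hy => (hι y hy).1) hx
      (eventually_nhdsWithin_of_forall fun y hy => (hι y hy).2)
    exact h2.hasDerivWithinAt.congr_deriv (by simp)

lemma comp {F : Type*} [NormedAddCommGroup F] [NormedSpace ℝ F] {f f1 : ℝ → F}
    (h : Rp a b R X γ c) (hf : Dv R X f f1) :
    Dv a b (fun s => f (γ s)) fun s => c s • f1 (γ s) := fun s hs =>
  (hf _ (h.maps hs)).scomp s (h.dv s hs) h.maps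

theorem sys (h : Rp a b R X γ c) {B V G w p : ℝ → ℂ} (s : Sol2 R X B V G w p) :
    Sys a b (fun s => c s) (fun s => B (γ s)) (fun s => V (γ s)) (fun s => G (γ s))
      (fun s => w (γ s)) fun s => p (γ s) :=
  ⟨(h.comp s.d0).congr (fun _ _ => rfl) fun _ _ => Complex.real_smul.symm,
    (h.comp s.d1).congr (fun _ _ => rfl) fun _ _ => Complex.real_smul.symm⟩

/-- a solution in the parameter `s` is a solution in `x` -/
theorem sol2 (h : Rp a b R X γ c) {B V g w p : ℝ → ℂ}
    (s : Sys a b (fun s => c s) (fun s => B (γ s)) (fun s => V (γ s)) g w p) :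
    ∃ G W P : ℝ → ℂ, Sol2 R X B V G W P ∧
      ∀ s ∈ Icc a b, G (γ s) = g s ∧ W (γ s) = w s ∧ P (γ s) = p s := by
  obtain ⟨ι, h1, h2, h3, h4⟩ := h.exists_inv
  have h0 : ∀ x ∈ Icc R X, (c (ι x) : ℂ) ≠ 0 := fun x hx => by
    have := h.one_le _ (h1 hx)
    exact_mod_cast (by linarith : c (ι x) ≠ 0)
  refine ⟨fun x => g (ι x), fun x => w (ι x), fun x => p (ι x), ⟨fun x hx => ?_, fun x hx => ?_⟩,
    fun s hs => by simp only [h3 s hs, and_self]⟩
  · refine ((s.d0 _ (h1 hx)).scomp x (h4 x hx) h1).congr_deriv ?_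
    have := h0 x hx
    simp only [Complex.real_smul, Complex.ofReal_inv]; field_simp
  · refine ((s.d1 _ (h1 hx)).scomp x (h4 x hx) h1).congr_deriv ?_
    have := h0 x hx
    simp only [Complex.real_smul, Complex.ofReal_inv, h2 x hx]; field_simp

/-- continuous functions of `s` are continuous functions of `x` -/
theorem lift (h : Rp a b R X γ c) {g : ℝ → ℂ} (hg : ContinuousOn g (Icc a b)) :
    ∃ G : ℝ → ℂ, ContinuousOn G (Icc R X) ∧ ∀ s ∈ Icc a b, G (γ s) = g s := by
  obtain ⟨ι, h1, -, h3, h4⟩ := h.exists_inv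
  exact ⟨fun x => g (ι x), hg.comp h4.cont h1, fun s hs => by simp only [h3 s hs]⟩

theorem surj (h : Rp a b R X γ c) {x : ℝ} (hx : x ∈ Icc R X) : ∃ s ∈ Icc a b, γ s = x := by
  obtain ⟨ι, h1, h2, -⟩ := h.exists_inv
  exact ⟨ι x, h1 hx, h2 x hx⟩

end Rp

/-- a total linear relation with an a priori bound is the graph of a bounded operator -/
theorem exists_clm_of_rel {E F : Type*} [NormedAddCommGroup E] [NormedSpace ℂ E]
    [NormedAddCommGroup F] [NormedSpace ℂ F] {r : E → F → Prop} {C : ℝ} (hC : 0 ≤ C)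
    (hadd : ∀ e f e' f', r e f → r e' f' → r (e + e') (f + f'))
    (hsmul : ∀ (z : ℂ) e f, r e f → r (z • e) (z • f)) (hex : ∀ e, ∃ f, r e f)
    (hbd : ∀ e f, r e f → ‖f‖ ≤ C * ‖e‖) :
    ∃ T : E →L[ℂ] F, ‖T‖ ≤ C ∧ ∀ e f, r e f ↔ f = T e := by
  choose T hT using hex
  have hu : ∀ e f, r e f → f = T e := fun e f h => by
    have := hbd _ _ (hadd _ _ _ _ h (hsmul (-1) _ _ (hT e)))
    simp only [neg_smul, one_smul, add_neg_cancel, norm_zero, mul_zero, norm_le_zero_iff] at this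
    exact add_neg_eq_zero.1 this
  let L : E →ₗ[ℂ] F :=
    { toFun := T
      map_add' := fun e e' => (hu _ _ (hadd _ _ _ _ (hT e) (hT e'))).symm
      map_smul' := fun z e => (hu _ _ (hsmul z _ _ (hT e))).symm }
  exact ⟨L.mkContinuous C fun e => hbd _ _ (hT e), L.mkContinuous_norm_le hC _,
    fun e f => ⟨hu e f, fun h => h ▸ hT e⟩⟩

end Crest.Agent.N250.B1

end
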