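import Crest.Agent.N250.B1.Lin1
import Crest.Agent.N250.B1.Lin2
import Crest.Agent.N250.B1.Stm

/-! # Row 250, block B1 (helper24): from estimates of one mode on `[R, X]` to jets -/

set_option autoImplicit false

open Set Filter Topology Complex

noncomputable section

namespace Crest.Agent.N250.B1

/-- the potential of the mode `m` -/
def Vx (a : ℂ) (m : ℤ) (x : ℝ) : ℂ := (m : ℂ) ^ 2 / (2 * et a x) - 1

/-- where the Dirichlet datum is prescribed -/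
def pt (R X : ℝ) (m : ℤ) : ℝ := if 2 ≤ |m| then R else X

/-- a priori estimate of the mode `m`: source weight `Γ`, data weights `δ0, δ1`, jet weights `F` -/
def MEst (R X : ℝ) (a : ℂ) (m : ℤ) (Γ : ℝ → ℝ) (δ0 δ1 : ℝ) (F : Fin 6 → ℝ → ℝ) : Prop :=
  ∀ (G w p : ℝ → ℂ) (M : ℝ), 0 ≤ M → Sol2 R X dr (Vx a m) G w p →
    (∀ x ∈ Icc R X, ‖G x‖ ≤ M * Γ x) → ‖w (pt R X m)‖ ≤ M * δ0 → ‖p X‖ ≤ M * δ1 →
    ∀ x ∈ Icc R X, ‖w x‖ ≤ M * F 0 x ∧ ‖p x‖ ≤ M * F 1 x ∧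
      ‖dr x * p x + Vx a m x * w x + G x‖ ≤ M * F 2 x ∧ |(m : ℝ)| * ‖w x‖ ≤ M * F 3 x ∧
      |(m : ℝ)| * ‖p x‖ ≤ M * F 4 x ∧ (m : ℝ) ^ 2 * ‖w x‖ ≤ M * F 5 x

/-- existence for the mode `m` -/
def MEx (R X : ℝ) (a : ℂ) (m : ℤ) : Prop :=
  ∀ G : ℝ → ℂ, ContinuousOn G (Icc R X) → ∀ α β : ℂ,
    ∃ w p, Sol2 R X dr (Vx a m) G w p ∧ w (pt R X m) = α ∧ p X = β

theorem MEst.mono {R X c : ℝ} {a : ℂ} {m : ℤ} {Γ Γ' : ℝ → ℝ} {δ0 δ1 δ0' δ1' : ℝ}
    {F F' : Fin 6 → ℝ → ℝ} (h : MEst R X a m Γ δ0 δ1 F) (hc : 0 ≤ c)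
    (hΓ : ∀ x ∈ Icc R X, Γ' x ≤ c * Γ x) (h0 : δ0' ≤ c * δ0) (h1 : δ1' ≤ c * δ1)
    (hF : ∀ i, ∀ x ∈ Icc R X, c * F i x ≤ F' i x) : MEst R X a m Γ' δ0' δ1' F' := by
  intro G w p M hM s hG hw hp x hx
  have k : ∀ {u v z : ℝ}, u ≤ M * v → v ≤ c * z → u ≤ M * c * z := fun h1 h2 =>
    h1.trans (by rw [mul_assoc]; exact mul_le_mul_of_nonneg_left h2 hM)
  have k' : ∀ {u : ℝ} (i : Fin 6), u ≤ M * c * F i x → u ≤ M * F' i x := fun i h1 =>
    h1.trans (by rw [mul_assoc]; exact mul_le_mul_of_nonneg_left (hF i x hx) hM)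
  obtain ⟨r0, r1, r2, r3, r4, r5⟩ := h G w p (M * c) (mul_nonneg hM hc) s
    (fun y hy => k (hG y hy) (hΓ y hy)) (k hw h0) (k hp h1) x hx
  exact ⟨k' 0 r0, k' 1 r1, k' 2 r2, k' 3 r3, k' 4 r4, k' 5 r5⟩

section path

theorem hasDerivAt_posPow (n : ℕ) (u : ℝ) :
    HasDerivAt (fun u : ℝ => max u 0 ^ (n + 2)) ((n + 2 : ℕ) * max u 0 ^ (n + 1)) u := by
  rcases lt_trichotomy u 0 with h | h | h
  · have e : (fun u : ℝ => max u 0 ^ (n + 2)) =ᶠ[𝓝 u] fun _ => 0 :=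
      (eventually_lt_nhds h).mono fun v hv => by simp [max_eq_right hv.le]
    simpa [max_eq_right h.le] using (hasDerivAt_const u (0 : ℝ)).congr_of_eventuallyEq e
  · subst h
    rw [hasDerivAt_iff_tendsto_slope_zero]
    have h1 : Tendsto (fun t : ℝ => max t 0 ^ (n + 1)) (𝓝[≠] 0) (𝓝 (max (0 : ℝ) 0 ^ (n + 1))) :=
      (Continuous.tendsto (by fun_prop) 0).mono_left nhdsWithin_le_nhds
    simp only [max_self, ne_eq, Nat.add_eq_zero_iff, one_ne_zero, and_false, not_false_eq_true,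
      zero_pow, mul_zero, zero_add, OfNat.ofNat_ne_zero, sub_zero, smul_eq_mul] at h1 ⊢
    refine h1.congr' (eventually_nhdsWithin_of_forall fun t ht => ?_)
    have ht' : t ≠ 0 := ht
    rcases le_total t 0 with h2 | h2
    · simp [max_eq_right h2]
    · simp only [max_eq_left h2]; field_simp; ring
  · have e : (fun u : ℝ => max u 0 ^ (n + 2)) =ᶠ[𝓝 u] fun u => u ^ (n + 2) :=
      (eventually_gt_nhds h).mono fun v hv => by simp [max_eq_left hv.le]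
    simpa [max_eq_left h.le] using (hasDerivAt_pow (n + 2) u).congr_of_eventuallyEq e

/-- the speed of the real path -/
def dxr (R X s : ℝ) : ℝ := 2 + 6 * (X - R - 2) * cub s ^ 2

theorem rp_xr {R X : ℝ} (h : R + 2 ≤ X) : Rp 0 1 R X (xr R X) (dxr R X) where
  le := zero_le_one
  dv := Dv.of_hasDerivAt fun s _ => by
    have h1 : HasDerivAt (fun s : ℝ => 2 * s - 1) 2 s := by
      simpa using ((hasDerivAt_id s).const_mul 2).sub_const 1
    have h2 := (hasDerivAt_posPow 1 (2 * s - 1)).comp s h1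
    have h3 := (((hasDerivAt_id s).const_mul 2).const_add R).add (h2.const_mul (X - R - 2))
    exact h3.congr_deriv (by simp [dxr, cub]; ring)
  cc := by have := continuous_cub; unfold dxr; fun_prop
  one_le s _ := by
    have : 0 ≤ 6 * (X - R - 2) * cub s ^ 2 := by have : 0 ≤ X - R - 2 := by linarith
                                                 positivity
    unfold dxr; linarith
  left := by simp [xr, cub]
  right := by norm_num [xr, cub]

theorem gam_xr (R X : ℝ) (s : II) : gam R X s = (xr R X s : ℝ) := by simp [gam, xr]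

theorem dgam_dxr (R X : ℝ) (s : II) : dgam R X s = (dxr R X s : ℝ) := by simp [dgam, dxr]

theorem sig_xr {R X : ℝ} (h : R + 2 ≤ X) (s : II) : sig (xr R X s - R) = sig (2 * s) := by
  rcases le_total (2 * (s : ℝ)) 1 with h1 | h1
  · simp [xr, cub, max_eq_right (by linarith : 2 * (s : ℝ) - 1 ≤ 0)]
  · have : 0 ≤ (X - R - 2) * cub s ^ 3 :=
      mul_nonneg (by linarith) (pow_nonneg (le_max_right _ _) _)
    rw [sig, sig, max_eq_right (by unfold xr; linarith), max_eq_right (by linarith)]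

end path

variable {ℓ : Ell}

/-- the Dirichlet datum of the mode `m` -/
def dw (D : Dat ℓ) (m : ℤ) : ℂ :=
  if 2 ≤ |m| then Wi.co D.1 m else if m = 1 then D.2.2.1 else if m = -1 then D.2.2.2 else 0

theorem small_cases {m : ℤ} (h : ¬ 2 ≤ |m|) : m = 0 ∨ m = 1 ∨ m = -1 := by
  rcases abs_cases m with h1 | h1 <;> omega

theorem bc_iff (D : Dat ℓ) (J : Jt ℓ) : BC D J ↔
    ∀ m, ex (Wi.co (J 0) m) (pt 0 1 m) = dw D m ∧ ex (Wi.co (J 1) m) 1 = Wi.co D.2.1 m := by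
  constructor
  · intro h m
    refine ⟨?_, by rw [ex_1, h.slope]⟩
    by_cases hm : 2 ≤ |m|
    · simp only [pt, dw, if_pos hm, ex_0, h.inner m hm]
    · simp only [pt, dw, if_neg hm, ex_1]
      rcases small_cases hm with rfl | rfl | rfl
      · simpa using h.far0
      · simpa using h.farp
      · simpa using h.farm
  · intro h
    refine ⟨fun m hm => ?_, fun m => by rw [← ex_1, (h m).2], ?_, ?_, ?_⟩
    · simpa only [pt, dw, if_pos hm, ex_0] using (h m).1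
    · simpa [pt, dw, ex_1] using (h 0).1
    · simpa [pt, dw, ex_1] using (h 1).1
    · simpa [pt, dw, ex_1] using (h (-1)).1

theorem xr_pt {R X : ℝ} (h : R + 2 ≤ X) (m : ℤ) : xr R X (pt 0 1 m) = pt R X m := by
  unfold pt; split_ifs
  exacts [(rp_xr h).left, (rp_xr h).right]

theorem pt_mem (m : ℤ) : pt 0 1 m ∈ Icc (0 : ℝ) 1 := by
  unfold pt; split_ifs <;> simp

theorem Lin.q_eq {R X : ℝ} {a : ℂ} {J : Jt ℓ} {G : Wi (om ℓ)} (h : Lin R X a J G) (m : ℤ) (s : II) :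
    Wi.co (J 2) m s = dr (xr R X s) * Wi.co (J 1) m s + Vx a m (xr R X s) * Wi.co (J 0) m s +
      Wi.co G m s := by
  rw [← h.2 m s, gam_xr, dr, Vx]; push_cast; ring

theorem Lin.sys {R X : ℝ} {a : ℂ} {J : Jt ℓ} {G : Wi (om ℓ)} (h : Lin R X a J G) (m : ℤ) :
    Sys 0 1 (fun s => dxr R X s) (fun s => dr (xr R X s)) (fun s => Vx a m (xr R X s))
      (ex (Wi.co G m)) (ex (Wi.co (J 0) m)) (ex (Wi.co (J 1) m)) :=
  ⟨fun s hs => ((h.1.d0 m).hasD hs).congr_deriv (by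
      simp only [ex_mem _ hs]
      rw [ContinuousMap.mul_apply, dgam_dxr]),
    fun s hs => ((h.1.d1 m).hasD hs).congr_deriv (by
      simp only [ex_mem _ hs]
      rw [ContinuousMap.mul_apply, dgam_dxr, h.q_eq])⟩

/-- **one mode of a jet** -/
theorem Lin.mode {R X M : ℝ} {a : ℂ} {J : Jt ℓ} {G : Wi (om ℓ)} {D : Dat ℓ} {m : ℤ} {Γ : ℝ → ℝ}
    {δ0 δ1 : ℝ} {F : Fin 6 → ℝ → ℝ} (h : Lin R X a J G) (hb : BC D J) (hX : R + 2 ≤ X)
    (he : MEst R X a m Γ δ0 δ1 F) (hM : 0 ≤ M)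
    (hG : ∀ s : II, ‖Wi.co G m s‖ ≤ M * Γ (xr R X s)) (h0 : ‖dw D m‖ ≤ M * δ0)
    (h1 : ‖Wi.co D.2.1 m‖ ≤ M * δ1) (i : Fin 6) (s : II) :
    ‖Wi.co (J i) m s‖ ≤ M * F i (xr R X s) := by
  have rp := rp_xr hX
  obtain ⟨G', W', P', hs, e⟩ := rp.sol2 (h.sys m)
  obtain ⟨b0, b1⟩ := (bc_iff D J).1 hb m
  obtain ⟨r0, r1, r2, r3, r4, r5⟩ := he G' W' P' M hM hs
    (fun x hx => by
      obtain ⟨t, ht, rfl⟩ := rp.surj hx
      rw [(e t ht).1, ex_mem _ ht]; exact hG ⟨t, ht⟩)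
    (by rw [← xr_pt hX, (e _ (pt_mem m)).2.1, b0]; exact h0)
    (by rw [← rp.right, (e 1 (right_mem_Icc.2 zero_le_one)).2.2, b1]; exact h1) _ (rp.maps s.2)
  obtain ⟨e0, e1, e2⟩ := e s s.2
  rw [ex_mem _ s.2] at e0 e1 e2
  simp only [e0, e1, e2, Subtype.coe_eta] at r0 r1 r2 r3 r4 r5
  fin_cases i
  · exact r0
  · exact r1
  · rw [← h.q_eq] at r2; exact r2
  · simpa [h.1.t0] using r3
  · simpa [h.1.t1] using r4
  · simpa [h.1.t2] using r5

/-- one mode: existence on the parameter interval -/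
theorem MEx.ci {R X : ℝ} {a : ℂ} {m : ℤ} (h : MEx R X a m) (hX : R + 2 ≤ X)
    (hη : ∀ x ∈ Icc R X, et a x ≠ 0) (g : CI) (α β : ℂ) :
    ∃ w p q : CI, Der w (dgam R X * p) ∧ Der p (dgam R X * q) ∧
      (∀ s : II, q s = dr (xr R X s) * p s + Vx a m (xr R X s) * w s + g s) ∧
      ex w (pt 0 1 m) = α ∧ ex p 1 = β := by
  have rp := rp_xr hX
  obtain ⟨G, hG, eG⟩ := rp.lift (ex_cont g).continuousOn
  obtain ⟨w, p, hs, e0, e1⟩ := h G hG α β
  have hy := rp.sys hs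
  have cx : Continuous fun s : II => xr R X s := rp.dv.cont.domRestrict
  have cw : Continuous fun s : II => w (xr R X s) := hy.d0.cont.domRestrict
  have cp : Continuous fun s : II => p (xr R X s) := hy.d1.cont.domRestrict
  have cV : Continuous fun s : II => Vx a m (xr R X s) := by
    refine Continuous.sub (continuous_const.div ?_ fun s => ?_) continuous_const
    · unfold et; fun_prop
    · exact mul_ne_zero two_ne_zero (hη _ (rp.maps s.2))
  refine ⟨⟨_, cw⟩, ⟨_, cp⟩, ⟨fun s => dr (xr R X s) * p (xr R X s) +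
    Vx a m (xr R X s) * w (xr R X s) + g s,
      (((dr_cont.comp cx).mul cp).add (cV.mul cw)).add g.continuous⟩,
    der_of_fun (g := fun s => w (xr R X s)) (fun _ => rfl) fun s hs => ?_,
    der_of_fun (g := fun s => p (xr R X s)) (fun _ => rfl) fun s hs => ?_, fun _ => rfl, ?_, ?_⟩
  · exact (hy.d0.at hs).congr_deriv (by rw [ContinuousMap.mul_apply, dgam_dxr]; rfl)
  · refine (hy.d1.at hs).congr_deriv ?_
    rw [ContinuousMap.mul_apply, dgam_dxr, eG s s.2, ex_mem _ s.2]; rfl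
  · rw [ex_mem _ (pt_mem m), ← e0, ← xr_pt hX]; rfl
  · rw [ex_1, ← e1]; exact congrArg p rp.right

end Crest.Agent.N250.B1

end
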