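import Crest.Agent.N250.B1.Lin3

/-! # Row 250, block B1 (helper24): `ℓ¹` assembly of the modes -/

set_option autoImplicit false

open Set Filter Topology Complex

noncomputable section

namespace Crest.Agent.N250.B1

variable {ℓ : Ell}

/-- the smoothing factor `exp (-ς t)` -/
def Es (R t x : ℝ) : ℝ := Real.exp (-(sig (x - R) * t))

theorem Es_pos (R t x : ℝ) : 0 < Es R t x := Real.exp_pos _

theorem Es_zero (R x : ℝ) : Es R 0 x = 1 := by simp [Es]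

theorem exp_mul_Es {R X : ℝ} (h : R + 2 ≤ X) (t : ℝ) (s : II) :
    Real.exp (sig (2 * s) * t) * Es R t (xr R X s) = 1 := by
  rw [Es, sig_xr h, ← Real.exp_add, add_neg_cancel, Real.exp_zero]

theorem le_Es_iff {R X : ℝ} (h : R + 2 ≤ X) (t : ℝ) (s : II) (u v : ℝ) :
    Real.exp (sig (2 * s) * t) * u ≤ v ↔ u ≤ v * Es R t (xr R X s) := by
  rw [Es, sig_xr h, Real.exp_neg, ← div_eq_mul_inv, le_div_iff₀' (Real.exp_pos _)]

theorem norm_eW_mul (t : ℝ) (u : CI) (s : II) :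
    ‖(eW t * u) s‖ = Real.exp (sig (2 * s) * t) * ‖u s‖ := by
  simp [eW, abs_of_pos (Real.exp_pos _), -ofReal_exp]

/-- a family of mode estimates, uniform in `m` -/
structure LFam (ℓ : Ell) (R X : ℝ) (a : ℂ) (C : ℝ) (γ0 γ : ℝ → ℝ) (δ0 δ1 : ℤ → ℝ)
    (f0 f : Fin 6 → ℝ → ℝ) : Prop where
  le : R + 2 ≤ X
  C0 : 0 ≤ C
  γ0_pos : ∀ x ∈ Icc R X, 0 < γ0 x
  γ_pos : ∀ x ∈ Icc R X, 0 < γ x
  δ0_nn : ∀ m, 0 ≤ δ0 m
  δ1_nn : ∀ m, 0 ≤ δ1 m
  zero : MEst R X a 0 γ0 (δ0 0) (δ1 0) fun i x => C * f0 i x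
  ne : ∀ m, m ≠ 0 → MEst R X a m (fun x => γ x * Es R (ℓ.l m) x) (δ0 m) (δ1 m)
    fun i x => C * f i x * Es R (ℓ.l m) x

/-- the data are of size `N` for the weights `δ0, δ1` -/
def DB (δ0 δ1 : ℤ → ℝ) (D : Dat ℓ) (N : ℝ) : Prop :=
  ∃ d : ℤ → ℝ, (∀ m, 0 ≤ d m) ∧ HasSum d N ∧
    ∀ m, ‖dw D m‖ ≤ d m * δ0 m ∧ ‖Wi.co D.2.1 m‖ ≤ d m * δ1 m

variable {R X C : ℝ} {a : ℂ} {γ0 γ : ℝ → ℝ} {δ0 δ1 : ℤ → ℝ} {f0 f : Fin 6 → ℝ → ℝ}

/-- **a priori bound** -/
theorem LFam.bound (h : LFam ℓ R X a C γ0 γ δ0 δ1 f0 f) {J : Jt ℓ} {G : Wi (om ℓ)} {D : Dat ℓ}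
    {M N : ℝ} (hL : Lin R X a J G) (hb : BC D J) (hG : WB R X γ0 γ G M) (hD : DB δ0 δ1 D N)
    (i : Fin 6) : WB R X (f0 i) (f i) (J i) (C * (M + N)) := by
  obtain ⟨β, hβ, hM, g0, g1⟩ := hG
  obtain ⟨d, d0, hd, hd'⟩ := hD
  have rp := rp_xr h.le
  have β0 : ∀ m, 0 ≤ β m := fun m => by
    by_cases hm : m = 0
    · subst hm
      exact nonneg_of_mul_nonneg_left ((norm_nonneg _).trans (g0 i0)) (h.γ0_pos _ (rp.maps i0.2))
    · exact nonneg_of_mul_nonneg_left ((by positivity : (0 : ℝ) ≤ _).trans (g1 m hm i0))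
        (h.γ_pos _ (rp.maps i0.2))
  have k0 : ∀ m, ‖dw D m‖ ≤ (β m + d m) * δ0 m := fun m =>
    (hd' m).1.trans (mul_le_mul_of_nonneg_right (by linarith [β0 m]) (h.δ0_nn m))
  have k1 : ∀ m, ‖Wi.co D.2.1 m‖ ≤ (β m + d m) * δ1 m := fun m =>
    (hd' m).2.trans (mul_le_mul_of_nonneg_right (by linarith [β0 m]) (h.δ1_nn m))
  refine ⟨fun m => C * (β m + d m), (hβ.add hd.summable).mul_left C, ?_, fun s => ?_,
    fun m hm s => ?_⟩
  · rw [tsum_mul_left, hβ.tsum_add hd.summable, hd.tsum_eq]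
    exact mul_le_mul_of_nonneg_left (by linarith) h.C0
  · refine (hL.mode hb h.le h.zero (add_nonneg (β0 0) (d0 0)) (fun t => (g0 t).trans ?_) (k0 0)
      (k1 0) i s).trans (le_of_eq (by ring))
    exact mul_le_mul_of_nonneg_right (by linarith [d0 0]) (h.γ0_pos _ (rp.maps t.2)).le
  · rw [le_Es_iff h.le]
    refine (hL.mode hb h.le (h.ne m hm) (add_nonneg (β0 m) (d0 m)) (fun t => ?_) (k0 m)
      (k1 m) i s).trans (le_of_eq (by ring))
    refine ((le_Es_iff h.le _ _ _ _).1 (g1 m hm t)).trans ?_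
    rw [mul_assoc]
    exact mul_le_mul_of_nonneg_right (by linarith [d0 m])
      (mul_pos (h.γ_pos _ (rp.maps t.2)) (Es_pos _ _ _)).le

/-- the estimate of one mode on the parameter interval -/
theorem MEst.ci {M : ℝ} {m : ℤ} {Γ : ℝ → ℝ} {δ0 δ1 : ℝ} {F : Fin 6 → ℝ → ℝ}
    (he : MEst R X a m Γ δ0 δ1 F) (hX : R + 2 ≤ X) {w p q g : CI} (dw : Der w (dgam R X * p))
    (dp : Der p (dgam R X * q))
    (hq : ∀ s : II, q s = dr (xr R X s) * p s + Vx a m (xr R X s) * w s + g s) (hM : 0 ≤ M)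
    (hG : ∀ s : II, ‖g s‖ ≤ M * Γ (xr R X s)) (h0 : ‖ex w (pt 0 1 m)‖ ≤ M * δ0)
    (h1 : ‖ex p 1‖ ≤ M * δ1) (i : Fin 6) (s : II) :
    ‖(![w, p, q, (m * I : ℂ) • w, (m * I : ℂ) • p, (-(m : ℂ) ^ 2) • w] i) s‖ ≤
      M * F i (xr R X s) := by
  have rp := rp_xr hX
  have hy : Sys 0 1 (fun s => dxr R X s) (fun s => dr (xr R X s)) (fun s => Vx a m (xr R X s))
      (ex g) (ex w) (ex p) :=
    ⟨fun s hs => (dw.hasD hs).congr_deriv (by
        simp only [ex_mem _ hs]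
        rw [ContinuousMap.mul_apply, dgam_dxr]),
      fun s hs => (dp.hasD hs).congr_deriv (by
        simp only [ex_mem _ hs]
        rw [ContinuousMap.mul_apply, dgam_dxr, hq])⟩
  obtain ⟨G', W', P', hs, e⟩ := rp.sol2 hy
  obtain ⟨r0, r1, r2, r3, r4, r5⟩ := he G' W' P' M hM hs
    (fun x hx => by
      obtain ⟨t, ht, rfl⟩ := rp.surj hx
      rw [(e t ht).1, ex_mem _ ht]; exact hG ⟨t, ht⟩)
    (by rw [← xr_pt hX, (e _ (pt_mem m)).2.1]; exact h0)
    (by rw [← rp.right, (e 1 (right_mem_Icc.2 zero_le_one)).2.2]; exact h1) _ (rp.maps s.2)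
  obtain ⟨e0, e1, e2⟩ := e s s.2
  rw [ex_mem _ s.2] at e0 e1 e2
  simp only [e0, e1, e2, Subtype.coe_eta] at r0 r1 r2 r3 r4 r5
  fin_cases i
  · exact r0
  · exact r1
  · rw [← hq] at r2; exact r2
  · simpa using r3
  · simpa using r4
  · simpa using r5

/-- **existence** -/
theorem LFam.ex (h : LFam ℓ R X a C γ0 γ δ0 δ1 f0 f) (hη : ∀ x ∈ Icc R X, et a x ≠ 0)
    (hex : ∀ m, MEx R X a m) {c B : ℝ} (hc : 0 ≤ c) (hB : 0 ≤ B)
    (hγ : ∀ x ∈ Icc R X, 1 ≤ c * γ0 x ∧ 1 ≤ c * γ x)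
    (hf : ∀ i, ∀ x ∈ Icc R X, f0 i x ≤ B ∧ f i x ≤ B) (G : Wi (om ℓ)) {D : Dat ℓ} {N : ℝ}
    (hD : DB δ0 δ1 D N) : ∃ J, Lin R X a J G ∧ BC D J := by
  obtain ⟨d, d0, hd, hd'⟩ := hD
  have est : ∀ m, MEst R X a m (Es R (ℓ.l m)) (δ0 m) (δ1 m)
      fun _ x => (1 + c) * C * B * Es R (ℓ.l m) x := fun m => by
    have hC := h.C0
    by_cases hm : m = 0
    · subst hm
      refine h.zero.mono (c := 1 + c) (by linarith) (fun x hx => ?_)
        (by nlinarith [h.δ0_nn 0]) (by nlinarith [h.δ1_nn 0]) fun i x hx => ?_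
      · rw [ℓ.zero, Es_zero]; nlinarith [(hγ x hx).1, h.γ0_pos x hx]
      · rw [ℓ.zero, Es_zero, mul_one, mul_assoc]
        gcongr; exact (hf i x hx).1
    · refine (h.ne m hm).mono (c := 1 + c) (by linarith) (fun x hx => ?_)
        (by nlinarith [h.δ0_nn m]) (by nlinarith [h.δ1_nn m]) fun i x hx => ?_
      · have := Es_pos R (ℓ.l m) x
        rw [← mul_assoc]
        exact le_mul_of_one_le_left this.le (by nlinarith [(hγ x hx).2, h.γ_pos x hx])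
      · have := Es_pos R (ℓ.l m) x
        rw [← mul_assoc, ← mul_assoc]
        gcongr; exact (hf i x hx).2
  choose w p q dw' dp hq e0 e1 using fun m =>
    (hex m).ci h.le hη (Wi.co G m) (dw D m) (Wi.co D.2.1 m)
  set u : Fin 6 → ℤ → CI := fun i m =>
    ![w m, p m, q m, (m * I : ℂ) • w m, (m * I : ℂ) • p m, (-(m : ℂ) ^ 2) • w m] i with hu
  have hs : ∀ i, Summable fun m => ‖(om ℓ).w m * u i m‖ := fun i => by
    refine Summable.of_nonneg_of_le (fun _ => norm_nonneg _) (fun m => ?_)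
      (((Wi.summable_w G).add hd.summable).mul_right ((1 + c) * C * B))
    have hM : 0 ≤ ‖(om ℓ).w m * Wi.co G m‖ + d m := add_nonneg (norm_nonneg _) (d0 m)
    have hC := h.C0
    refine (ContinuousMap.norm_le _ (by positivity)).2 fun s => ?_
    change ‖(eW (ℓ.l m) * u i m) s‖ ≤ _
    rw [norm_eW_mul, le_Es_iff h.le]
    refine ((est m).ci h.le (dw' m) (dp m) (hq m) hM (fun t => ?_) ?_ ?_ i s).trans
      (le_of_eq (by ring))
    · rw [← le_Es_iff h.le, ← norm_eW_mul]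
      exact (ContinuousMap.norm_coe_le_norm _ t).trans (le_add_of_nonneg_right (d0 m))
    · rw [e0]
      exact (hd' m).1.trans
        (mul_le_mul_of_nonneg_right (le_add_of_nonneg_left (norm_nonneg _)) (h.δ0_nn m))
    · rw [e1]
      exact (hd' m).2.trans
        (mul_le_mul_of_nonneg_right (le_add_of_nonneg_left (norm_nonneg _)) (h.δ1_nn m))
  refine ⟨fun i => Wi.mk _ (u i) (hs i), ⟨⟨fun m => ?_, fun m => ?_, fun m => ?_, fun m => ?_,
    fun m => ?_⟩, fun m s => ?_⟩, (bc_iff _ _).2 fun m => ?_⟩ <;> simp only [Wi.co_mk]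
  · exact dw' m
  · exact dp m
  · rfl
  · rfl
  · rfl
  · change q m s - gam R X s / 2 * p m s - _ * w m s = _
    rw [hq, gam_xr, dr, Vx]; push_cast; ring
  · exact ⟨e0 m, e1 m⟩

/-- weights of the Dirichlet data in `dn` -/
def del0 (R g g' X : ℝ) (a : ℂ) (m : ℤ) : ℝ :=
  if 2 ≤ |m| then R ^ (-g) / (1 + |(m : ℝ)|) ^ 2 else if m = 0 then 0 else W g g' a X * (et a X).re

/-- weights of the far slopes in `dn` -/
def del1 (ℓ : Ell) (g g' X : ℝ) (a : ℂ) (m : ℤ) : ℝ :=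
  if m = 0 then X⁻¹ else W g g' a X * (et a X).re / (X * ((1 + |(m : ℝ)|) * Real.exp (ℓ.l m)))

theorem db_dn {g g' : ℝ} (hR : 0 < R) (hX : 0 < X) (hW : 0 < W g g' a X * (et a X).re)
    (D : Dat ℓ) : DB (del0 R g g' X a) (del1 ℓ g g' X a) D (dn R g g' X a D) := by
  set H := D.2.1 - Wi.single _ 0 (Wi.co D.2.1 0) with hH
  set V := W g g' a X * (et a X).re with hV
  have hRg : 0 < R ^ g := Real.rpow_pos_of_pos hR g
  refine ⟨fun m => R ^ g * ‖(omP 2).w m * Wi.co D.1 m‖ +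
      (if m = 0 then X * ‖Wi.co D.2.1 0‖ else 0) +
      (X * ‖(omF ℓ).w m * Wi.co H m‖ + (if m = 1 then ‖D.2.2.1‖ else 0) +
        if m = -1 then ‖D.2.2.2‖ else 0) / V, fun m => by positivity,
    (((Wi.hasSum_norm D.1).mul_left _).add (hasSum_ite_eq 0 _)).add
      (((((Wi.hasSum_norm H).mul_left _).add (hasSum_ite_eq 1 _)).add
        (hasSum_ite_eq (-1) _)).div_const V), fun m => ⟨?_, ?_⟩⟩
  · by_cases hm : 2 ≤ |m|
    · simp only [dw, del0, if_pos hm]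
      have e : ‖Wi.co D.1 m‖ =
          R ^ g * ‖(omP 2).w m * Wi.co D.1 m‖ * (R ^ (-g) / (1 + |(m : ℝ)|) ^ 2) := by
        have : ‖(omP 2).w m‖ = (1 + |(m : ℝ)|) ^ 2 := by
          simp only [omP, scW, norm_real, Real.norm_eq_abs]; exact abs_of_pos (by positivity)
        rw [norm_mul, this, Real.rpow_neg hR.le]; field_simp
      rw [e]
      refine mul_le_mul_of_nonneg_right ?_ (by have := Real.rpow_pos_of_pos hR (-g); positivity)
      rw [add_assoc]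
      exact le_add_of_nonneg_right (by positivity)
    · simp only [dw, del0, if_neg hm]
      rcases small_cases hm with rfl | rfl | rfl
      · simp
      · simp only [if_true, one_ne_zero, if_false, ← hV]
        rw [add_mul, div_mul_cancel₀ _ hW.ne']
        have : 0 ≤ (R ^ g * ‖(omP 2).w 1 * Wi.co D.1 1‖ + 0) * V := by positivity
        have : 0 ≤ X * ‖(omF ℓ).w 1 * Wi.co H 1‖ := by positivity
        have : (0 : ℝ) ≤ if (1 : ℤ) = -1 then ‖D.2.2.2‖ else 0 := by positivity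
        linarith
      · have h1 : ¬ (-1 : ℤ) = 1 := by norm_num
        have h0 : ¬ (-1 : ℤ) = 0 := by norm_num
        simp only [if_true, h1, h0, if_false, ← hV]
        rw [add_mul, div_mul_cancel₀ _ hW.ne']
        have : 0 ≤ (R ^ g * ‖(omP 2).w (-1) * Wi.co D.1 (-1)‖ + 0) * V := by positivity
        have : 0 ≤ X * ‖(omF ℓ).w (-1) * Wi.co H (-1)‖ := by positivity
        linarith
  · by_cases hm : m = 0
    · subst hm
      simp only [del1, if_true]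
      rw [← div_eq_mul_inv, le_div_iff₀' hX]
      have : 0 ≤ R ^ g * ‖(omP 2).w 0 * Wi.co D.1 0‖ := by positivity
      have : 0 ≤ (X * ‖(omF ℓ).w 0 * Wi.co H 0‖ + (if (0 : ℤ) = 1 then ‖D.2.2.1‖ else 0) +
        if (0 : ℤ) = -1 then ‖D.2.2.2‖ else 0) / V := by positivity
      linarith
    · simp only [del1, if_neg hm, ← hV]
      have hw : 0 < (1 + |(m : ℝ)|) * Real.exp (ℓ.l m) := by positivity
      have e : ‖(omF ℓ).w m * Wi.co H m‖ =
          (1 + |(m : ℝ)|) * Real.exp (ℓ.l m) * ‖Wi.co D.2.1 m‖ := by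
        have : ‖(omF ℓ).w m‖ = (1 + |(m : ℝ)|) * Real.exp (ℓ.l m) := by
          simp only [omF, scW, norm_real, Real.norm_eq_abs]; exact abs_of_pos hw
        rw [norm_mul, this, hH, Wi.co_sub, Wi.co_single_ne hm, sub_zero]
      rw [← mul_div_assoc, le_div_iff₀ (by positivity), add_mul _ _ V, div_mul_cancel₀ _ hW.ne', e]
      have : 0 ≤ (R ^ g * ‖(omP 2).w m * Wi.co D.1 m‖ + 0) * V := by positivity
      have : (0 : ℝ) ≤ if m = 1 then ‖D.2.2.1‖ else 0 := by positivity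
      have : (0 : ℝ) ≤ if m = -1 then ‖D.2.2.2‖ else 0 := by positivity
      linarith

end Crest.Agent.N250.B1

end
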