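import Crest.Agent.N250.B1.Lin4
import Crest.Agent.N250.B1.Wt

/-! # Row 250, block B1 (helper24): the modes `|m| ≥ 2` -/

set_option autoImplicit false

open Set Filter Topology Complex

noncomputable section

namespace Crest.Agent.N250.B1

theorem norm_Vx (a : ℂ) (m : ℤ) (x : ℝ) : ‖Vx a m x‖ ≤ |(m : ℝ)| ^ 2 / 2 * ‖et a x‖⁻¹ + 1 := by
  refine (norm_sub_le _ _).trans (le_of_eq ?_)
  simp [div_eq_mul_inv, mul_comm, mul_left_comm, mul_assoc]

/-- a barrier gives the estimate of a high mode (any weight `Ω`, source weight `μ Ω`) -/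
theorem mest_of_bar {R X ε c : ℝ} {a : ℂ} {m : ℤ} {Ω lΩ Ot O1 O2 : ℝ → ℝ} (ok : Ok ε a R X)
    (hm : 2 ≤ |m|) (hc : 0 < c) (hc1 : c ≤ 1) (hΩ : LD R X Ω lΩ)
    (hl : ∀ x ∈ Icc R X, lΩ x ≤ x / 8)
    (bar : Bar R X (fun x => x / 2) (Vx a m) 0 Ot O1 O2
      (fun x => c * (m : ℝ) ^ 2 * mu a x * Ω x) (c * (X + |(m : ℝ)|) * Ω X))
    (h1 : ∀ x ∈ Icc R X, Ω x ≤ Ot x ∧ Ot x ≤ 2 * Ω x) :
    MEst R X a m (fun x => mu a x * Ω x) (Ω R / (m : ℝ) ^ 2) (Ω X / (X + |(m : ℝ)|))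
      fun i x => 24 / c * ![Ω x, Ω x / (x * ‖et a x‖), Ω x / ‖et a x‖, Ω x, x * Ω x, Ω x] i := by
  intro G w p M hM s hG hw hp
  have hk : (2 : ℝ) ≤ |(m : ℝ)| := by exact_mod_cast hm
  have hk2 : 4 ≤ (m : ℝ) ^ 2 := by nlinarith [sq_abs (m : ℝ)]
  have hm0 : (m : ℝ) ≠ 0 := fun e => by rw [e] at hk2; norm_num at hk2
  have hR := left_mem_Icc.2 ok.lt.le
  have hX := right_mem_Icc.2 ok.lt.le
  have hX0 := ok.ptX.xpos
  simp only [pt, if_pos hm] at hw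
  have hp' : (X + |(m : ℝ)|) * ‖p X‖ ≤ M * Ω X := by
    rwa [← mul_div_assoc, le_div_iff₀' (by positivity)] at hp
  have w1 := bar.le (M := M / (c * (m : ℝ) ^ 2)) s
    (fun x hx => (hG x (Ioo_subset_Icc_self hx)).trans (le_of_eq (by field_simp)))
    (by
      refine hw.trans ?_
      have h2 : M * (Ω R / (m : ℝ) ^ 2) = M / (1 * (m : ℝ) ^ 2) * Ω R := by field_simp
      rw [h2]
      have := hΩ.pos R hR
      gcongr
      exact (h1 R hR).1)
    (by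
      have e : M / (c * (m : ℝ) ^ 2) * (c * (X + |(m : ℝ)|) * Ω X) =
          (X + |(m : ℝ)|) * (M * Ω X) / (m : ℝ) ^ 2 := by field_simp
      rw [zero_mul, sub_zero, e, le_div_iff₀' (by positivity)]
      have h2 : (m : ℝ) ^ 2 ≤ (X + |(m : ℝ)|) * (X + |(m : ℝ)|) := by nlinarith [sq_abs (m : ℝ)]
      have h3 := mul_le_mul_of_nonneg_right h2 (norm_nonneg (p X))
      have h4 := mul_le_mul_of_nonneg_left hp' (by positivity : 0 ≤ X + |(m : ℝ)|)
      linarith)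
  have w2 : ∀ x ∈ Icc R X, |(m : ℝ)| ^ 2 * ‖w x‖ ≤ 2 / c * M * Ω x := fun x hx => by
    have h2 := (w1 x hx).trans (mul_le_mul_of_nonneg_left (h1 x hx).2 (by positivity))
    have e : M / (c * (m : ℝ) ^ 2) * (2 * Ω x) = 2 / c * M * Ω x / (m : ℝ) ^ 2 := by field_simp
    rwa [e, le_div_iff₀' (by positivity), ← sq_abs (m : ℝ)] at h2
  have hC : 1 ≤ 2 / c := by rw [le_div_iff₀ hc]; linarith
  have hh := high (n := fun x => ‖et a x‖) (ln := ln a) (by linarith [ok.ptR.x_ge]) ok.lt.le s hΩ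
    ⟨fun x hx => (ok.pt hx).npos, ok.dv_norm⟩ hk hC hM hl
    (fun x hx => by
      have := (abs_le.1 (ok.pt hx).ln_le').1; have := (ok.pt hx).xpos; linarith)
    (fun x hx => (ok.pt hx).norm_le)
    (fun x hx => by
      have h := ok.pt hx
      have h2 : ε * x ^ 2 * ‖et a x‖ ≤ 1 * x ^ 2 * ‖et a x‖ := by
        gcongr; linarith [h.small]
      linarith [h.one_le_norm])
    (fun x _ => norm_Vx a m x)
    (fun x hx => by
      have h := ok.pt hx
      have h2 := mul_le_mul_of_nonneg_right (hG x hx) h.npos.le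
      have h3 := mul_le_mul_of_nonneg_left h.mu_norm_le (mul_nonneg hM (hΩ.pos x hx).le)
      linarith)
    w2 hp'
  intro x hx
  obtain ⟨r1, r4, r2⟩ := hh x hx
  have r5 := w2 x hx
  have h := ok.pt hx
  have hx0 := h.xpos
  have hn := h.npos
  have h0 : 0 ≤ 2 / c * M * Ω x := by have := hΩ.pos x hx; positivity
  have e : ∀ y, M * (24 / c * y) = 12 * (2 / c * M * y) := fun y => by ring
  have k1 : ‖w x‖ ≤ |(m : ℝ)| * ‖w x‖ := le_mul_of_one_le_left (norm_nonneg _) (by linarith)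
  have k2 : |(m : ℝ)| * ‖w x‖ ≤ |(m : ℝ)| ^ 2 * ‖w x‖ := by gcongr; nlinarith
  simp only [Matrix.cons_val, e]
  refine ⟨by linarith, ?_, ?_, by linarith, ?_, by rw [← sq_abs]; linarith⟩
  · rw [← mul_div_assoc, ← mul_div_assoc, le_div_iff₀' (by positivity)]; linarith
  · rw [← mul_div_assoc, ← mul_div_assoc, le_div_iff₀' hn]; linarith
  · have : 0 ≤ 2 / c * M * (x * Ω x) := by have := hΩ.pos x hx; positivity
    linarith

theorem mex_of_bar {R X ε δ : ℝ} {a : ℂ} {m : ℤ} {γ Ot O1 O2 : ℝ → ℝ} (ok : Ok ε a R X)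
    (hm : 2 ≤ |m|) (bar : Bar R X (fun x => x / 2) (Vx a m) 0 Ot O1 O2 γ δ) : MEx R X a m := by
  intro G hG α β
  obtain ⟨w, p, s, h0, h1⟩ := bar.ex (by fun_prop) (ok.cont_Vm m) hG α β
  exact ⟨w, p, s, by simpa only [pt, if_pos hm] using h0, by simpa using h1⟩

theorem mex_low {R X ε : ℝ} {a : ℂ} {m : ℤ} (ok : Ok ε a R X) (hm : ¬ 2 ≤ |m|) : MEx R X a m := by
  intro G hG α β
  obtain ⟨w, p, s, h0, h1⟩ := exists_sol2_right ok.lt.le dr_cont.continuousOn (ok.cont_Vm m) hG α β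
  exact ⟨w, p, s, by simpa only [pt, if_neg hm] using h0, h1⟩

end Crest.Agent.N250.B1

end
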