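import Crest.Agent.N250.B1.Lin5
import Crest.Agent.N250.B1.Low0

/-! # Row 250, block B1 (helper24): the modes `0, ± 1` -/

set_option autoImplicit false

open Set Filter Topology Complex

noncomputable section

namespace Crest.Agent.N250.B1

/-- modes `± 1` for any weight `Ω` decreasing faster than the rotation field -/
theorem mest_rot {R X ε : ℝ} {a : ℂ} {m : ℤ} {Ω lΩ : ℝ → ℝ} (ok : Ok ε a R X) (hm : m ^ 2 = 1)
    (hΩ : LD R X Ω lΩ) (hl : ∀ x ∈ Icc R X, lΩ x ≤ x / 16)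
    (hg : ∀ x ∈ Icc R X, x * (lΩ x - (l1 a x).re) ≤ -mu a x) :
    MEst R X a m (fun x => mu a x * Ω x) (mu a X * ‖et a X‖ * Ω X / 4) (mu a X * Ω X / X)
      fun i x => 100 * ![Ω x, Ω x / (x * ‖et a x‖), Ω x / ‖et a x‖, Ω x, x * Ω x, Ω x] i := by
  intro G w p M hM s hG hw hp
  have hm' : ¬ 2 ≤ |m| := fun h => by nlinarith [sq_abs m]
  have hm1 : (m : ℝ) ^ 2 = 1 := by exact_mod_cast hm
  have hm2 : |(m : ℝ)| = 1 := by
    have := sq_abs (m : ℝ); have := abs_nonneg (m : ℝ); nlinarith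
  have hX := right_mem_Icc.2 ok.lt.le
  have pX := ok.ptX
  simp only [pt, if_neg hm'] at hw
  have hΓ : LD R X (fun x => mu a x * Ω x) fun x => lm a x + lΩ x :=
    LD.mul ⟨fun x hx => (ok.pt hx).mu_pos, ok.dv_mu⟩ hΩ
  have hh := low (l := l1 a) (by linarith [ok.ptR.x_ge]) ok.lt.le s ok.dv_l1 hΩ.dv hΩ.pos hΓ
    (fun x hx => by have := (abs_le.1 (ok.pt hx).lm_le').2; have := hl x hx; linarith)
    (fun x hx => by
      have := (re_le_norm _).trans (ok.pt hx).l1_le'; have := (ok.pt hx).xpos; linarith)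
    (fun x hx => by
      have h := ok.pt hx
      have e : Vx a m x - l1' a x + dr x * l1 a x - l1 a x ^ 2 = res a x := by
        have := h.res_eq hm
        simp only [dr, Vx, Vm] at this ⊢
        push_cast
        linear_combination -this
      rw [e]
      have := mul_le_mul_of_nonneg_right h.res_le' (hΩ.pos x hx).le
      have := hΓ.pos x hx
      linarith)
    (fun x hx => by
      have h0 := (ok.pt hx).xpos
      have := mul_le_mul_of_nonneg_right (hg x hx) (hΩ.pos x hx).le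
      rw [le_neg, div_le_iff₀ h0]; linarith)
    hG
    (hw.trans (mul_le_mul_of_nonneg_left (by
      have := mul_le_mul_of_nonneg_right pX.mu_norm_le (hΩ.pos X hX).le
      have := hΩ.pos X hX
      linarith) hM))
    (by
      refine (norm_sub_le _ _).trans ?_
      rw [norm_mul]
      have h1 := mul_le_mul pX.l1_le_inv hw (norm_nonneg _)
        (by have := pX.xpos; have := pX.npos; positivity)
      have e : 8 / (X * ‖et a X‖) * (M * (mu a X * ‖et a X‖ * Ω X / 4)) =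
          2 * M * (mu a X * Ω X * X⁻¹) := by
        have := pX.xpos; have := pX.npos; field_simp; ring
      have : 0 ≤ M * (mu a X * Ω X * X⁻¹) := by
        have := pX.xpos; have := hΓ.pos X hX; positivity
      rw [div_eq_mul_inv] at hp
      linarith)
  intro x hx
  obtain ⟨r0, r1⟩ := hh x hx
  have h := ok.pt hx
  have hx0 := h.xpos
  have hn := h.npos
  have hΩ0 := hΩ.pos x hx
  have h0 : 0 ≤ M * Ω x := by positivity
  have hμ := mul_le_mul_of_nonneg_left h.mu_norm_le h0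
  have k1 : x * ‖et a x‖ * ‖p x‖ ≤ 72 * (M * Ω x) := by
    have h1 : ‖p x‖ ≤ ‖p x - l1 a x * w x‖ + ‖l1 a x‖ * ‖w x‖ := by
      rw [← norm_mul]; exact norm_le_norm_sub_add _ _
    have h2 := mul_le_mul h.l1_le_inv r0 (norm_nonneg _) (by positivity)
    have h3 := mul_le_mul_of_nonneg_left (h1.trans (add_le_add r1 h2))
      (by positivity : 0 ≤ x * ‖et a x‖)
    have e : x * ‖et a x‖ * (8 * M * (mu a x * Ω x * x⁻¹) + 8 / (x * ‖et a x‖) * (8 * M * Ω x)) =
        8 * (M * Ω x * (mu a x * ‖et a x‖)) + 64 * (M * Ω x) := by field_simp; ring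
    linarith
  have k2 : ‖et a x‖ * ‖dr x * p x + Vx a m x * w x + G x‖ ≤ 100 * (M * Ω x) := by
    have h1 : ‖dr x * p x + Vx a m x * w x + G x‖ ≤
        x / 2 * ‖p x‖ + ‖Vx a m x‖ * ‖w x‖ + ‖G x‖ := by
      refine norm_add₃_le.trans (le_of_eq ?_)
      rw [norm_mul, norm_mul, norm_dr hx0.le]
    have h2 : ‖et a x‖ * ‖Vx a m x‖ ≤ 7 / 2 := by
      have := h.Vm_norm_le m
      rw [le_div_iff₀' hn, hm1] at this
      exact this.trans (by norm_num)
    have h3 := mul_le_mul h2 r0 (norm_nonneg _) (by norm_num)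
    have h4 := mul_le_mul_of_nonneg_left h1 hn.le
    have h5 := mul_le_mul_of_nonneg_left (hG x hx) hn.le
    linarith
  have k3 : ‖p x‖ ≤ 72 * (x * (M * Ω x)) := by
    have h2 : ε * x ^ 2 * ‖et a x‖ ≤ 1 * x ^ 2 * ‖et a x‖ := by
      gcongr; linarith [h.small]
    have h3 := mul_le_mul_of_nonneg_right (h.one_le_norm.trans h2) (norm_nonneg (p x))
    have h4 := mul_le_mul_of_nonneg_left k1 hx0.le
    linarith
  simp only [Matrix.cons_val, hm1, hm2, one_mul]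
  refine ⟨by linarith, ?_, ?_, by linarith, ?_, by linarith⟩
  · rw [← mul_div_assoc, ← mul_div_assoc, le_div_iff₀' (by positivity)]; linarith
  · rw [← mul_div_assoc, ← mul_div_assoc, le_div_iff₀' hn]; linarith
  · have : 0 ≤ x * (M * Ω x) := by positivity
    linarith

theorem rho_aux {K X x : ℝ} (hK : 0 < K) (hX : 4 * K ≤ X ^ 2) (hx : x ^ 2 ≤ X ^ 2) :
    0 ≤ 2 / X ^ 2 * (1 - 2 * K / X ^ 2) ∧ 0 < 1 - 2 / X ^ 2 * (1 - 2 * K / X ^ 2) * x ^ 2 / 2 ∧
      1 - 2 / X ^ 2 * (1 - 2 * K / X ^ 2) * x ^ 2 / 2 ≤ rho K X x := by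
  have h0 : 0 < X ^ 2 := by linarith
  have h1 : 2 * K / X ^ 2 ≤ 1 / 2 := by rw [div_le_iff₀ h0]; linarith
  have h2 : 0 < 2 * K / X ^ 2 := by positivity
  have h3 : x ^ 2 / X ^ 2 ≤ 1 := (div_le_one h0).2 hx
  have h4 : 0 ≤ x ^ 2 / X ^ 2 := by positivity
  have h5 : 0 ≤ 2 / X ^ 2 * (1 - 2 * K / X ^ 2) := mul_nonneg (by positivity) (by linarith)
  have e : 2 / X ^ 2 * (1 - 2 * K / X ^ 2) * x ^ 2 / 2 = x ^ 2 / X ^ 2 * (1 - 2 * K / X ^ 2) := by
    ring
  refine ⟨h5, by rw [e]; nlinarith, ?_⟩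
  have : rho K X x = 1 - 2 / X ^ 2 * (1 - 2 * K / X ^ 2) * x ^ 2 / 2 +
      2 / X ^ 2 * (1 - 2 * K / X ^ 2) := by unfold rho; ring
  linarith

/-- the mode `0` -/
theorem mest_zero {R X K : ℝ} (a : ℂ) (hR : 4 ≤ R) (hK : 0 < K) (hX : 4 * K ≤ X ^ 2) :
    MEst R X a 0 (fun _ => 1) 0 X⁻¹
      fun i x => 100 * ![rho K X x, x⁻¹, 1, 1, 1, 1] i := by
  intro G w p M hM s hG hw hp x hx
  have hRX : R ≤ X := hx.1.trans hx.2
  have hX0 : 0 < X := by linarith
  have hx0 : 0 < x := by linarith [hx.1]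
  have sq : ∀ y ∈ Icc R X, y ^ 2 ≤ X ^ 2 := fun y hy =>
    pow_le_pow_left₀ (by linarith [hy.1]) hy.2 2
  have e0 : ∀ y, Vx a 0 y = -1 := fun y => by simp [Vx]
  have hw' : ‖w X‖ ≤ 0 := by simpa [pt] using hw
  obtain ⟨r0, r1⟩ := low0 (A := 2 / X ^ 2 * (1 - 2 * K / X ^ 2)) (M := M) (g := G) (w := w)
    (w1 := p) hR (rho_aux hK hX le_rfl).1 (fun y hy => (rho_aux hK hX (sq y hy)).2.1)
    (s.congr (fun _ _ => rfl) (fun _ _ => rfl) fun y _ => by simp [e0, dr]) hM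
    (fun y hy => by simpa using hG y hy)
    (hw'.trans (mul_nonneg hM (rho_aux hK hX le_rfl).2.1.le))
    (by rwa [← div_eq_mul_inv, le_div_iff₀' hX0] at hp) x hx
  obtain ⟨a0, a1, a2⟩ := rho_aux hK hX (sq x hx)
  have a3 : 0 ≤ 2 / X ^ 2 * (1 - 2 * K / X ^ 2) * x ^ 2 / 2 := by positivity
  have k0 := mul_le_mul_of_nonneg_left a2 hM
  have k1 := mul_nonneg hM a3
  have k2 : ‖dr x * p x + Vx a 0 x * w x + G x‖ ≤ x / 2 * ‖p x‖ + ‖w x‖ + ‖G x‖ := by
    refine norm_add₃_le.trans (le_of_eq ?_)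
    rw [norm_mul, norm_mul, norm_dr hx0.le, e0]; simp
  have k3 := hG x hx
  have k4 := mul_nonneg hM a1.le
  simp only [Matrix.cons_val, Int.cast_zero, abs_zero, zero_mul, ne_eq, OfNat.ofNat_ne_zero,
    not_false_eq_true, zero_pow] at k3 ⊢
  refine ⟨by linarith, ?_, by linarith, by positivity, by positivity, by positivity⟩
  rw [← mul_assoc, ← div_eq_mul_inv, le_div_iff₀' hx0]; linarith

end Crest.Agent.N250.B1

end
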