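import Crest.Agent.N250.B1.Low1
import Crest.Agent.N250.B1.Lin3
import Crest.Agent.N250.B1.Wt

/-!
# Row 250, block B1 (helper70): the modes `± 1` are quadratically small
-/

set_option autoImplicit false
open Set Filter Topology

noncomputable section

namespace Crest.Agent.N250.B1

variable {ε R X δ A n x : ℝ} {a : ℂ} {m : ℤ} {G w p : ℝ → ℂ}

theorem W_one (n : ℝ) (a : ℂ) (x : ℝ) : W n 1 a x = x ^ (-n) * ‖et a x‖ := by rw [W, Real.rpow_one]

/-- `(W / |η|)² ≤ 3 x^{-2g} |η|` -/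
theorem Pt.th_sq (h : Pt ε a x) {g g' : ℝ} (h1 : 3 / 2 ≤ g') (h2 : g' ≤ 2) :
    (W g g' a x / ‖et a x‖) ^ 2 ≤ 3 * W (2 * g) 1 a x := by
  have n0 := h.npos
  have x0 := h.xpos
  have e : (W g g' a x / ‖et a x‖) ^ 2 = ‖et a x‖ ^ (2 * g' - 3) * W (2 * g) 1 a x := by
    rw [W_one, W, show -(2 * g) = -g + -g by ring, Real.rpow_add x0, show 2 * g' - 3 = g' + g' - (3 : ℕ) by
      push_cast; ring, Real.rpow_sub_natCast n0.ne', Real.rpow_add n0]
    field_simp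
  rw [e]
  refine mul_le_mul_of_nonneg_right ?_ (h.W_pos _ _).le
  refine (Real.rpow_le_rpow n0.le h.norm_le (by linarith)).trans ?_
  simpa using Real.rpow_le_rpow_of_exponent_le (x := 3) (by norm_num) (show 2 * g' - 3 ≤ 1 by linarith)

theorem Pt.xl1 (h : Pt ε a x) : x * ‖l1 a x‖ ≤ 8 / ‖et a x‖ := by
  have n0 := h.npos
  have x0 : (x : ℂ) ≠ 0 := by exact_mod_cast h.xpos.ne'
  have e : (x : ℂ) * l1 a x = (2 * et a x - 1 + a) / et a x := by
    have := h.ne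
    rw [l1]; field_simp; linear_combination et_sub a x
  have := congrArg norm e
  rw [norm_mul, Complex.norm_real, Real.norm_of_nonneg h.xpos.le, norm_div] at this
  rw [this]
  gcongr
  have a1 := norm_add_le (2 * et a x - 1) a
  have a2 := norm_sub_le (2 * et a x) 1
  rw [norm_mul, Complex.norm_two, norm_one] at a2
  linarith [h.norm_le, h.a_le_three, h.small]

theorem lo1_W (hm : m ^ 2 = 1) (hR : 0 < R) (ok : ∀ x ∈ Icc R X, Pt ε a x) (hn : 1 ≤ n) :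
    Lo1 R X 1 (Vx a m) (l1 a) (l1' a) (mu a) (lm a) (W n 1 a) fun x => -n / x + 1 * ln a x := by
  refine ⟨hR, one_pos, fun x hx => (ok x hx).hasDerivAt_l1.hasDerivWithinAt,
    fun x hx => (ok x hx).hasDerivAt_mu.hasDerivWithinAt,
    fun x hx => ((ok x hx).hasDerivAt_W n 1).hasDerivWithinAt, fun x hx => (ok x hx).mu_pos,
    fun x hx => (ok x hx).W_pos _ _, fun x hx => (abs_le.1 (ok x hx).lm_le').2, fun x hx => ?_, fun x hx => ?_,
    fun x hx => ?_, fun x hx => ?_⟩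
  · have := (ok x hx).xpos
    have : -n / x ≤ 0 := div_nonpos_of_nonpos_of_nonneg (by linarith) this.le
    linarith [(abs_le.1 (ok x hx).ln_le').2]
  · have h := ok x hx
    rw [Pt.l1_eq, Complex.add_re, Complex.ofReal_re, Complex.div_ofNat_re]
    have := (abs_le.1 h.ln_le').2
    have b : 1 / x ≤ 1 := by rw [div_le_one h.xpos]; linarith [h.x_ge]
    rw [ln] at this
    linarith [h.x_ge]
  · have h := ok x hx
    have x0 := h.xpos.ne'
    rw [Pt.l1_eq, Complex.add_re, Complex.ofReal_re, Complex.div_ofNat_re, ln,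
      show x * (-n / x + 1 * (a * x / et a x).re - (1 / x + (a * x / et a x).re / 2)) =
        -n - 1 + x * (a * x / et a x).re / 2 by field_simp; ring, h.ee_re]
    linarith [(abs_le.1 h.abs_re_a_div).2, h.small]
  · have h := ok x hx
    rw [show Vx a m x - (l1' a x + l1 a x * l1 a x - x / 2 * l1 a x) = res a x by
      have e : Vx a m x = Vm a m x := rfl
      linear_combination -h.res_eq hm + e]
    linarith [h.res_le', h.mu_pos]

/-- **bootstrap for the modes `± 1`**, `y₁ = w/η`, `Z₁ = x p`, `V₁ = w''` -/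
theorem m1_ode (hm : m ^ 2 = 1) (hR : 0 < R) (hRX : R ≤ X) (ok : ∀ x ∈ Icc R X, Pt ε a x) (hn : 1 ≤ n)
    (s : Sol2 R X dr (Vx a m) G w p) (hδ0 : 0 ≤ δ) (hδ : δ ≤ 1 / 1000) (hA : 0 ≤ A)
    (hG : ∀ x ∈ Icc R X, ‖G x‖ ≤ δ * ((et a x).re / ‖et a x‖) *
      (‖w x‖ / ‖et a x‖ + x * ‖p x‖ + ‖dr x * p x + Vx a m x * w x + G x‖) + A * W n 1 a x)
    (h0 : ‖w X‖ ≤ A * W n 1 a X) (h1 : X * ‖p X - l1 a X * w X‖ ≤ A * W n 1 a X) :
    ∀ x ∈ Icc R X, ‖w x‖ ≤ 100 * A * W n 1 a x ∧ x * ‖p x‖ ≤ 900 * A * x ^ (-n) := by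
  have L := lo1_W hm hR ok hn
  set Ω := W n 1 a with hΩ
  have c : ContinuousOn (fun x => ‖w x‖ / Ω x + x * ‖p x - l1 a x * w x‖ / (mu a x * Ω x)) (Icc R X) :=
    (s.d0.cont.norm.div L.dΩ.cont fun x hx => (L.Ω0 x hx).ne').add ((continuousOn_id.mul
      (s.d1.cont.sub (L.dl.cont.mul s.d0.cont)).norm).div (L.dμ.cont.mul L.dΩ.cont)
      fun x hx => (mul_pos (L.μ0 x hx) (L.Ω0 x hx)).ne')
  obtain ⟨x0, hx0, hN⟩ := isCompact_Icc.exists_isMaxOn (nonempty_Icc.2 hRX) c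
  obtain ⟨N, eN⟩ : ∃ N, N = ‖w x0‖ / Ω x0 + x0 * ‖p x0 - l1 a x0 * w x0‖ / (mu a x0 * Ω x0) := ⟨_, rfl⟩
  have b : ∀ x ∈ Icc R X, ‖w x‖ ≤ N * Ω x ∧ x * ‖p x - l1 a x * w x‖ ≤ N * (mu a x * Ω x) := fun x hx => by
    have h : ‖w x‖ / Ω x + x * ‖p x - l1 a x * w x‖ / (mu a x * Ω x) ≤ N := eN ▸ hN hx
    have o := L.Ω0 x hx
    have u := L.μ0 x hx
    have x0 := (ok x hx).xpos
    have a1 : 0 ≤ ‖w x‖ / Ω x := by positivity
    have a2 : 0 ≤ x * ‖p x - l1 a x * w x‖ / (mu a x * Ω x) := by positivity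
    exact ⟨(div_le_iff₀ o).1 (by linarith), (div_le_iff₀ (mul_pos u o)).1 (by linarith)⟩
  have N0 : 0 ≤ N := nonneg_of_mul_nonneg_left ((norm_nonneg _).trans (b x0 hx0).1) (L.Ω0 x0 hx0)
  have xp : ∀ x ∈ Icc R X, x * ‖p x‖ ≤ x * ‖p x - l1 a x * w x‖ + 8 * (‖w x‖ / ‖et a x‖) := fun x hx => by
    have h := ok x hx
    have a1 := norm_add_le (p x - l1 a x * w x) (l1 a x * w x)
    rw [sub_add_cancel, norm_mul] at a1
    have a2 := mul_le_mul_of_nonneg_right h.xl1 (norm_nonneg (w x))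
    have a3 := mul_le_mul_of_nonneg_left a1 h.xpos.le
    rw [show 8 / ‖et a x‖ * ‖w x‖ = 8 * (‖w x‖ / ‖et a x‖) by ring] at a2
    nlinarith
  have g : ∀ x ∈ Icc R X, ‖G x‖ ≤ (20 * δ * N + 4 * A) * (mu a x * Ω x) := fun x hx => by
    have h := ok x hx
    have n0 := h.npos
    have o := L.Ω0 x hx
    obtain ⟨b1, b2⟩ := b x hx
    have k1 : (et a x).re / ‖et a x‖ ≤ 1 := (div_le_one n0).2 h.re_le
    have k0 : 0 ≤ (et a x).re / ‖et a x‖ := (div_pos h.repos n0).le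
    have k2 : (et a x).re / ‖et a x‖ * (‖w x‖ / ‖et a x‖) ≤ N * (mu a x * Ω x) := by
      rw [show (et a x).re / ‖et a x‖ * (‖w x‖ / ‖et a x‖) = mu a x * ‖w x‖ by rw [mu_eq]; field_simp]
      nlinarith [h.mu_pos]
    have v : ‖Vx a m x * w x‖ ≤ 4 * (‖w x‖ / ‖et a x‖) := by
      have hm' : (m : ℂ) ^ 2 = 1 := by exact_mod_cast hm
      have := h.ne
      rw [show Vx a m x * w x = (1 / 2 - et a x) * (w x / et a x) by rw [Vx, hm']; field_simp, norm_mul, norm_div]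
      have := norm_sub_le (1 / 2 : ℂ) (et a x)
      rw [show ‖(1 / 2 : ℂ)‖ = 1 / 2 by simp] at this
      gcongr; linarith [h.norm_le]
    have q : ‖dr x * p x + Vx a m x * w x + G x‖ ≤ x * ‖p x‖ / 2 + 4 * (‖w x‖ / ‖et a x‖) + ‖G x‖ := by
      refine norm_add₃_le.trans ?_
      rw [norm_mul, norm_dr h.xpos.le]; linarith
    have t : (et a x).re / ‖et a x‖ * (‖w x‖ / ‖et a x‖ + x * ‖p x‖ + ‖dr x * p x + Vx a m x * w x + G x‖) ≤
        19 * N * (mu a x * Ω x) + ‖G x‖ := by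
      have a1 := mul_le_mul_of_nonneg_left (show ‖w x‖ / ‖et a x‖ + x * ‖p x‖ + ‖dr x * p x + Vx a m x * w x + G x‖ ≤
        17 * (‖w x‖ / ‖et a x‖) + (3 / 2 * (x * ‖p x - l1 a x * w x‖) + ‖G x‖) by linarith [xp x hx]) k0
      have a2 := mul_le_of_le_one_left (show 0 ≤ 3 / 2 * (x * ‖p x - l1 a x * w x‖) + ‖G x‖ by
        have := h.xpos; positivity) k1
      have : 0 ≤ N * (mu a x * Ω x) := by have := h.mu_pos; positivity
      linarith
    have a1 := hG x hx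
    have a2 := mul_le_mul_of_nonneg_left t hδ0
    have a3 : A * Ω x ≤ 3 * A * (mu a x * Ω x) := by nlinarith [mul_nonneg hA o.le, h.mu_ge]
    have a4 : 0 ≤ δ * N * (mu a x * Ω x) := by have := h.mu_pos; positivity
    have a5 : 0 ≤ A * (mu a x * Ω x) := by have := h.mu_pos; positivity
    have a6 := mul_le_mul_of_nonneg_right hδ (norm_nonneg (G x))
    nlinarith
  have hX := right_mem_Icc.2 hRX
  have M0 : 0 ≤ δ * N := mul_nonneg hδ0 N0
  have k := L.le (g := G) (w := w) (w1 := p) (s.congr (fun _ _ => rfl) (fun _ _ => rfl) fun x _ => by simp [dr])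
    (M := 20 * δ * N + 4 * A) (by positivity) g
    (h0.trans (mul_le_mul_of_nonneg_right (by linarith) (L.Ω0 X hX).le))
    (h1.trans (by
      have a1 := mul_nonneg hA (L.Ω0 X hX).le
      have a2 := mul_nonneg M0 (mul_pos (L.μ0 X hX) (L.Ω0 X hX)).le
      nlinarith [(ok X hX).mu_ge])) x0 hx0
  have N1 : N ≤ 100 * A := by
    have a1 := (div_le_iff₀ (L.Ω0 x0 hx0)).2 k.1
    have a2 := (div_le_iff₀ (mul_pos (L.μ0 x0 hx0) (L.Ω0 x0 hx0))).2 k.2
    have := mul_le_mul_of_nonneg_right hδ N0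
    linarith
  intro x hx
  have h := ok x hx
  have o := L.Ω0 x hx
  have w1 := (b x hx).1.trans (mul_le_mul_of_nonneg_right N1 o.le)
  refine ⟨w1, (xp x hx).trans ?_⟩
  have a1 := (b x hx).2.trans (mul_le_mul_of_nonneg_right N1 (mul_pos h.mu_pos o).le)
  have r : 0 < x ^ (-n) := Real.rpow_pos_of_pos h.xpos _
  have a2 : ‖w x‖ / ‖et a x‖ ≤ 100 * A * x ^ (-n) := by
    rw [div_le_iff₀ h.npos]; rw [hΩ, W_one] at w1; linarith
  have a3 : mu a x * Ω x ≤ x ^ (-n) := by rw [hΩ, W_one]; nlinarith [h.mu_norm_le]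
  nlinarith [mul_le_mul_of_nonneg_left a3 hA]

/-- the same for a jet with vanishing far data in the mode `m = ± 1` -/
theorem m1_jet {ℓ : Ell} {J : Jt ℓ} {G : Wi (om ℓ)} (h : Lin R X a J G) (hm : m ^ 2 = 1) (hR : 0 < R)
    (hX : R + 2 ≤ X) (ok : ∀ x ∈ Icc R X, Pt ε a x) (hn : 1 ≤ n) (hδ0 : 0 ≤ δ) (hδ : δ ≤ 1 / 1000) (hA : 0 ≤ A)
    (hG : ∀ s : II, ‖Wi.co G m s‖ ≤ δ * ((et a (xr R X s)).re / ‖et a (xr R X s)‖) *
      (‖Wi.co (J 0) m s‖ / ‖et a (xr R X s)‖ + xr R X s * ‖Wi.co (J 1) m s‖ + ‖Wi.co (J 2) m s‖) +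
        A * W n 1 a (xr R X s))
    (h0 : Wi.co (J 0) m i1 = 0) (h1 : Wi.co (J 1) m i1 = 0) (s : II) :
    ‖Wi.co (J 0) m s‖ ≤ 100 * A * W n 1 a (xr R X s) ∧
      xr R X s * ‖Wi.co (J 1) m s‖ ≤ 900 * A * xr R X s ^ (-n) := by
  have rp := rp_xr hX
  obtain ⟨G', W', P', hs, e⟩ := rp.sol2 (h.sys m)
  have eX := e 1 (right_mem_Icc.2 zero_le_one)
  rw [rp.right, ex_1, ex_1, ex_1, h0, h1] at eX
  have o := mul_nonneg hA ((ok X (right_mem_Icc.2 (by linarith))).W_pos n 1).le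
  have k := m1_ode hm hR (by linarith) ok hn hs hδ0 hδ hA (fun x hx => by
    obtain ⟨t, ht, rfl⟩ := rp.surj hx
    obtain ⟨e0, e1, e2⟩ := e t ht
    rw [ex_mem _ ht] at e0 e1 e2
    rw [e0, e1, e2, ← h.q_eq m ⟨t, ht⟩]
    exact hG ⟨t, ht⟩) (by simpa [eX.2.1] using o) (by simpa [eX.2.1, eX.2.2] using o) _ (rp.maps s.2)
  obtain ⟨-, e1, e2⟩ := e s s.2
  rw [ex_mem _ s.2] at e1 e2
  rwa [e1, e2] at k

end Crest.Agent.N250.B1
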