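import Crest.Agent.N250.B1.M1b
import Crest.Agent.N250.B1.Ap

/-! # Row 250, block B1 (helper70): `M1S` closed -/

namespace Crest.Agent.N250.B1

theorem m1S_holds : M1S := m1S_of apS_holds

end Crest.Agent.N250.B1
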