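import Crest.Agent.N250.B1.Nl2

/-!
# Row 250, B1 (helper45): the perturbed nonlinearity and the fixed point

The linear solver `L` is fixed at a base point; the dependence on the parameters sits in the
coefficients `Cf`.  Unknown `ξ = (w₀/Re η₀; w/η₀, w_t/η₀, w_tt/η₀, x₀ P, P_t/(x₀ η₀), Q)`.
-/

set_option autoImplicit false
set_option linter.unusedSectionVars false
open Metric Set

noncomputable section

namespace Crest.Agent.N250.Nl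

open Wi
variable {A : Type*} [NormedCommRing A] [NormOneClass A] [NormedAlgebra ℂ A] [CompleteSpace A]

/-- the parameter dependent coefficients -/
structure Cf (A : Type*) where
  c1 : A
  z0 : A
  c2 : A
  c3 : A
  v0 : A
  c4 : A
  c5 : A
  n : A
  l1 : A
  l2 : A
  l3 : A

/-- bounds for the coefficients; `k` is the inverse of the target weight -/
structure Cf.Bd (c : Cf A) (k : A) (ν : ℝ) : Prop where
  c1 : ‖c.c1‖ ≤ 2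
  z0 : ‖c.z0‖ ≤ 9
  c2 : ‖c.c2‖ ≤ 2
  c3 : ‖c.c3‖ ≤ 4
  v0 : ‖c.v0‖ ≤ 1 / 2
  c4 : ‖c.c4‖ ≤ 2
  c5 : ‖c.c5‖ ≤ 2
  n : ‖c.n‖ ≤ 1 / 400
  kn : ‖k * c.n‖ ≤ ν
  l1 : ‖k * c.l1‖ ≤ ν
  l2 : ‖k * c.l2‖ ≤ ν
  l3 : ‖k * c.l3‖ ≤ ν

/-- holomorphy of the coefficients -/
structure Cf.Hol {E : Type*} [NormedAddCommGroup E] [NormedSpace ℂ E] (c : E → Cf A) (U : Set E) :
    Prop where
  c1 : DifferentiableOn ℂ (fun z => (c z).c1) U
  z0 : DifferentiableOn ℂ (fun z => (c z).z0) U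
  c2 : DifferentiableOn ℂ (fun z => (c z).c2) U
  c3 : DifferentiableOn ℂ (fun z => (c z).c3) U
  v0 : DifferentiableOn ℂ (fun z => (c z).v0) U
  c4 : DifferentiableOn ℂ (fun z => (c z).c4) U
  c5 : DifferentiableOn ℂ (fun z => (c z).c5) U
  n : DifferentiableOn ℂ (fun z => (c z).n) U
  l1 : DifferentiableOn ℂ (fun z => (c z).l1) U
  l2 : DifferentiableOn ℂ (fun z => (c z).l2) U
  l3 : DifferentiableOn ℂ (fun z => (c z).l3) U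

variable {ω : WiW A}

variable (ω) in
/-- the space of the normalised unknowns -/
abbrev Xi : Type _ := A × (Fin 6 → Wi ω)

/-- `w/η₀` -/
def xy (κ : A) (ξ : Xi ω) : Wi ω := cst ω (κ * ξ.1) + osc (ξ.2 0)

/-- the unnormalised source of the linear equation at the base point -/
def src (c : Cf A) (y T TT P S Q : Wi ω) : Wi ω :=
  G (cst ω c.c1 * y) (cst ω c.c1 * T) (cst ω c.c1 * TT) (cst ω c.z0 + cst ω c.c2 * P)
    (cst ω c.c3 * S) (cst ω c.v0 + cst ω c.c4 * Q + cst ω c.c5 * P) (cst ω c.n) +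
  cst ω c.l1 * Q + cst ω c.l2 * P + cst ω c.l3 * TT

/-- the normalised source -/
def NN (k κ : A) (c : Cf A) (ξ : Xi ω) : Wi ω :=
  cst ω k * src c (xy κ ξ) (osc (ξ.2 1)) (osc (ξ.2 2)) (ξ.2 3) (osc (ξ.2 4)) (ξ.2 5)

lemma xi_1 (ξ : Xi ω) : ‖ξ.1‖ ≤ ‖ξ‖ := norm_fst_le ξ
lemma xi_2 (ξ : Xi ω) (i : Fin 6) : ‖ξ.2 i‖ ≤ ‖ξ‖ := (norm_le_pi_norm _ i).trans (norm_snd_le ξ)
lemma xi_o (ξ : Xi ω) (i : Fin 6) : ‖osc (ξ.2 i)‖ ≤ ‖ξ‖ := (norm_osc_le _).trans (xi_2 ξ i)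

lemma co_xy (κ : A) (ξ : Xi ω) : co (xy κ ξ) 0 = κ * ξ.1 := by simp [xy, co_cst]

lemma xy_le {κ : A} (hκ : ‖κ‖ ≤ 1) (ξ : Xi ω) : ‖xy κ ξ‖ ≤ 2 * ‖ξ‖ :=
  (add_le ((norm_cst _).le.trans (mul_le hκ (xi_1 ξ))) (xi_o ξ 0)).trans (by linarith)

variable {k κ : A} {c : Cf A} {ν ε : ℝ}

lemma Cf.Bd.sm (h : c.Bd k ν) {y T TT P Q : Wi ω} (hε : ε ≤ 1 / 16) (hy : ‖y‖ ≤ 2 * ε)
    (hT : ‖T‖ ≤ ε) (hTT : ‖TT‖ ≤ ε) (hP : ‖P‖ ≤ ε) (hQ : ‖Q‖ ≤ ε) :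
    Sm (cst ω c.c1 * y) (cst ω c.c1 * T) (cst ω c.c1 * TT) (cst ω c.z0 + cst ω c.c2 * P)
      (cst ω c.v0 + cst ω c.c4 * Q + cst ω c.c5 * P) (cst ω c.n) where
  y := (cst_mul_le h.c1 hy).trans (by linarith)
  T := (cst_mul_le h.c1 hT).trans (by linarith)
  TT := (cst_mul_le h.c1 hTT).trans (by linarith)
  Z := (add_le ((norm_cst _).le.trans h.z0) (cst_mul_le h.c2 hP)).trans (by linarith)
  V := (add_le (add_le ((norm_cst _).le.trans h.v0) (cst_mul_le h.c4 hQ))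
    (cst_mul_le h.c5 hP)).trans (by linarith)
  n := (norm_cst _).le.trans h.n

lemma Cf.Bd.sm' (h : c.Bd k ν) (hκ : ‖κ‖ ≤ 1) (hε : ε ≤ 1 / 16) {ξ : Xi ω} (hξ : ‖ξ‖ ≤ ε) :
    Sm (cst ω c.c1 * xy κ ξ) (cst ω c.c1 * osc (ξ.2 1)) (cst ω c.c1 * osc (ξ.2 2))
      (cst ω c.z0 + cst ω c.c2 * ξ.2 3) (cst ω c.v0 + cst ω c.c4 * ξ.2 5 + cst ω c.c5 * ξ.2 3)
      (cst ω c.n) :=
  h.sm hε ((xy_le hκ ξ).trans (by linarith)) ((xi_o ξ 1).trans hξ) ((xi_o ξ 2).trans hξ)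
    ((xi_2 ξ 3).trans hξ) ((xi_2 ξ 5).trans hξ)

/-- **bound of the normalised source** -/
theorem NN_le (h : c.Bd k ν) (hk : Gain ω k 1) (hκ : ‖κ‖ ≤ 1) (hkκ : k * κ = 1)
    (hε : ε ≤ 1 / 16) {ξ : Xi ω} (hξ : ‖ξ‖ ≤ ε) :
    ‖NN k κ c ξ‖ ≤ 800 * ε ^ 2 + 201 * ν := by
  have h0 : 0 ≤ ε := (norm_nonneg _).trans hξ
  have hν : 0 ≤ ν := (norm_nonneg _).trans h.kn
  have hG := G_le_wi (S := cst ω c.c3 * osc (ξ.2 4)) (ε := 4 * ε) (ν := ν) (h.sm' hκ hε hξ) hk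
    ((cst_mul_le h.c1 (xy_le hκ ξ)).trans (by linarith))
    (by
      rw [co_cst_mul, co_xy, show k * (c.c1 * (κ * ξ.1)) = c.c1 * ξ.1 by
        linear_combination (c.c1 * ξ.1) * hkκ]
      exact (mul_le h.c1 ((xi_1 ξ).trans hξ)).trans (by linarith))
    ((cst_mul_le h.c1 ((xi_o ξ 1).trans hξ)).trans (by linarith))
    ((cst_mul_le h.c1 ((xi_o ξ 2).trans hξ)).trans (by linarith))
    (cst_mul_le h.c3 ((xi_o ξ 4).trans hξ)) (by simp) (by simp) (by simp)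
    (by rw [← map_mul, norm_cst]; exact h.kn)
  have e : NN k κ c ξ = cst ω k * G (cst ω c.c1 * xy κ ξ) (cst ω c.c1 * osc (ξ.2 1))
      (cst ω c.c1 * osc (ξ.2 2)) (cst ω c.z0 + cst ω c.c2 * ξ.2 3) (cst ω c.c3 * osc (ξ.2 4))
      (cst ω c.v0 + cst ω c.c4 * ξ.2 5 + cst ω c.c5 * ξ.2 3) (cst ω c.n) +
      cst ω (k * c.l1) * ξ.2 5 + cst ω (k * c.l2) * ξ.2 3 + cst ω (k * c.l3) * osc (ξ.2 2) := by
    simp only [NN, src, map_mul]; ring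
  rw [e]
  refine (add_le (add_le (add_le hG (cst_mul_le h.l1 ((xi_2 ξ 5).trans hξ)))
    (cst_mul_le h.l2 ((xi_2 ξ 3).trans hξ))) (cst_mul_le h.l3 ((xi_o ξ 2).trans hξ))).trans ?_
  nlinarith

section hol
variable {E : Type*} [NormedAddCommGroup E] [NormedSpace ℂ E]

lemma Cf.Hol.comp {c : E → Cf A} {U : Set E} (h : Cf.Hol c U) {F : Type*} [NormedAddCommGroup F]
    [NormedSpace ℂ F] {f : F → E} {V : Set F} (hf : DifferentiableOn ℂ f V) (m : MapsTo f V U) :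
    Cf.Hol (fun z => c (f z)) V :=
  ⟨h.c1.comp hf m, h.z0.comp hf m, h.c2.comp hf m, h.c3.comp hf m, h.v0.comp hf m, h.c4.comp hf m,
    h.c5.comp hf m, h.n.comp hf m, h.l1.comp hf m, h.l2.comp hf m, h.l3.comp hf m⟩

theorem diff_NN {c : E → Cf A} {U : Set E} (hc : Cf.Hol c U) (h : ∀ z ∈ U, (c z).Bd k ν)
    (hκ : ‖κ‖ ≤ 1) {ξ : E → Xi ω} (hξ : DifferentiableOn ℂ ξ U) (hb : ∀ z ∈ U, ‖ξ z‖ ≤ 1 / 16) :
    DifferentiableOn ℂ (fun z => NN k κ (c z) (ξ z)) U := by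
  have h2 : ∀ i, DifferentiableOn ℂ (fun z => (ξ z).2 i) U := fun i =>
    differentiableOn_pi.1 hξ.snd i
  have ho : ∀ i, DifferentiableOn ℂ (fun z => osc ((ξ z).2 i)) U := fun i => diff_osc (h2 i)
  have hy : DifferentiableOn ℂ (fun z => xy κ (ξ z)) U :=
    (diff_cst (hξ.fst.const_mul κ)).add (ho 0)
  have hG := diff_G ((diff_cst hc.c1).mul hy) ((diff_cst hc.c1).mul (ho 1))
    ((diff_cst hc.c1).mul (ho 2)) ((diff_cst hc.z0).add ((diff_cst hc.c2).mul (h2 3)))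
    ((diff_cst hc.c3).mul (ho 4))
    (((diff_cst hc.v0).add ((diff_cst hc.c4).mul (h2 5))).add ((diff_cst hc.c5).mul (h2 3)))
    (diff_cst hc.n) fun z hz => (h z hz).sm' hκ le_rfl (hb z hz)
  exact (((hG.add ((diff_cst hc.l1).mul (h2 5))).add ((diff_cst hc.l2).mul (h2 3))).add
    ((diff_cst hc.l3).mul (ho 2))).const_mul _

/-- the source at the origin -/
theorem NN_zero (h : c.Bd k ν) : ‖NN k κ c (0 : Xi ω)‖ ≤ 2 * ‖k * c.n * c.z0 ^ 2‖ := by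
  have hs := h.sm (ω := ω) (ε := 0) (y := 0) (T := 0) (TT := 0) (P := 0) (Q := 0) (by norm_num)
    (by simp) (by simp) (by simp) (by simp) (by simp)
  have o0 : osc (0 : Wi ω) = 0 := osc_of (by simp)
  have e : NN k κ c (0 : Xi ω) =
      jj (cst ω c.c1 * 0) (cst ω c.c1 * 0) (cst ω c.z0 + cst ω c.c2 * 0) (cst ω c.n) *
        (hf _ * cst ω (1 + c.v0) * cst ω (k * c.n * c.z0 ^ 2)) := by
    simp only [NN, src, xy, G, Gp, Prod.fst_zero, Prod.snd_zero, Pi.zero_apply, o0, map_mul,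
      map_add, map_pow, map_one, map_zero, mul_zero]
    ring_nf
  rw [e]
  refine (mul_le hs.jj_le (mul_le (mul_le hf_le ((norm_cst _).le.trans
    (add_le norm_one.le h.v0))) (norm_cst _).le)).trans ?_
  nlinarith [norm_nonneg (k * c.n * c.z0 ^ 2)]

/-- Lipschitz bound at the origin -/
theorem NN_lip (h : c.Bd k ν) (hk : Gain ω k 1) (hκ : ‖κ‖ ≤ 1) (hkκ : k * κ = 1)
    (hε : ε ≤ 1 / 16) (hs : 800 * ε ^ 2 + 201 * ν ≤ ε / 2) {ξ : Xi ω} (hξ : ‖ξ‖ < ε) :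
    ‖NN k κ c ξ‖ ≤ 2 * ‖k * c.n * c.z0 ^ 2‖ + ‖ξ‖ := by
  have h0 : 0 < ε := (norm_nonneg _).trans_lt hξ
  have hc : Cf.Hol (fun _ : Xi ω => c) (ball 0 ε) := by constructor <;> fun_prop
  have h1 := H.lip_le (f := fun ξ : Xi ω => NN k κ c ξ) (c := 0) (z := ξ) (r := ε) (M := ε / 2)
    (diff_NN (ν := ν) hc (fun _ _ => h) hκ differentiableOn_id
      fun z hz => (mem_ball_zero_iff.1 hz).le.trans hε)
    (fun z hz => (NN_le h hk hκ hkκ hε (mem_ball_zero_iff.1 hz).le).trans hs)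
    (mem_ball_zero_iff.2 hξ)
  have e : 2 * (ε / 2) / ε = 1 := by field_simp
  rw [e, one_mul, sub_zero] at h1
  linarith [norm_le_norm_add_norm_sub' (NN k κ c ξ) (NN k κ c (0 : Xi ω)), NN_zero (κ := κ) (ω := ω) h]

/-- **the fixed point**: `L` is the linear solver at the base point, `d` the boundary data,
`nd` their size -/
theorem core {D : Type*} [NormedAddCommGroup D] [NormedSpace ℂ D] {c : E → Cf A} {U : Set E}
    (hU : IsOpen U) (hc : Cf.Hol c U) (h : ∀ z ∈ U, (c z).Bd k ν) (hk : Gain ω k 1)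
    (hκ : ‖κ‖ ≤ 1) (hkκ : k * κ = 1) (L : Wi ω × D →L[ℂ] Xi ω) {C δ : ℝ} {nd : D → ℝ}
    (hL : ∀ g d, ‖L (g, d)‖ ≤ C * (‖g‖ + nd d)) (hC : 0 ≤ C) {d : E → D}
    (hd : DifferentiableOn ℂ d U) (hδ : ∀ z ∈ U, nd (d z) ≤ δ) (h0 : 0 < ε) (hε : ε ≤ 1 / 16)
    (hs : C * (800 * ε ^ 2 + 201 * ν + δ) ≤ ε / 8) :
    ∃ ξ : E → Xi ω, DifferentiableOn ℂ ξ U ∧ ∀ z ∈ U, ‖ξ z‖ ≤ ε / 8 ∧
      L (NN k κ (c z) (ξ z), d z) = ξ z ∧
      ∀ ξ', ‖ξ'‖ ≤ ε / 2 → ‖ξ z - ξ'‖ ≤ 2 * ‖L (NN k κ (c z) ξ', d z) - ξ'‖ := by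
  have m : MapsTo (Prod.fst : E × Xi ω → E) (U ×ˢ ball 0 ε) U := fun _ hp => hp.1
  refine exists_sol (N := fun p : E × Xi ω => L (NN k κ (c p.1) p.2, d p.1)) hU h0 ?_ ?_
  · refine L.differentiable.comp_differentiableOn (DifferentiableOn.prodMk ?_ ?_)
    · exact diff_NN (ν := ν) (hc.comp differentiableOn_fst m) (fun p hp => h _ hp.1) hκ
        differentiableOn_snd fun p hp => (mem_ball_zero_iff.1 hp.2).le.trans hε
    · exact hd.comp differentiableOn_fst m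
  · intro z hz g hg
    refine (hL _ _).trans (le_trans ?_ hs)
    gcongr
    · exact NN_le (h z hz) hk hκ hkκ hε (mem_ball_zero_iff.1 hg).le
    · exact hδ z hz

end hol

end Crest.Agent.N250.Nl

end
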