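import Crest.Agent.N250.B1.Gam

/-!
# Row 250, block B1 (helper53): restriction of an end from the cut `X'` to a smaller cut `X`
-/

set_option autoImplicit false
open Set Complex Filter Topology

noncomputable section

namespace Crest.Agent.N250.B1

/-- two real cuts -/
structure Cut2 (R X X' : ℝ) : Prop where
  lo : R + 2 ≤ X
  le : X ≤ X'

variable {ℓ : Ell} {R X X' : ℝ}

theorem Res.eW_apply (t : ℝ) (s : II) : eW t s = ((Real.exp (sig (2 * s) * t) : ℝ) : ℂ) := rfl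

theorem Res.om_w (ℓ : Ell) (m : ℤ) : (om ℓ).w m = eW (ℓ.l m) := rfl

theorem Res.hasSum_val (u : Wi (om ℓ)) (s : II) (θ : ℝ) :
    HasSum (fun m => Wi.ex m θ * Wi.co u m s) (val u s θ) :=
  (ContinuousMap.evalCLM ℂ s).hasSum (Wi.hasSum_syn u θ)

namespace Cut2

theorem lo' (h : Cut2 R X X') : R + 2 ≤ X' := h.lo.trans h.le

theorem mem (h : Cut2 R X X') (s : II) : xr R X s ∈ Icc R X' :=
  ⟨(xr_mem' h.lo s).1, (xr_mem' h.lo s).2.trans h.le⟩

/-- the change of parameter -/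
def phi (h : Cut2 R X X') : C(II, II) :=
  ⟨fun s => ⟨sx R X' (xr R X s), sx_mem h.lo' (h.mem s)⟩,
    ((continuous_sx h.lo').comp ((continuous_xr R X).comp continuous_subtype_val)).subtype_mk _⟩

theorem xr_phi (h : Cut2 R X X') (s : II) : xr R X' (h.phi s) = xr R X s := xr_sx h.lo' _

theorem gam_phi (h : Cut2 R X X') (s : II) : gam R X' (h.phi s) = gam R X s := by
  rw [gam_real, gam_real, h.xr_phi]

theorem sig_phi (h : Cut2 R X X') (s : II) : sig (2 * (h.phi s : ℝ)) = sig (2 * s) := by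
  rw [← sig_xr h.lo', h.xr_phi, sig_xr h.lo]

theorem phi_strip (h : Cut2 R X X') {s : II} (hs : (s : ℝ) ≤ 1 / 2) : h.phi s = s :=
  Subtype.ext ((strictMono_xr h.lo').injective (by
    rw [h.xr_phi, xr_strip R X hs, xr_strip R X' hs]))

theorem phi_i0 (h : Cut2 R X X') : h.phi i0 = i0 := h.phi_strip (by simp [i0])

theorem xr_phi_i1 (h : Cut2 R X X') : xr R X' (h.phi i1) = X := by rw [h.xr_phi, xr_i1]

theorem comp_apply (h : Cut2 R X X') (y : CI) (s : II) :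
    y (h.phi s) = fx R X' y (xr R X s) := by
  rw [← h.xr_phi, fx_xr h.lo']

theorem fx_comp (h : Cut2 R X X') (y : CI) {x : ℝ} (hx : x ∈ Icc R X) :
    fx R X (y.comp h.phi) x = fx R X' y x := by
  obtain ⟨s, rfl⟩ := exists_xr h.lo hx
  rw [fx_xr h.lo, ContinuousMap.comp_apply, h.comp_apply]

theorem der (h : Cut2 R X X') {y y1 : CI} (hy : Der y (dgam R X' * y1)) :
    Der (y.comp h.phi) (dgam R X * y1.comp h.phi) :=
  der_of_dv h.lo ((hy.dv h.lo').mono le_rfl h.le) (h.comp_apply y) (h.comp_apply y1)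

theorem norm_comp_le (h : Cut2 R X X') (y : CI) : ‖y.comp h.phi‖ ≤ ‖y‖ :=
  (ContinuousMap.norm_le _ (norm_nonneg y)).2 fun _ => y.norm_coe_le_norm _

theorem w_comp (h : Cut2 R X X') (m : ℤ) (y : CI) :
    (om ℓ).w m * y.comp h.phi = ((om ℓ).w m * y).comp h.phi := by
  ext s
  simp only [Res.om_w, ContinuousMap.mul_apply, ContinuousMap.comp_apply, Res.eW_apply, h.sig_phi]

/-- restriction of a function on the strip -/
def resW (h : Cut2 R X X') (u : Wi (om ℓ)) : Wi (om ℓ) :=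
  Wi.mk _ (fun m => (Wi.co u m).comp h.phi)
    ((Wi.summable_w u).of_nonneg_of_le (fun _ => norm_nonneg _) fun m => by
      rw [h.w_comp]; exact h.norm_comp_le _)

theorem co_resW (h : Cut2 R X X') (u : Wi (om ℓ)) (m : ℤ) :
    Wi.co (h.resW u) m = (Wi.co u m).comp h.phi := Wi.co_mk _ _ _

theorem co_resW_apply (h : Cut2 R X X') (u : Wi (om ℓ)) (m : ℤ) (s : II) :
    Wi.co (h.resW u) m s = Wi.co u m (h.phi s) := by rw [h.co_resW]; rfl

theorem norm_resW (h : Cut2 R X X') (u : Wi (om ℓ)) : ‖h.resW u‖ ≤ ‖u‖ :=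
  Wi.norm_le_of (Wi.hasSum_norm u) fun m => by
    rw [h.co_resW, h.w_comp]; exact h.norm_comp_le _

theorem val_resW (h : Cut2 R X X') (u : Wi (om ℓ)) (s : II) (θ : ℝ) :
    val (h.resW u) s θ = val u (h.phi s) θ :=
  (Res.hasSum_val _ s θ).unique (by simpa only [h.co_resW_apply] using Res.hasSum_val u (h.phi s) θ)

theorem resW_add (h : Cut2 R X X') (u v : Wi (om ℓ)) : h.resW (u + v) = h.resW u + h.resW v :=
  Wi.ext fun m => by simp only [h.co_resW, Wi.co_add]; rfl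

theorem resW_smul (h : Cut2 R X X') (c : ℂ) (u : Wi (om ℓ)) : h.resW (c • u) = c • h.resW u :=
  Wi.ext fun m => by simp only [h.co_resW, Wi.co_smul]; rfl

/-- the restriction as an operator -/
def resL (h : Cut2 R X X') (ℓ : Ell) : Wi (om ℓ) →L[ℂ] Wi (om ℓ) :=
  LinearMap.mkContinuous ⟨⟨h.resW, h.resW_add⟩, h.resW_smul⟩ 1 fun u => by
    simpa using h.norm_resW u

theorem resL_apply (h : Cut2 R X X') (u : Wi (om ℓ)) : h.resL ℓ u = h.resW u := rfl

theorem resW_sub (h : Cut2 R X X') (u v : Wi (om ℓ)) : h.resW (u - v) = h.resW u - h.resW v :=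
  map_sub (h.resL ℓ) u v

theorem wb (h : Cut2 R X X') {f0 f : ℝ → ℝ} {u : Wi (om ℓ)} {M : ℝ} (hu : WB R X' f0 f u M) :
    WB R X f0 f (h.resW u) M := by
  obtain ⟨β, h1, h2, h3, h4⟩ := hu
  refine ⟨β, h1, h2, fun s => ?_, fun m hm s => ?_⟩
  · rw [h.co_resW_apply, ← h.xr_phi]; exact h3 _
  · rw [h.co_resW_apply, ← h.xr_phi, ← h.sig_phi]; exact h4 m hm _

theorem isJet (h : Cut2 R X X') {J : Jt ℓ} (hJ : IsJet (dgam R X') J) :
    IsJet (dgam R X) fun i => h.resW (J i) where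
  d0 m := by rw [h.co_resW, h.co_resW]; exact h.der (hJ.d0 m)
  d1 m := by rw [h.co_resW, h.co_resW]; exact h.der (hJ.d1 m)
  t0 m := by rw [h.co_resW, h.co_resW, hJ.t0]; rfl
  t1 m := by rw [h.co_resW, h.co_resW, hJ.t1]; rfl
  t2 m := by rw [h.co_resW, h.co_resW, hJ.t2]; rfl

end Cut2

/-! ### the change of `a` -/

/-- `(x² - 2) / 2` -/
def quad (R : ℝ) (X : ℂ) : CI := (1 / 2 : ℂ) • (gam R X * gam R X - cst 2)

theorem quad_apply (R : ℝ) (X : ℂ) (s : II) : quad R X s = (gam R X s ^ 2 - 2) / 2 := by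
  simp only [quad, ContinuousMap.smul_apply, ContinuousMap.sub_apply, ContinuousMap.mul_apply,
    cst_apply, smul_eq_mul]
  ring

theorem der_quad (R : ℝ) (X : ℂ) : Der (quad R X) (dgam R X * gam R X) :=
  ((((der_gam R X).mul (der_gam R X)).sub (der_cst 2)).smul _).congr (by
    ext s
    simp only [ContinuousMap.smul_apply, ContinuousMap.sub_apply, ContinuousMap.mul_apply,
      ContinuousMap.add_apply, ContinuousMap.zero_apply, smul_eq_mul]
    ring)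

/-- the jet of `(x² - 2) / 2` -/
def qj (ℓ : Ell) (R : ℝ) (X : ℂ) : Jt ℓ :=
  ![Wi.single _ 0 (quad R X), Wi.single _ 0 (gam R X), Wi.single _ 0 1, 0, 0, 0]

theorem Res.der_zero : Der 0 0 := by simpa using der_cst 0

theorem Res.der_one : Der 1 0 := by
  have e : cst 1 = 1 := by ext s; simp
  exact e ▸ der_cst 1

theorem isJet_qj (ℓ : Ell) (R : ℝ) (X : ℂ) : IsJet (dgam R X) (qj ℓ R X) where
  d0 m := by
    change Der (Wi.co (Wi.single _ 0 _) m) (_ * Wi.co (Wi.single _ 0 _) m)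
    simp only [Wi.co_single]
    split_ifs
    · exact der_quad R X
    · exact Res.der_zero.congr (mul_zero _).symm
  d1 m := by
    change Der (Wi.co (Wi.single _ 0 _) m) (_ * Wi.co (Wi.single _ 0 _) m)
    simp only [Wi.co_single]
    split_ifs
    · exact (der_gam R X).congr (mul_one _).symm
    · exact Res.der_zero.congr (mul_zero _).symm
  t0 m := by
    change Wi.co 0 m = _ • Wi.co (Wi.single _ 0 _) m
    ext s
    by_cases hm : m = 0 <;> simp [Wi.co_single, hm]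
  t1 m := by
    change Wi.co 0 m = _ • Wi.co (Wi.single _ 0 _) m
    ext s
    by_cases hm : m = 0 <;> simp [Wi.co_single, hm]
  t2 m := by
    change Wi.co 0 m = _ • Wi.co (Wi.single _ 0 _) m
    ext s
    by_cases hm : m = 0 <;> simp [Wi.co_single, hm]

theorem Res.isJet_add_smul {c : CI} {J J' : Jt ℓ} (h : IsJet c J) (k : IsJet c J') (d : ℂ) :
    IsJet c (J + d • J') where
  d0 m := by
    simp only [Pi.add_apply, Pi.smul_apply, Wi.co_add, Wi.co_smul]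
    exact ((h.d0 m).add ((k.d0 m).smul d)).congr (by rw [mul_add, mul_smul_comm])
  d1 m := by
    simp only [Pi.add_apply, Pi.smul_apply, Wi.co_add, Wi.co_smul]
    exact ((h.d1 m).add ((k.d1 m).smul d)).congr (by rw [mul_add, mul_smul_comm])
  t0 m := by
    ext s
    simp only [Pi.add_apply, Pi.smul_apply, Wi.co_add, Wi.co_smul, h.t0, k.t0,
      ContinuousMap.add_apply, ContinuousMap.smul_apply, smul_eq_mul]
    ring
  t1 m := by
    ext s
    simp only [Pi.add_apply, Pi.smul_apply, Wi.co_add, Wi.co_smul, h.t1, k.t1,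
      ContinuousMap.add_apply, ContinuousMap.smul_apply, smul_eq_mul]
    ring
  t2 m := by
    ext s
    simp only [Pi.add_apply, Pi.smul_apply, Wi.co_add, Wi.co_smul, h.t2, k.t2,
      ContinuousMap.add_apply, ContinuousMap.smul_apply, smul_eq_mul]
    ring

theorem Res.val_add_single (u : Wi (om ℓ)) (d : ℂ) (y : CI) (s : II) (θ : ℝ) :
    val (u + d • Wi.single _ 0 y) s θ = val u s θ + d * y s := by
  simp [val, Wi.syn_add, Wi.syn_smul, Wi.syn_single]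

/-- moving `d (x² - 2) / 2` from `η` to `w` does not change `v` -/
theorem vj_shift (R : ℝ) (X a d : ℂ) (J : Jt ℓ) (s : II) (θ : ℝ) :
    vj R X (a - d) (J + d • qj ℓ R X) s θ = vj R X a J s θ := by
  have e0 : (J + d • qj ℓ R X) 0 = J 0 + d • Wi.single _ 0 (quad R X) := rfl
  have e1 : (J + d • qj ℓ R X) 1 = J 1 + d • Wi.single _ 0 (gam R X) := rfl
  have e2 : (J + d • qj ℓ R X) 2 = J 2 + d • Wi.single _ 0 1 := rfl
  have e3 : (J + d • qj ℓ R X) 3 = J 3 := by change J 3 + d • 0 = _; simp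
  have e4 : (J + d • qj ℓ R X) 4 = J 4 := by change J 4 + d • 0 = _; simp
  have e5 : (J + d • qj ℓ R X) 5 = J 5 := by change J 5 + d • 0 = _; simp
  simp only [vj, e0, e1, e2, e3, e4, e5, Res.val_add_single, quad_apply, et, ContinuousMap.one_apply]
  congr 1
  · ring
  congr 1
  · ring
  congr 1
  ring

theorem Res.co_shift_ne (J : Jt ℓ) (R : ℝ) (X d : ℂ) (i : Fin 6) {m : ℤ} (hm : m ≠ 0) :
    Wi.co ((J + d • qj ℓ R X) i) m = Wi.co (J i) m := by
  have : Wi.co (qj ℓ R X i) m = 0 := by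
    fin_cases i <;> simp [qj, Wi.co_single_ne hm]
  simp [this]

theorem Res.co_shift_0 (J : Jt ℓ) (R : ℝ) (X d : ℂ) (s : II) :
    Wi.co ((J + d • qj ℓ R X) 0) 0 s = Wi.co (J 0) 0 s + d * ((gam R X s ^ 2 - 2) / 2) := by
  simp [qj, quad_apply]

theorem Res.co_shift_1 (J : Jt ℓ) (R : ℝ) (X d : ℂ) (s : II) :
    Wi.co ((J + d • qj ℓ R X) 1) 0 s = Wi.co (J 1) 0 s + d * gam R X s := by
  simp [qj]

theorem Res.co_shift_2 (J : Jt ℓ) (R : ℝ) (X d : ℂ) (s : II) :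
    Wi.co ((J + d • qj ℓ R X) 2) 0 s = Wi.co (J 2) 0 s + d := by
  simp [qj]

theorem Res.shift_3 (J : Jt ℓ) (R : ℝ) (X d : ℂ) : (J + d • qj ℓ R X) 3 = J 3 := by
  change J 3 + d • 0 = _; simp

theorem Res.shift_4 (J : Jt ℓ) (R : ℝ) (X d : ℂ) : (J + d • qj ℓ R X) 4 = J 4 := by
  change J 4 + d • 0 = _; simp

theorem Res.shift_5 (J : Jt ℓ) (R : ℝ) (X d : ℂ) : (J + d • qj ℓ R X) 5 = J 5 := by
  change J 5 + d • 0 = _; simp

/-! ### far slopes -/

theorem Res.sig_two : sig (2 * (i1 : II)) = 1 := by norm_num [sig, i1]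

theorem Res.exp_mul_co_i1 (u : Wi (om ℓ)) (m : ℤ) :
    Real.exp (ℓ.l m) * ‖Wi.co u m i1‖ ≤ ‖(om ℓ).w m * Wi.co u m‖ := by
  refine le_of_eq_of_le ?_ (ContinuousMap.norm_coe_le_norm _ i1)
  rw [ContinuousMap.mul_apply, Res.om_w, Res.eW_apply, Res.sig_two, one_mul, norm_mul, norm_real,
    Real.norm_of_nonneg (Real.exp_pos _).le]

theorem Res.omF_w (ℓ : Ell) (m : ℤ) :
    (omF ℓ).w m = (((1 + |(m : ℝ)|) * Real.exp (ℓ.l m) : ℝ) : ℂ) := rfl

theorem Res.norm_farc (u v : Wi (om ℓ)) (m : ℤ) :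
    ‖(omF ℓ).w m * ((Wi.co u m i1 - I * m.sign * Wi.co v m i1) / ((1 + |(m : ℝ)| : ℝ) : ℂ))‖ ≤
      ‖(om ℓ).w m * Wi.co u m‖ + ‖(om ℓ).w m * Wi.co v m‖ := by
  have hp : (0 : ℝ) < 1 + |(m : ℝ)| := by positivity
  have hs : ‖(m.sign : ℂ)‖ ≤ 1 := by
    rcases lt_trichotomy m 0 with h | h | h
    · simp [Int.sign_eq_neg_one_of_neg h]
    · simp [h]
    · simp [Int.sign_eq_one_of_pos h]
  have h1 : ‖Wi.co u m i1 - I * m.sign * Wi.co v m i1‖ ≤ ‖Wi.co u m i1‖ + ‖Wi.co v m i1‖ := by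
    refine (norm_sub_le _ _).trans (add_le_add le_rfl ?_)
    rw [norm_mul, norm_mul, norm_I, one_mul]
    exact mul_le_of_le_one_left (norm_nonneg _) hs
  rw [Res.omF_w, norm_mul, norm_div, norm_real, norm_real, Real.norm_of_nonneg hp.le,
    Real.norm_of_nonneg (by positivity)]
  calc _ = Real.exp (ℓ.l m) * ‖Wi.co u m i1 - I * m.sign * Wi.co v m i1‖ := by field_simp
    _ ≤ Real.exp (ℓ.l m) * (‖Wi.co u m i1‖ + ‖Wi.co v m i1‖) := by gcongr
    _ ≤ _ := by rw [mul_add]; exact add_le_add (Res.exp_mul_co_i1 u m) (Res.exp_mul_co_i1 v m)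

/-- the far slopes of a jet -/
def farH (J : Jt ℓ) : Wi (omF ℓ) :=
  Wi.mk _ (fun m => (Wi.co (J 1) m i1 - I * m.sign * Wi.co (J 4) m i1) / ((1 + |(m : ℝ)| : ℝ) : ℂ))
    (((Wi.summable_w (J 1)).add (Wi.summable_w (J 4))).of_nonneg_of_le (fun _ => norm_nonneg _)
      (Res.norm_farc (J 1) (J 4)))

theorem norm_farH (J : Jt ℓ) : ‖farH J‖ ≤ ‖J 1‖ + ‖J 4‖ :=
  Wi.norm_le_of ((Wi.hasSum_norm (J 1)).add (Wi.hasSum_norm (J 4))) fun m => by
    rw [farH, Wi.co_mk]; exact Res.norm_farc (J 1) (J 4) m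

theorem co_farH {c : CI} {J : Jt ℓ} (h : IsJet c J) (m : ℤ) :
    Wi.co (farH J) m = Wi.co (J 1) m i1 := by
  have hp : (((1 + |(m : ℝ)| : ℝ)) : ℂ) ≠ 0 := ofReal_ne_zero.2 (by positivity)
  have e : ((|(m : ℝ)| : ℝ) : ℂ) = m.sign * m := by
    rw [← Int.cast_abs, ofReal_intCast, ← Int.sign_mul_self_eq_abs, Int.cast_mul]
  rw [farH, Wi.co_mk, h.t1, div_eq_iff hp, ofReal_add, e, ContinuousMap.smul_apply, smul_eq_mul]
  push_cast
  linear_combination (-(m.sign : ℂ) * m * Wi.co (J 1) m i1) * I_mul_I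

/-- the data read off from a jet -/
def datOf (b : Wi (omP 2)) (J : Jt ℓ) : Dat ℓ :=
  (b, farH J, Wi.co (J 0) 1 i1, Wi.co (J 0) (-1) i1)

theorem bc_datOf {c : CI} {J : Jt ℓ} (h : IsJet c J) {b : Wi (omP 2)}
    (hb : ∀ m : ℤ, 2 ≤ |m| → Wi.co (J 0) m i0 = Wi.co b m) (h0 : Wi.co (J 0) 0 i1 = 0) :
    BC (datOf b J) J :=
  ⟨hb, fun m => (co_farH h m).symm, h0, rfl, rfl⟩

namespace Cut2

/-- `a - τ` -/
def dt (h : Cut2 R X X') (J : Jt ℓ) : ℂ := -2 * Wi.co (J 0) 0 (h.phi i1) / ((X : ℂ) ^ 2 - 2)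

/-- the parameter at the cut `X` -/
def tau (h : Cut2 R X X') (a : ℂ) (J : Jt ℓ) : ℂ := a - h.dt J

/-- the restricted jet -/
def resJ (h : Cut2 R X X') (J : Jt ℓ) : Jt ℓ := (fun i => h.resW (J i)) + h.dt J • qj ℓ R X

theorem vj_resW (h : Cut2 R X X') (a : ℂ) (J : Jt ℓ) (s : II) (θ : ℝ) :
    vj R X a (fun i => h.resW (J i)) s θ = vj R X' a J (h.phi s) θ := by
  simp only [vj, h.val_resW, h.gam_phi]

theorem vj_resJ (h : Cut2 R X X') (a : ℂ) (J : Jt ℓ) (s : II) (θ : ℝ) :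
    vj R X (h.tau a J) (h.resJ J) s θ = vj R X' a J (h.phi s) θ :=
  (vj_shift R X a _ _ s θ).trans (h.vj_resW a J s θ)

theorem vj_resJ_strip (h : Cut2 R X X') (a : ℂ) (J : Jt ℓ) {s : II} (hs : (s : ℝ) ≤ 1 / 2) (θ : ℝ) :
    vj R X (h.tau a J) (h.resJ J) s θ = vj R X' a J s θ := by
  rw [h.vj_resJ, h.phi_strip hs]

theorem isJet_resJ (h : Cut2 R X X') {J : Jt ℓ} (hJ : IsJet (dgam R X') J) :
    IsJet (dgam R X) (h.resJ J) :=
  Res.isJet_add_smul (h.isJet hJ) (isJet_qj ℓ R X) _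

theorem co_resJ_ne (h : Cut2 R X X') (J : Jt ℓ) (i : Fin 6) {m : ℤ} (hm : m ≠ 0) (s : II) :
    Wi.co (h.resJ J i) m s = Wi.co (J i) m (h.phi s) := by
  rw [resJ, Res.co_shift_ne _ _ _ _ _ hm, h.co_resW_apply]

theorem co_resJ_0 (h : Cut2 R X X') (J : Jt ℓ) (s : II) :
    Wi.co (h.resJ J 0) 0 s =
      Wi.co (J 0) 0 (h.phi s) + h.dt J * ((((xr R X s : ℝ) : ℂ) ^ 2 - 2) / 2) := by
  rw [resJ, Res.co_shift_0, h.co_resW_apply, gam_real]

theorem co_resJ_1 (h : Cut2 R X X') (J : Jt ℓ) (s : II) :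
    Wi.co (h.resJ J 1) 0 s = Wi.co (J 1) 0 (h.phi s) + h.dt J * (xr R X s : ℝ) := by
  rw [resJ, Res.co_shift_1, h.co_resW_apply, gam_real]

theorem co_resJ_2 (h : Cut2 R X X') (J : Jt ℓ) (s : II) :
    Wi.co (h.resJ J 2) 0 s = Wi.co (J 2) 0 (h.phi s) + h.dt J := by
  rw [resJ, Res.co_shift_2, h.co_resW_apply]

theorem resJ_3 (h : Cut2 R X X') (J : Jt ℓ) : h.resJ J 3 = h.resW (J 3) := Res.shift_3 _ _ _ _

theorem resJ_4 (h : Cut2 R X X') (J : Jt ℓ) : h.resJ J 4 = h.resW (J 4) := Res.shift_4 _ _ _ _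

theorem resJ_5 (h : Cut2 R X X') (J : Jt ℓ) : h.resJ J 5 = h.resW (J 5) := Res.shift_5 _ _ _ _

theorem sq_sub_two_pos (h : Cut2 R X X') (hR : 0 ≤ R) : 0 < X ^ 2 - 2 := by
  have := h.lo; nlinarith

theorem resJ_far0 (h : Cut2 R X X') (hR : 0 ≤ R) (J : Jt ℓ) : Wi.co (h.resJ J 0) 0 i1 = 0 := by
  have hp : (X : ℂ) ^ 2 - 2 ≠ 0 := by exact_mod_cast (h.sq_sub_two_pos hR).ne'
  rw [h.co_resJ_0, xr_i1, dt]
  field_simp
  ring

/-- the restriction of a solution is a solution -/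
theorem sol (h : Cut2 R X X') (hR : 0 ≤ R) {a : ℂ} {D : Dat ℓ} {J : Jt ℓ}
    (hJ : Sol R ((X' : ℂ), a, D) J) :
    Sol R ((X : ℂ), h.tau a J, datOf D.1 (h.resJ J)) (h.resJ J) where
  jet := h.isJet_resJ hJ.jet
  bc := bc_datOf (h.isJet_resJ hJ.jet) (fun m hm => by
    rw [h.co_resJ_ne J 0 (by rintro rfl; simp at hm), h.phi_i0]; exact hJ.bc.inner m hm)
    (h.resJ_far0 hR J)
  eq s θ := by
    have := hJ.eq (h.phi s) θ
    simp only [h.gam_phi] at this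
    simpa only [h.vj_resJ] using this

theorem far_slope_ne (h : Cut2 R X X') {J : Jt ℓ} (hJ : IsJet (dgam R X') J) {m : ℤ} (hm : m ≠ 0) :
    Wi.co (farH (h.resJ J)) m = Wi.co (J 1) m (h.phi i1) := by
  rw [co_farH (h.isJet_resJ hJ), h.co_resJ_ne J 1 hm]

theorem far_slope_0 (h : Cut2 R X X') {J : Jt ℓ} (hJ : IsJet (dgam R X') J) :
    Wi.co (farH (h.resJ J)) 0 = Wi.co (J 1) 0 (h.phi i1) + h.dt J * X := by
  rw [co_farH (h.isJet_resJ hJ), h.co_resJ_1, xr_i1]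

end Cut2

end Crest.Agent.N250.B1

end
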