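import Mathlib

/-!
# Row 250, B1 S6 (helper95): classes of parameter dependent functions and their jets

`Cl U Ω` is a ring of functions `P → ℝ × ℝ → ℂ` (parameter in `U`, point in `Ω`), `C.ex R` the
functions of `C` whose `R`-derivatives are in `C`; `C.up n` = all jets up to order `n` are in `C`.
-/

set_option autoImplicit false
open Set Filter Topology
open scoped ContDiff

noncomputable section

namespace Crest.Agent.N250.Sm

/-- the real linear map `(h, k) ↦ h a + k b` -/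
def D2 (a b : ℂ) : ℝ × ℝ →L[ℝ] ℂ :=
  (ContinuousLinearMap.fst ℝ ℝ ℝ).smulRight a + (ContinuousLinearMap.snd ℝ ℝ ℝ).smulRight b

@[simp] theorem D2_apply (a b : ℂ) (v : ℝ × ℝ) : D2 a b v = v.1 * a + v.2 * b := by
  simp [D2]

theorem norm_D2_le (a b : ℂ) : ‖D2 a b‖ ≤ ‖a‖ + ‖b‖ := by
  refine ContinuousLinearMap.opNorm_le_bound _ (by positivity) fun v => ?_
  rw [D2_apply]
  have h1 : ‖v.1‖ ≤ ‖v‖ := norm_fst_le v
  have h2 : ‖v.2‖ ≤ ‖v‖ := norm_snd_le v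
  calc ‖(v.1 : ℂ) * a + v.2 * b‖ ≤ ‖v.1‖ * ‖a‖ + ‖v.2‖ * ‖b‖ := by
        refine (norm_add_le _ _).trans (le_of_eq ?_)
        simp [norm_mul]
    _ ≤ ‖v‖ * ‖a‖ + ‖v‖ * ‖b‖ := by gcongr
    _ = (‖a‖ + ‖b‖) * ‖v‖ := by ring

/-- `a ↦ D2 a 0` -/
def L1 : ℂ →L[ℝ] (ℝ × ℝ →L[ℝ] ℂ) :=
  ContinuousLinearMap.smulRightL ℝ (ℝ × ℝ) ℂ (ContinuousLinearMap.fst ℝ ℝ ℝ)

/-- `b ↦ D2 0 b` -/
def L2 : ℂ →L[ℝ] (ℝ × ℝ →L[ℝ] ℂ) :=
  ContinuousLinearMap.smulRightL ℝ (ℝ × ℝ) ℂ (ContinuousLinearMap.snd ℝ ℝ ℝ)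

theorem D2_eq (a b : ℂ) : D2 a b = L1 a + L2 b := rfl

theorem norm_L1 : ‖L1‖ ≤ 1 := by
  refine ContinuousLinearMap.opNorm_le_bound _ zero_le_one fun a => ?_
  have : L1 a = D2 a 0 := by ext <;> simp [L1]
  simpa [this] using norm_D2_le a 0

theorem norm_L2 : ‖L2‖ ≤ 1 := by
  refine ContinuousLinearMap.opNorm_le_bound _ zero_le_one fun a => ?_
  have : L2 a = D2 0 a := by ext <;> simp [L2]
  simpa [this] using norm_D2_le 0 a

variable {P : Type*} {U : Set P} {Ω : Set (ℝ × ℝ)}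

/-- parameter dependent functions -/
abbrev Fn (P : Type*) := P → ℝ × ℝ → ℂ

/-- a ring of functions on `U × Ω`, continuous in the point -/
structure Cl (U : Set P) (Ω : Set (ℝ × ℝ)) where
  S : Fn P → Prop
  add : ∀ {f g}, S f → S g → S fun p y => f p y + g p y
  mul : ∀ {f g}, S f → S g → S fun p y => f p y * g p y
  const : ∀ c : ℂ, S fun _ _ => c
  congr : ∀ {f g}, S f → (∀ p ∈ U, ∀ y ∈ Ω, g p y = f p y) → S g
  cont : ∀ {f}, S f → ∀ p ∈ U, ContinuousOn (f p) Ω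

/-- a notion of derivative with two components -/
structure Der (U : Set P) (Ω : Set (ℝ × ℝ)) where
  R : Fn P → Fn P → Fn P → Prop
  add : ∀ {f a b g c d}, R f a b → R g c d →
    R (fun p y => f p y + g p y) (fun p y => a p y + c p y) fun p y => b p y + d p y
  mul : ∀ {f a b g c d}, R f a b → R g c d → R (fun p y => f p y * g p y)
    (fun p y => a p y * g p y + f p y * c p y) fun p y => b p y * g p y + f p y * d p y
  const : ∀ c : ℂ, R (fun _ _ => c) (fun _ _ => 0) fun _ _ => 0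
  congr : ∀ {f g a b}, R f a b → (∀ p ∈ U, ∀ y ∈ Ω, g p y = f p y) → R g a b
  inv : ∀ {f a b}, R f a b → (∀ p ∈ U, ∀ y ∈ Ω, f p y ≠ 0) → R (fun p y => (f p y)⁻¹)
    (fun p y => -1 * (a p y * ((f p y)⁻¹ * (f p y)⁻¹)))
    fun p y => -1 * (b p y * ((f p y)⁻¹ * (f p y)⁻¹))
  fst : R (fun _ y => (y.1 : ℂ)) (fun _ _ => 1) fun _ _ => 0
  par : ∀ c : P → ℂ, R (fun p _ => c p) (fun _ _ => 0) fun _ _ => 0

variable (U Ω) in
/-- the Fréchet derivative within `Ω` has components `a`, `b` -/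
def Dr (f a b : Fn P) : Prop :=
  ∀ p ∈ U, ∀ y ∈ Ω, HasFDerivWithinAt (f p) (D2 (a p y) (b p y)) Ω y

variable (U Ω) in
/-- the derivative in the second variable -/
def Dt (f b : Fn P) : Prop :=
  ∀ p ∈ U, ∀ y ∈ Ω, HasDerivAt (fun θ => f p (y.1, θ)) (b p y) y.2

variable (U Ω) in
/-- Fréchet derivative -/
def derF : Der U Ω where
  R := Dr U Ω
  add h k p hp y hy := ((h p hp y hy).add (k p hp y hy)).congr_fderiv
    (ContinuousLinearMap.ext fun v => by simp; ring)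
  mul h k p hp y hy := ((h p hp y hy).mul (k p hp y hy)).congr_fderiv
    (ContinuousLinearMap.ext fun v => by simp; ring)
  const c p _ y _ := (hasFDerivWithinAt_const c y Ω).congr_fderiv
    (ContinuousLinearMap.ext fun v => by simp)
  congr h e p hp y hy := (h p hp y hy).congr (fun z hz => e p hp z hz) (e p hp y hy)
  inv {f a b} h hne p hp y hy := by
    have h1 := ((hasDerivAt_inv (hne p hp y hy)).hasFDerivAt.restrictScalars ℝ).comp_hasFDerivWithinAt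
      y (h p hp y hy)
    refine h1.congr_fderiv (ContinuousLinearMap.ext fun v => ?_)
    have := hne p hp y hy
    simp; field_simp; ring
  fst p _ y _ := ((Complex.ofRealCLM.comp (ContinuousLinearMap.fst ℝ ℝ ℝ)).hasFDerivWithinAt
    (s := Ω) (x := y)).congr_fderiv (ContinuousLinearMap.ext fun v => by simp)
  par c p _ y _ := (hasFDerivWithinAt_const (c p) y Ω).congr_fderiv
    (ContinuousLinearMap.ext fun v => by simp)

variable (U) in
/-- derivative in the angle on `I × ℝ` -/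
def derT (I : Set ℝ) : Der U (I ×ˢ (univ : Set ℝ)) where
  R f _ b := Dt U (I ×ˢ univ) f b
  add h k p hp y hy := (h p hp y hy).add (k p hp y hy)
  mul h k p hp y hy := (h p hp y hy).mul (k p hp y hy)
  const c p _ y _ := hasDerivAt_const _ c
  congr h e p hp y hy := by
    have : (fun θ => _) = _ := funext fun θ => e p hp (y.1, θ) ⟨hy.1, trivial⟩
    rw [this]; exact h p hp y hy
  inv {f a b} h hne p hp y hy := by
    refine ((h p hp y hy).inv (hne p hp y hy)).congr_deriv ?_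
    have := hne p hp y hy
    simp only [Prod.mk.eta]; field_simp
  fst p _ y _ := hasDerivAt_const y.2 (y.1 : ℂ)
  par c p _ y _ := hasDerivAt_const y.2 (c p)

theorem Dr.dt {I : Set ℝ} {f a b : Fn P} (h : Dr U (I ×ˢ univ) f a b) :
    Dt U (I ×ˢ univ) f b := fun p hp y hy => by
  have h1 : HasDerivAt (fun θ : ℝ => (y.1, θ)) ((0 : ℝ), (1 : ℝ)) y.2 :=
    (hasDerivAt_const _ _).prodMk (hasDerivAt_id _)
  have h2 := (h p hp y hy).comp_hasDerivWithinAt (s := univ) y.2 h1.hasDerivWithinAt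
    (fun θ _ => (⟨hy.1, trivial⟩ : (y.1, θ) ∈ I ×ˢ (univ : Set ℝ)))
  simpa [hasDerivWithinAt_univ, Function.comp_def] using h2

theorem Dt.unique {f a b : Fn P} (h : Dt U Ω f a) (k : Dt U Ω f b) :
    ∀ p ∈ U, ∀ y ∈ Ω, a p y = b p y := fun p hp y hy => (h p hp y hy).unique (k p hp y hy)

namespace Cl

variable (C : Cl U Ω)

theorem cmul (c : ℂ) {f : Fn P} (h : C.S f) : C.S fun p y => c * f p y := C.mul (C.const c) h

theorem neg {f : Fn P} (h : C.S f) : C.S fun p y => -f p y :=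
  C.congr (C.cmul (-1) h) fun _ _ _ _ => by ring

theorem sub {f g : Fn P} (h : C.S f) (k : C.S g) : C.S fun p y => f p y - g p y :=
  C.congr (C.add h (C.neg k)) fun _ _ _ _ => by ring

theorem pow {f : Fn P} (h : C.S f) : ∀ n : ℕ, C.S fun p y => f p y ^ n
  | 0 => C.congr (C.const 1) fun _ _ _ _ => by simp
  | n + 1 => C.congr (C.mul (pow h n) h) fun _ _ _ _ => by ring

theorem div_const {f : Fn P} (h : C.S f) (c : ℂ) : C.S fun p y => f p y / c :=
  C.congr (C.cmul c⁻¹ h) fun _ _ _ _ => by ring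

/-- members whose derivatives are members -/
def ex (R : Der U Ω) : Cl U Ω where
  S f := C.S f ∧ ∃ a b, C.S a ∧ C.S b ∧ R.R f a b
  add := fun ⟨h, _, _, ha, hb, hR⟩ ⟨k, _, _, hc, hd, kR⟩ =>
    ⟨C.add h k, _, _, C.add ha hc, C.add hb hd, R.add hR kR⟩
  mul := fun ⟨h, _, _, ha, hb, hR⟩ ⟨k, _, _, hc, hd, kR⟩ =>
    ⟨C.mul h k, _, _, C.add (C.mul ha k) (C.mul h hc), C.add (C.mul hb k) (C.mul h hd), R.mul hR kR⟩
  const c := ⟨C.const c, _, _, C.const 0, C.const 0, R.const c⟩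
  congr := fun ⟨h, _, _, ha, hb, hR⟩ e => ⟨C.congr h e, _, _, ha, hb, R.congr hR e⟩
  cont h := C.cont h.1

/-- `n`-fold iteration of `ex` -/
def it (R : Der U Ω) : ℕ → Cl U Ω
  | 0 => C
  | n + 1 => (it R n).ex R

variable {C}

theorem ex_inv {R : Der U Ω} {f : Fn P} (h : (C.ex R).S f) (hne : ∀ p ∈ U, ∀ y ∈ Ω, f p y ≠ 0)
    (hi : C.S fun p y => (f p y)⁻¹) : (C.ex R).S fun p y => (f p y)⁻¹ := by
  obtain ⟨-, a, b, ha, hb, hR⟩ := h
  exact ⟨hi, _, _, C.cmul _ (C.mul ha (C.mul hi hi)), C.cmul _ (C.mul hb (C.mul hi hi)),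
    R.inv hR hne⟩

theorem it_inv {R : Der U Ω} {f : Fn P} (hne : ∀ p ∈ U, ∀ y ∈ Ω, f p y ≠ 0)
    (hi : C.S fun p y => (f p y)⁻¹) : ∀ {n : ℕ}, (C.it R n).S f → (C.it R n).S fun p y => (f p y)⁻¹
  | 0, _ => hi
  | _ + 1, h => ex_inv h hne (it_inv hne hi h.1)

theorem it_base {R : Der U Ω} {f : Fn P} : ∀ {n : ℕ}, (C.it R n).S f → C.S f
  | 0, h => h
  | _ + 1, h => it_base h.1

theorem it_mono {R : Der U Ω} {f : Fn P} {m n : ℕ} (hmn : m ≤ n) (h : (C.it R n).S f) :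
    (C.it R m).S f := by
  induction hmn with
  | refl => exact h
  | step _ ih => exact ih h.1

variable (C) in
/-- all jets up to order `n` are in `C` -/
abbrev up (n : ℕ) : Cl U Ω := C.it (derF U Ω) n

theorem up_succ {f a b : Fn P} {n : ℕ} (h : (C.up n).S f) (ha : (C.up n).S a) (hb : (C.up n).S b)
    (hR : Dr U Ω f a b) : (C.up (n + 1)).S f := ⟨h, a, b, ha, hb, hR⟩

theorem it_fst {R : Der U Ω} (h : C.S fun _ y => (y.1 : ℂ)) :
    ∀ n : ℕ, (C.it R n).S fun _ y => (y.1 : ℂ)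
  | 0 => h
  | n + 1 => ⟨it_fst h n, _, _, (C.it R n).const 1, (C.it R n).const 0, R.fst⟩

theorem it_par {R : Der U Ω} {c : P → ℂ} (h : C.S fun p _ => c p) :
    ∀ n : ℕ, (C.it R n).S fun p _ => c p
  | 0 => h
  | n + 1 => ⟨it_par h n, _, _, (C.it R n).const 0, (C.it R n).const 0, R.par c⟩

theorem up_contDiffOn (hΩ : UniqueDiffOn ℝ Ω) : ∀ {n : ℕ} {f : Fn P}, (C.up n).S f →
    ∀ p ∈ U, ContDiffOn ℝ n (f p) Ω
  | 0, _, h, p, hp => by simpa using C.cont h p hp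
  | n + 1, f, ⟨_, a, b, ha, hb, hR⟩, p, hp => by
    have h1 := up_contDiffOn hΩ ha p hp
    have h2 := up_contDiffOn hΩ hb p hp
    rw [Nat.cast_succ]
    refine contDiffOn_succ_of_fderivWithin (fun y hy => (hR p hp y hy).differentiableWithinAt)
      (by simp) ?_
    refine ((L1.contDiff.comp_contDiffOn h1).add (L2.contDiff.comp_contDiffOn h2)).congr
      fun y hy => ?_
    rw [(hR p hp y hy).fderivWithin (hΩ y hy), D2_eq]; rfl

/-- the jets, evaluated on fixed vectors, are members -/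
theorem up_jet (hΩ : UniqueDiffOn ℝ Ω) : ∀ {j n : ℕ} {f : Fn P}, (C.up (n + j)).S f →
    ∀ m : Fin j → ℝ × ℝ, (C.up n).S fun p y => iteratedFDerivWithin ℝ j (f p) Ω y m
  | 0, _, _, h, m => by simpa using h
  | j + 1, n, f, h, m => by
    have hc := up_contDiffOn hΩ h
    obtain ⟨_, a, b, ha, hb, hR⟩ := h
    have hg : (C.up (n + j)).S fun p y =>
        ((m (Fin.last j)).1 : ℂ) * a p y + ((m (Fin.last j)).2 : ℂ) * b p y :=
      (C.up _).add ((C.up _).cmul _ ha) ((C.up _).cmul _ hb)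
    refine (C.up n).congr (up_jet hΩ hg (Fin.init m)) fun p hp y hy => ?_
    have hc' : ContDiffOn ℝ ((n + j : ℕ) : ℕ∞ω) (fderivWithin ℝ (f p) Ω) Ω :=
      (hc p hp).fderivWithin hΩ (by norm_cast)
    rw [iteratedFDerivWithin_succ_apply_right hΩ hy,
      ← iteratedFDerivWithin_clm_apply_const_apply hΩ hc' (by norm_cast; omega) hy]
    congr 1
    refine iteratedFDerivWithin_congr (fun z hz => ?_) hy j
    simp only [(hR p hp z hz).fderivWithin (hΩ z hz), D2_apply]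

/-- a bound for the jets from a bound for every member -/
theorem up_norm (hΩ : UniqueDiffOn ℝ Ω) {δ : P → ℝ × ℝ → ℝ}
    (hB : ∀ f, C.S f → ∃ M, ∀ p ∈ U, ∀ y ∈ Ω, ‖f p y‖ ≤ M * δ p y) :
    ∀ {j : ℕ} {f : Fn P}, (C.up j).S f →
      ∃ M, ∀ p ∈ U, ∀ y ∈ Ω, ‖iteratedFDerivWithin ℝ j (f p) Ω y‖ ≤ M * δ p y
  | 0, f, h => by simpa using hB f h
  | j + 1, f, ⟨_, a, b, ha, hb, hR⟩ => by
    obtain ⟨M1, h1⟩ := up_norm hΩ hB ha
    obtain ⟨M2, h2⟩ := up_norm hΩ hB hb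
    refine ⟨M1 + M2, fun p hp y hy => ?_⟩
    have c1 := up_contDiffOn hΩ ha p hp
    have c2 := up_contDiffOn hΩ hb p hp
    have e : EqOn (fderivWithin ℝ (f p) Ω) (L1 ∘ a p + L2 ∘ b p) Ω := fun z hz => by
      rw [(hR p hp z hz).fderivWithin (hΩ z hz), D2_eq]; rfl
    rw [← norm_iteratedFDerivWithin_fderivWithin hΩ hy, iteratedFDerivWithin_congr e hy,
      iteratedFDerivWithin_add_apply (L1.contDiff.comp_contDiffOn c1 y hy)
        (L2.contDiff.comp_contDiffOn c2 y hy) hΩ hy]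
    have b1 := L1.norm_iteratedFDerivWithin_comp_left (c1 y hy) hΩ hy le_rfl
    have b2 := L2.norm_iteratedFDerivWithin_comp_left (c2 y hy) hΩ hy le_rfl
    have n1 := mul_le_of_le_one_left (norm_nonneg (iteratedFDerivWithin ℝ j (a p) Ω y)) norm_L1
    have n2 := mul_le_of_le_one_left (norm_nonneg (iteratedFDerivWithin ℝ j (b p) Ω y)) norm_L2
    have := h1 p hp y hy
    have := h2 p hp y hy
    refine (norm_add_le _ _).trans ?_
    linarith

end Cl

/-- `C'` inherits the coordinate, the parameters and the inverses of `C` -/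
structure Ext (C C' : Cl U Ω) : Prop where
  base : ∀ {f}, C'.S f → C.S f
  fst : (C.S fun _ y => (y.1 : ℂ)) → C'.S fun _ y => (y.1 : ℂ)
  par : ∀ {c : P → ℂ}, (C.S fun p _ => c p) → C'.S fun p _ => c p
  inv : ∀ {f}, C'.S f → (∀ p ∈ U, ∀ y ∈ Ω, f p y ≠ 0) → (C.S fun p y => (f p y)⁻¹) →
    C'.S fun p y => (f p y)⁻¹

theorem Ext.refl (C : Cl U Ω) : Ext C C := ⟨id, id, id, fun _ _ h => h⟩

theorem Ext.it {C C' : Cl U Ω} (h : Ext C C') (R : Der U Ω) (n : ℕ) : Ext C (C'.it R n) :=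
  ⟨fun k => h.base (Cl.it_base k), fun k => Cl.it_fst (h.fst k) n, fun k => Cl.it_par (h.par k) n,
    fun k hne hi => Cl.it_inv hne (h.inv (Cl.it_base k) hne hi) k⟩

section boot

variable {I : Set ℝ}

theorem th_mem {C : Cl U (I ×ˢ (univ : Set ℝ))} {W : ℕ → Fn P} {N : ℕ} (h : ∀ i ≤ N, C.S (W i))
    (d : ∀ i < N, Dt U (I ×ˢ univ) (W i) (W (i + 1))) :
    ∀ j i, i + j ≤ N → (C.it (derT U I) j).S (W i)
  | 0, i, hi => h i hi
  | j + 1, i, hi => ⟨th_mem h d j i (by omega), W (i + 1), W (i + 1), th_mem h d j (i + 1) (by omega),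
      th_mem h d j (i + 1) (by omega), d i (by omega)⟩

theorem th_out {C : Cl U (I ×ˢ (univ : Set ℝ))} {Q : ℕ → Fn P} {N : ℕ}
    (d : ∀ i < N, Dt U (I ×ˢ univ) (Q i) (Q (i + 1))) :
    ∀ j i, i + j ≤ N → (C.it (derT U I) j).S (Q i) → C.S (Q (i + j))
  | 0, _, _, h => h
  | j + 1, i, hi, ⟨_, _, b, _, hb, hR⟩ => by
    have := th_out d j (i + 1) (by omega)
      ((C.it _ j).congr hb (Dt.unique (d i (by omega)) hR))
    rwa [show i + (j + 1) = i + 1 + j by omega]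

/-- **bootstrap**: `W i = ∂_θ^i w`, `Pp i = ∂_θ^i w_x`, `Q i = ∂_θ^i w_xx`, and `w_xx` is a rational
function of `x`, the parameters, `w, w_θ, w_θθ, w_x, w_xθ`. -/
theorem boot (C : Cl U (I ×ˢ (univ : Set ℝ))) (K : ℕ) {W Pp Q : ℕ → Fn P}
    (hW : ∀ i ≤ K + 2, C.S (W i)) (hP : ∀ i ≤ K + 1, C.S (Pp i))
    (dW : ∀ i ≤ K + 1, Dr U (I ×ˢ univ) (W i) (Pp i) (W (i + 1)))
    (dP : ∀ i ≤ K, Dr U (I ×ˢ univ) (Pp i) (Q i) (Pp (i + 1)))
    (dQ : ∀ i < K, Dt U (I ×ˢ univ) (Q i) (Q (i + 1)))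
    (eq : ∀ C', Ext C C' → C'.S (W 0) → C'.S (W 1) → C'.S (W 2) → C'.S (Pp 0) → C'.S (Pp 1) →
      C'.S (Q 0)) (n : ℕ) :
    (∀ i, i + n ≤ K + 2 → (C.up n).S (W i)) ∧ (∀ i, i + n ≤ K + 1 → (C.up n).S (Pp i)) ∧
      ∀ i, i + n ≤ K → (C.up n).S (Q i) := by
  have key : ∀ n, (∀ i, i + n ≤ K + 2 → (C.up n).S (W i)) →
      (∀ i, i + n ≤ K + 1 → (C.up n).S (Pp i)) → ∀ i, i + n ≤ K → (C.up n).S (Q i) := by
    intro n h1 h2 i hi
    have a := th_mem (C := C.up n) (W := W) (N := i + 2) (fun l hl => h1 l (by omega))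
      (fun l hl => (dW l (by omega)).dt) i
    have b := th_mem (C := C.up n) (W := Pp) (N := i + 1) (fun l hl => h2 l (by omega))
      (fun l hl => (dP l (by omega)).dt) i
    have := th_out (C := C.up n) (N := i) (fun l hl => dQ l (by omega)) i 0 (by omega)
      (eq _ (((Ext.refl C).it _ n).it _ i) (a 0 (by omega)) (a 1 (by omega)) (a 2 (by omega))
        (b 0 (by omega)) (b 1 (by omega)))
    simpa using this
  induction n with
  | zero =>
    exact ⟨fun i hi => hW i hi, fun i hi => hP i hi,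
      key 0 (fun i hi => hW i hi) fun i hi => hP i hi⟩
  | succ n ih =>
    obtain ⟨h1, h2, h3⟩ := ih
    have a : ∀ i, i + (n + 1) ≤ K + 2 → (C.up (n + 1)).S (W i) := fun i hi =>
      Cl.up_succ (h1 i (by omega)) (h2 i (by omega)) (h1 (i + 1) (by omega)) (dW i (by omega))
    have b : ∀ i, i + (n + 1) ≤ K + 1 → (C.up (n + 1)).S (Pp i) := fun i hi =>
      Cl.up_succ (h2 i (by omega)) (h3 i (by omega)) (h2 (i + 1) (by omega)) (dP i (by omega))
    exact ⟨a, b, key _ a b⟩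

end boot

/-- the norm of a multilinear map on the plane from its values on the basis -/
theorem norm_le_basis {j : ℕ} (T : ContinuousMultilinearMap ℝ (fun _ : Fin j => ℝ × ℝ) ℂ) :
    ‖T‖ ≤ ∑ σ : Fin j → Bool, ‖T fun i => if σ i then (1, 0) else (0, 1)‖ := by
  refine ContinuousMultilinearMap.opNorm_le_bound (by positivity) fun m => ?_
  have e : m = fun i => ∑ b : Bool,
      (if b then (m i).1 else (m i).2) • (if b then ((1 : ℝ), (0 : ℝ)) else (0, 1)) := by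
    funext i; ext <;> simp
  have e2 : T m = ∑ σ : Fin j → Bool, (∏ i, if σ i then (m i).1 else (m i).2) •
      T fun i => if σ i then (1, 0) else (0, 1) := by
    conv_lhs => rw [e]
    rw [T.map_sum]
    exact Finset.sum_congr rfl fun σ _ => T.map_smul_univ _ _
  rw [e2, Finset.sum_mul]
  refine (norm_sum_le _ _).trans (Finset.sum_le_sum fun σ _ => ?_)
  rw [norm_smul, mul_comm, norm_prod]
  gcongr with i
  split_ifs
  exacts [norm_fst_le _, norm_snd_le _]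

/-- differences of jets -/
theorem Cl.up_lip {C : Cl U Ω} (hΩ : UniqueDiffOn ℝ Ω) {δ : P → P → ℝ}
    (hB : ∀ f, C.S f → ∃ M, ∀ p ∈ U, ∀ q ∈ U, ∀ y ∈ Ω, ‖f p y - f q y‖ ≤ M * δ p q)
    {j : ℕ} {f : Fn P} (h : (C.up j).S f) : ∃ M, ∀ p ∈ U, ∀ q ∈ U, ∀ y ∈ Ω,
      ‖iteratedFDerivWithin ℝ j (f p) Ω y - iteratedFDerivWithin ℝ j (f q) Ω y‖ ≤ M * δ p q := by
  have h0 : (C.up (0 + j)).S f := by rwa [zero_add]
  choose M hM using fun σ : Fin j → Bool =>
    hB _ (Cl.up_jet hΩ h0 fun i => if σ i then (1, 0) else (0, 1))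
  refine ⟨∑ σ, M σ, fun p hp q hq y hy => (norm_le_basis _).trans ?_⟩
  rw [Finset.sum_mul]
  exact Finset.sum_le_sum fun σ _ => hM σ p hp q hq y hy

/-! ### the standard classes -/

variable (U Ω) in
/-- continuous in the point -/
def cc : Cl U Ω where
  S f := ∀ p ∈ U, ContinuousOn (f p) Ω
  add h k p hp := (h p hp).add (k p hp)
  mul h k p hp := (h p hp).mul (k p hp)
  const _ _ _ := continuousOn_const
  congr h e p hp := (h p hp).congr (e p hp)
  cont h := h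

theorem cc_inv {f : Fn P} (h : (cc U Ω).S f) (hne : ∀ p ∈ U, ∀ y ∈ Ω, f p y ≠ 0) :
    (cc U Ω).S fun p y => (f p y)⁻¹ := fun p hp => (h p hp).inv₀ (hne p hp)

theorem cc_fst : (cc U Ω).S fun _ y => (y.1 : ℂ) := fun _ _ => by fun_prop

theorem cc_par (c : P → ℂ) : (cc U Ω).S fun p _ => c p := fun _ _ => continuousOn_const

variable (U Ω) in
/-- continuous in the point, bounded, and Lipschitz in the parameter for the gauge `δ` -/
def lip (δ : P → P → ℝ) (hδ : ∀ p q, 0 ≤ δ p q) : Cl U Ω where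
  S f := (∀ p ∈ U, ContinuousOn (f p) Ω) ∧ ∃ M, 0 ≤ M ∧ (∀ p ∈ U, ∀ y ∈ Ω, ‖f p y‖ ≤ M) ∧
    ∀ p ∈ U, ∀ q ∈ U, ∀ y ∈ Ω, ‖f p y - f q y‖ ≤ M * δ p q
  add := fun {f g} ⟨h, M, m, b, l⟩ ⟨k, M', m', b', l'⟩ => by
    refine ⟨fun p hp => (h p hp).add (k p hp), M + M', by positivity,
      fun p hp y hy => norm_add_le_of_le (b p hp y hy) (b' p hp y hy), fun p hp q hq y hy => ?_⟩
    rw [add_sub_add_comm, add_mul]
    exact norm_add_le_of_le (l p hp q hq y hy) (l' p hp q hq y hy)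
  mul := fun {f g} ⟨h, M, m, b, l⟩ ⟨k, M', m', b', l'⟩ => by
    refine ⟨fun p hp => (h p hp).mul (k p hp), 2 * (M * M'), by positivity, fun p hp y hy => ?_,
      fun p hp q hq y hy => ?_⟩
    · have := norm_mul_le_of_le (b p hp y hy) (b' p hp y hy)
      have := mul_nonneg m m'
      linarith
    · have e : f p y * g p y - f q y * g q y = (f p y - f q y) * g p y + f q y * (g p y - g q y) := by
        ring
      have h1 := norm_mul_le_of_le (l p hp q hq y hy) (b' p hp y hy)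
      have h2 := norm_mul_le_of_le (b q hq y hy) (l' p hp q hq y hy)
      rw [e]
      exact (norm_add_le_of_le h1 h2).trans (le_of_eq (by ring))
  const c := ⟨fun _ _ => continuousOn_const, ‖c‖, norm_nonneg _, fun _ _ _ _ => le_rfl,
    fun p _ q _ _ _ => by simpa using mul_nonneg (norm_nonneg c) (hδ p q)⟩
  congr := fun ⟨h, M, m, b, l⟩ e => ⟨fun p hp => (h p hp).congr (e p hp), M, m,
    fun p hp y hy => by rw [e p hp y hy]; exact b p hp y hy,
    fun p hp q hq y hy => by rw [e p hp y hy, e q hq y hy]; exact l p hp q hq y hy⟩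
  cont h := h.1

theorem lip_inv {δ : P → P → ℝ} {hδ : ∀ p q, 0 ≤ δ p q} {f : Fn P} (h : (lip U Ω δ hδ).S f) {c : ℝ}
    (hc : 0 < c) (hl : ∀ p ∈ U, ∀ y ∈ Ω, c ≤ ‖f p y‖) :
    (lip U Ω δ hδ).S fun p y => (f p y)⁻¹ := by
  obtain ⟨h, M, m, -, l⟩ := h
  have hne : ∀ p ∈ U, ∀ y ∈ Ω, f p y ≠ 0 := fun p hp y hy =>
    norm_pos_iff.1 (hc.trans_le (hl p hp y hy))
  have hi : ∀ p ∈ U, ∀ y ∈ Ω, ‖(f p y)⁻¹‖ ≤ c⁻¹ := fun p hp y hy => by
    rw [norm_inv]; exact inv_anti₀ hc (hl p hp y hy)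
  refine ⟨fun p hp => (h p hp).inv₀ (hne p hp), c⁻¹ + M * c⁻¹ * c⁻¹, by positivity,
    fun p hp y hy => (hi p hp y hy).trans (le_add_of_nonneg_right (by positivity)),
    fun p hp q hq y hy => ?_⟩
  have e : (f p y)⁻¹ - (f q y)⁻¹ = -(f p y - f q y) * (f p y)⁻¹ * (f q y)⁻¹ := by
    have := hne p hp y hy; have := hne q hq y hy; field_simp; ring
  have h1 : ‖-(f p y - f q y)‖ ≤ M * δ p q := by rw [norm_neg]; exact l p hp q hq y hy
  have h2 := norm_mul_le_of_le (norm_mul_le_of_le h1 (hi p hp y hy)) (hi q hq y hy)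
  have := mul_nonneg (inv_nonneg.2 hc.le) (hδ p q)
  rw [e]; nlinarith

section hol

variable {E : Type*} [NormedAddCommGroup E] [NormedSpace ℂ E] {V : Set E}

variable (V Ω) in
/-- continuous in the point, holomorphic in the parameter, bounded -/
def hb : Cl V Ω where
  S f := (∀ p ∈ V, ContinuousOn (f p) Ω) ∧ (∀ y ∈ Ω, DifferentiableOn ℂ (fun p => f p y) V) ∧
    ∃ M, ∀ p ∈ V, ∀ y ∈ Ω, ‖f p y‖ ≤ M
  add := fun ⟨h, d, M, b⟩ ⟨k, d', M', b'⟩ => ⟨fun p hp => (h p hp).add (k p hp),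
    fun y hy => (d y hy).add (d' y hy), M + M',
    fun p hp y hy => norm_add_le_of_le (b p hp y hy) (b' p hp y hy)⟩
  mul := fun ⟨h, d, M, b⟩ ⟨k, d', M', b'⟩ => ⟨fun p hp => (h p hp).mul (k p hp),
    fun y hy => (d y hy).mul (d' y hy), M * M',
    fun p hp y hy => norm_mul_le_of_le (b p hp y hy) (b' p hp y hy)⟩
  const c := ⟨fun _ _ => continuousOn_const, fun _ _ => differentiableOn_const c, ‖c‖,
    fun _ _ _ _ => le_rfl⟩
  congr := fun ⟨h, d, M, b⟩ e => ⟨fun p hp => (h p hp).congr (e p hp),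
    fun y hy => (d y hy).congr fun p hp => e p hp y hy, M,
    fun p hp y hy => by rw [e p hp y hy]; exact b p hp y hy⟩
  cont h := h.1

theorem hb_inv {f : Fn E} (h : (hb Ω V).S f) {c : ℝ} (hc : 0 < c)
    (hl : ∀ p ∈ V, ∀ y ∈ Ω, c ≤ ‖f p y‖) : (hb Ω V).S fun p y => (f p y)⁻¹ := by
  have hne : ∀ p ∈ V, ∀ y ∈ Ω, f p y ≠ 0 := fun p hp y hy =>
    norm_pos_iff.1 (hc.trans_le (hl p hp y hy))
  exact ⟨fun p hp => (h.1 p hp).inv₀ (hne p hp),
    fun y hy => (h.2.1 y hy).inv fun p hp => hne p hp y hy, c⁻¹,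
    fun p hp y hy => by rw [norm_inv]; exact inv_anti₀ hc (hl p hp y hy)⟩

theorem hb_fst {M : ℝ} (h : ∀ y ∈ Ω, |y.1| ≤ M) : (hb Ω V).S fun _ y => (y.1 : ℂ) :=
  ⟨fun _ _ => by fun_prop, fun _ _ => differentiableOn_const _, M,
    fun _ _ y hy => by simpa using h y hy⟩

theorem hb_par {c : E → ℂ} (hd : DifferentiableOn ℂ c V) {M : ℝ} (h : ∀ p ∈ V, ‖c p‖ ≤ M) :
    (hb Ω V).S fun p _ => c p :=
  ⟨fun _ _ => continuousOn_const, fun _ _ => hd, M, fun p hp _ _ => h p hp⟩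

/-- what membership in `(hb Ω V).up n` gives -/
theorem hb_out (hΩ : UniqueDiffOn ℝ Ω) {n : ℕ} {f : Fn E} (h : ((hb Ω V).up n).S f) :
    (∀ p ∈ V, ContDiffOn ℝ n (f p) Ω) ∧ ∀ j ≤ n,
      (∃ M, ∀ p ∈ V, ∀ y ∈ Ω, ‖iteratedFDerivWithin ℝ j (f p) Ω y‖ ≤ M) ∧
      ∀ y ∈ Ω, ∀ m, DifferentiableOn ℂ (fun p => iteratedFDerivWithin ℝ j (f p) Ω y m) V := by
  refine ⟨Cl.up_contDiffOn hΩ h, fun j hj => ⟨?_, fun y hy m => ?_⟩⟩
  · simpa using Cl.up_norm (C := hb Ω V) hΩ (δ := fun _ _ => 1) (fun f hf => by simpa using hf.2.2)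
      (Cl.it_mono hj h)
  · have h0 : ((hb Ω V).up (0 + j)).S f := by rw [zero_add]; exact Cl.it_mono hj h
    exact (Cl.up_jet hΩ h0 m).2.1 y hy

end hol

end Crest.Agent.N250.Sm

end
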