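import Crest.Agent.N250.B1.Sm0
import Crest.Agent.N250.Wi.Alg

/-!
# Row 250, B1 S6 (helper95): synthesis of Fourier modes

`Sy i c (x, θ) = ∑ (i m)^i c m x e^{i m θ}`; `Md I n c`: the modes are continuous on `I` and
`(1 + |m|)^n c m` has a summable majorant.
-/

set_option autoImplicit false
open Set Filter Topology Complex

noncomputable section

namespace Crest.Agent.N250.Sm

open Wi (ex norm_ex continuous_ex hasDerivAt_ex ex_periodic)

/-- termwise differentiation of a series within a convex set -/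
theorem hasFD_tsum {ι E G : Type*} [NormedAddCommGroup E] [NormedSpace ℝ E] [NormedAddCommGroup G]
    [NormedSpace ℝ G] [CompleteSpace G] {s : Set E} (hs : Convex ℝ s) {f : ι → E → G}
    {f' : ι → E → (E →L[ℝ] G)} {u : ι → ℝ} (hu : Summable u)
    (hf : ∀ j, ∀ x ∈ s, HasFDerivWithinAt (f j) (f' j x) s x)
    (hb : ∀ j, ∀ x ∈ s, ‖f' j x‖ ≤ u j) (hsum : ∀ x ∈ s, Summable fun j => f j x) :
    ∀ x ∈ s, HasFDerivWithinAt (fun y => ∑' j, f j y) (∑' j, f' j x) s x := by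
  intro x hx
  rw [hasFDerivWithinAt_iff_tendsto]
  have hf's : Summable fun j => f' j x := Summable.of_norm_bounded hu (fun j => hb j x hx)
  have key : Tendsto (fun x' => ∑' j, (‖x' - x‖⁻¹ • (f j x' - f j x - f' j x (x' - x)))) (𝓝[s] x)
      (𝓝 (∑' _j : ι, (0 : G))) := by
    refine tendsto_tsum_of_dominated_convergence (bound := fun j => 2 * u j) (hu.mul_left 2) ?_ ?_
    · intro j
      have h := (hasFDerivWithinAt_iff_tendsto.mp (hf j x hx))
      rw [tendsto_zero_iff_norm_tendsto_zero]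
      refine h.congr fun x' => ?_
      rw [norm_smul, norm_inv, norm_norm]
    · filter_upwards [self_mem_nhdsWithin] with x' hx' j
      have h1 : ‖f j x' - f j x‖ ≤ u j * ‖x' - x‖ :=
        hs.norm_image_sub_le_of_norm_hasFDerivWithin_le (hf j) (hb j) hx hx'
      have h2 : ‖f' j x (x' - x)‖ ≤ u j * ‖x' - x‖ :=
        ((f' j x).le_opNorm _).trans (mul_le_mul_of_nonneg_right (hb j x hx) (norm_nonneg _))
      have h3 : ‖f j x' - f j x - f' j x (x' - x)‖ ≤ 2 * u j * ‖x' - x‖ :=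
        (norm_sub_le _ _).trans (by linarith)
      rw [norm_smul, norm_inv, norm_norm]
      by_cases h0 : ‖x' - x‖ = 0
      · rw [h0, inv_zero, zero_mul]
        have := (norm_nonneg (f' j x)).trans (hb j x hx)
        positivity
      · have h0' : 0 < ‖x' - x‖ := lt_of_le_of_ne (norm_nonneg _) (Ne.symm h0)
        rw [inv_mul_le_iff₀ h0']
        linarith
  rw [tsum_zero, tendsto_zero_iff_norm_tendsto_zero] at key
  refine key.congr' ?_
  filter_upwards [self_mem_nhdsWithin] with x' hx'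
  have e1 : (∑' j, f' j x) (x' - x) = ∑' j, f' j x (x' - x) :=
    ContinuousLinearMap.map_tsum (ContinuousLinearMap.apply ℝ G (x' - x)) hf's
  have hs1 : Summable fun j => f' j x (x' - x) :=
    hf's.mapL (ContinuousLinearMap.apply ℝ G (x' - x))
  rw [tsum_const_smul'', norm_smul, norm_inv, norm_norm, e1,
    ← (hsum x' hx').tsum_sub (hsum x hx), ← ((hsum x' hx').sub (hsum x hx)).tsum_sub hs1]

/-- the `i`-th angular derivative of the synthesis of the modes `c` -/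
def Sy (i : ℕ) (c : ℤ → ℝ → ℂ) (y : ℝ × ℝ) : ℂ := ∑' m : ℤ, (m * I) ^ i * c m y.1 * ex m y.2

/-- modes with `n` summable angular derivatives on `J` -/
structure Md (J : Set ℝ) (n : ℕ) (c : ℤ → ℝ → ℂ) : Prop where
  cont : ∀ m, ContinuousOn (c m) J
  bd : ∃ u : ℤ → ℝ, Summable u ∧ ∀ m : ℤ, ∀ x ∈ J, (1 + |(m : ℝ)|) ^ n * ‖c m x‖ ≤ u m

variable {J : Set ℝ} {n i : ℕ} {c d : ℤ → ℝ → ℂ}

theorem norm_term (i : ℕ) (c : ℤ → ℝ → ℂ) (m : ℤ) (y : ℝ × ℝ) :
    ‖((m : ℂ) * I) ^ i * c m y.1 * ex m y.2‖ = |(m : ℝ)| ^ i * ‖c m y.1‖ := by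
  simp [norm_mul, norm_pow]

theorem pow_le_w (hi : i ≤ n) (m : ℤ) : |(m : ℝ)| ^ i ≤ (1 + |(m : ℝ)|) ^ n :=
  (pow_le_pow_left₀ (abs_nonneg _) (by linarith) i).trans
    (pow_le_pow_right₀ (by linarith [abs_nonneg (m : ℝ)]) hi)

theorem term_le (hi : i ≤ n) (c : ℤ → ℝ → ℂ) (m : ℤ) (y : ℝ × ℝ) :
    ‖((m : ℂ) * I) ^ i * c m y.1 * ex m y.2‖ ≤ (1 + |(m : ℝ)|) ^ n * ‖c m y.1‖ := by
  rw [norm_term]; exact mul_le_mul_of_nonneg_right (pow_le_w hi m) (norm_nonneg _)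

theorem Sy_succ (i : ℕ) (c : ℤ → ℝ → ℂ) : Sy (i + 1) c = Sy i fun m x => m * I * c m x := by
  funext y; exact tsum_congr fun m => by ring

theorem Sy_mul (i : ℕ) (k : ℝ → ℂ) (c : ℤ → ℝ → ℂ) (y : ℝ × ℝ) :
    Sy i (fun m x => k x * c m x) y = k y.1 * Sy i c y := by
  rw [Sy, Sy, ← tsum_mul_left]; exact tsum_congr fun m => by ring

theorem Sy_congr (i : ℕ) {y : ℝ × ℝ} (h : ∀ m, c m y.1 = d m y.1) : Sy i c y = Sy i d y := by
  simp only [Sy, h]

theorem Sy_per (i : ℕ) (c : ℤ → ℝ → ℂ) (x θ : ℝ) :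
    Sy i c (x, θ + 2 * Real.pi) = Sy i c (x, θ) := by
  simp only [Sy, ex_periodic]

theorem norm_Sy_le (hi : i ≤ n) {u : ℤ → ℝ} {B : ℝ} (hu : HasSum u B) {y : ℝ × ℝ}
    (h : ∀ m : ℤ, (1 + |(m : ℝ)|) ^ n * ‖c m y.1‖ ≤ u m) : ‖Sy i c y‖ ≤ B :=
  tsum_of_norm_bounded hu fun m => (term_le hi c m y).trans (h m)

namespace Md

theorem mono (h : Md J n c) {J' : Set ℝ} {n' : ℕ} (hJ : J' ⊆ J) (hn : n' ≤ n) : Md J' n' c := by
  obtain ⟨u, hu, hb⟩ := h.bd
  refine ⟨fun m => (h.cont m).mono hJ, u, hu, fun m x hx => le_trans ?_ (hb m x (hJ hx))⟩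
  exact mul_le_mul_of_nonneg_right
    (pow_le_pow_right₀ (by linarith [abs_nonneg (m : ℝ)]) hn) (norm_nonneg _)

theorem congr (h : Md J n c) (e : ∀ m, ∀ x ∈ J, d m x = c m x) : Md J n d := by
  obtain ⟨u, hu, hb⟩ := h.bd
  exact ⟨fun m => (h.cont m).congr (e m), u, hu, fun m x hx => by rw [e m x hx]; exact hb m x hx⟩

theorem add (h : Md J n c) (k : Md J n d) : Md J n fun m x => c m x + d m x := by
  obtain ⟨u, hu, hb⟩ := h.bd
  obtain ⟨v, hv, hb'⟩ := k.bd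
  refine ⟨fun m => (h.cont m).add (k.cont m), _, hu.add hv, fun m x hx => ?_⟩
  have := mul_le_mul_of_nonneg_left (norm_add_le (c m x) (d m x))
    (by positivity : 0 ≤ (1 + |(m : ℝ)|) ^ n)
  linarith [hb m x hx, hb' m x hx]

theorem mul (h : Md J n c) {k : ℝ → ℂ} (hk : ContinuousOn k J) {B : ℝ} (hB : ∀ x ∈ J, ‖k x‖ ≤ B) :
    Md J n fun m x => k x * c m x := by
  obtain ⟨u, hu, hb⟩ := h.bd
  refine ⟨fun m => hk.mul (h.cont m), _, hu.mul_left B, fun m x hx => ?_⟩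
  rw [norm_mul, mul_left_comm]
  exact mul_le_mul (hB x hx) (hb m x hx) (by positivity) ((norm_nonneg _).trans (hB x hx))

/-- one more derivative from a bound on `m c m` -/
theorem succ (h : Md J n c) (k : Md J n fun m x => m * I * c m x) : Md J (n + 1) c := by
  obtain ⟨u, hu, hb⟩ := h.bd
  obtain ⟨v, hv, hb'⟩ := k.bd
  refine ⟨h.cont, _, hu.add hv, fun m x hx => ?_⟩
  have h1 := hb m x hx
  have h2 := hb' m x hx
  simp only [norm_mul, Complex.norm_intCast, norm_I, mul_one] at h2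
  calc _ = (1 + |(m : ℝ)|) ^ n * ‖c m x‖ + (1 + |(m : ℝ)|) ^ n * (|(m : ℝ)| * ‖c m x‖) := by ring
    _ ≤ _ := add_le_add h1 h2

theorem pred (h : Md J (n + 1) c) : Md J n fun m x => m * I * c m x := by
  obtain ⟨u, hu, hb⟩ := h.bd
  refine ⟨fun m => continuousOn_const.mul (h.cont m), u, hu, fun m x hx => le_trans ?_ (hb m x hx)⟩
  simp only [norm_mul, Complex.norm_intCast, norm_I, mul_one]
  rw [pow_succ, mul_assoc]
  gcongr
  linarith

theorem comp (h : Md J n c) {J' : Set ℝ} {g : ℝ → ℝ} (hg : ContinuousOn g J') (hm : MapsTo g J' J) :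
    Md J' n fun m x => c m (g x) := by
  obtain ⟨u, hu, hb⟩ := h.bd
  exact ⟨fun m => (h.cont m).comp hg hm, u, hu, fun m x hx => hb m _ (hm hx)⟩

/-- a single mode -/
theorem single (k : ℤ) {f : ℝ → ℂ} (hf : ContinuousOn f J) {B : ℝ} (hB : ∀ x ∈ J, ‖f x‖ ≤ B) :
    Md J n fun m x => if m = k then f x else 0 := by
  refine ⟨fun m => by split_ifs; exacts [hf, continuousOn_const],
    fun m => if m = k then (1 + |(k : ℝ)|) ^ n * B else 0,
    summable_of_ne_finset_zero (s := {k}) fun m hm => if_neg (by simpa using hm), fun m x hx => ?_⟩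
  by_cases e : m = k
  · subst e
    simp only [if_true]
    exact mul_le_mul_of_nonneg_left (hB x hx) (by positivity)
  · simp [e]

theorem summable (h : Md J n c) (hi : i ≤ n) {y : ℝ × ℝ} (hy : y.1 ∈ J) :
    Summable fun m : ℤ => ((m : ℂ) * I) ^ i * c m y.1 * ex m y.2 := by
  obtain ⟨u, hu, hb⟩ := h.bd
  exact .of_norm_bounded hu fun m => (term_le hi c m y).trans (hb m _ hy)

theorem bdd (h : Md J n c) (hi : i ≤ n) : ∃ B, ∀ y : ℝ × ℝ, y.1 ∈ J → ‖Sy i c y‖ ≤ B := by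
  obtain ⟨u, hu, hb⟩ := h.bd
  exact ⟨_, fun y hy => norm_Sy_le hi hu.hasSum fun m => hb m _ hy⟩

theorem cSy (h : Md J n c) (hi : i ≤ n) : ContinuousOn (Sy i c) (J ×ˢ univ) := by
  obtain ⟨u, hu, hb⟩ := h.bd
  refine continuousOn_tsum (fun m => ?_) hu fun m y hy => (term_le hi c m y).trans (hb m _ hy.1)
  exact (continuousOn_const.mul ((h.cont m).comp continuousOn_fst fun y hy => hy.1)).mul
    ((continuous_ex m).comp continuous_snd).continuousOn

theorem dt (h : Md J n c) (hi : i + 1 ≤ n) {y : ℝ × ℝ} (hy : y.1 ∈ J) :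
    HasDerivAt (fun θ => Sy i c (y.1, θ)) (Sy (i + 1) c y) y.2 := by
  obtain ⟨u, hu, hb⟩ := h.bd
  refine hasDerivAt_tsum (g' := fun (m : ℤ) θ => ((m : ℂ) * I) ^ (i + 1) * c m y.1 * ex m θ)
    (y₀ := y.2) hu (fun m θ => ?_) (fun m θ => (term_le hi c m (y.1, θ)).trans (hb m _ hy))
    (h.summable (by omega) hy) y.2
  exact ((hasDerivAt_ex m θ).const_mul (((m : ℂ) * I) ^ i * c m y.1)).congr_deriv (by ring)

theorem dF (hJ : Convex ℝ J) (h : Md J (i + 1) c) (k : Md J i d)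
    (hd : ∀ m, ∀ x ∈ J, HasDerivWithinAt (c m) (d m x) J x) {y : ℝ × ℝ} (hy : y ∈ J ×ˢ univ) :
    HasFDerivWithinAt (Sy i c) (D2 (Sy i d y) (Sy (i + 1) c y)) (J ×ˢ univ) y := by
  obtain ⟨u, hu, hb⟩ := h.bd
  obtain ⟨v, hv, hb'⟩ := k.bd
  have key := hasFD_tsum (s := J ×ˢ (univ : Set ℝ)) (hJ.prod convex_univ)
    (f := fun (m : ℤ) y => ((m : ℂ) * I) ^ i * c m y.1 * ex m y.2)
    (f' := fun (m : ℤ) y => D2 (((m : ℂ) * I) ^ i * d m y.1 * ex m y.2)
      (((m : ℂ) * I) ^ (i + 1) * c m y.1 * ex m y.2)) (hv.add hu) (fun m z hz => ?_)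
    (fun m z hz => (norm_D2_le _ _).trans (add_le_add ((term_le le_rfl d m z).trans (hb' m _ hz.1))
      ((term_le le_rfl c m z).trans (hb m _ hz.1))))
    (fun z hz => h.summable (by omega) hz.1) y hy
  · refine key.congr_fderiv ?_
    have s1 := k.summable le_rfl hy.1
    have s2 := h.summable le_rfl hy.1
    simp only [D2_eq]
    rw [(s1.mapL L1).tsum_add (s2.mapL L2), ← L1.map_tsum s1, ← L2.map_tsum s2]
    rfl
  · have h1 := (hd m z.1 hz.1).hasFDerivWithinAt.comp z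
      (hasFDerivWithinAt_fst (𝕜 := ℝ) (s := J ×ˢ (univ : Set ℝ)) (p := z)) fun w hw => hw.1
    have h2 := (hasDerivAt_ex m z.2).hasFDerivAt.comp_hasFDerivWithinAt z
      (hasFDerivWithinAt_snd (𝕜 := ℝ) (s := J ×ˢ (univ : Set ℝ)) (p := z))
    refine ((h1.const_mul (((m : ℂ) * I) ^ i)).mul h2).congr_fderiv
      (ContinuousLinearMap.ext fun w => ?_)
    simp; ring

/-- derivative in the first variable -/
theorem ds (hJ : Convex ℝ J) (h : Md J i c) (k : Md J i d)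
    (hd : ∀ m, ∀ x ∈ J, HasDerivWithinAt (c m) (d m x) J x) {x : ℝ} (hx : x ∈ J) (θ : ℝ) :
    HasDerivWithinAt (fun x => Sy i c (x, θ)) (Sy i d (x, θ)) J x := by
  obtain ⟨v, hv, hb'⟩ := k.bd
  have key := hasFD_tsum (s := J) hJ (f := fun (m : ℤ) x => ((m : ℂ) * I) ^ i * c m x * ex m θ)
    (f' := fun (m : ℤ) x => ContinuousLinearMap.toSpanSingleton ℝ
      (((m : ℂ) * I) ^ i * d m x * ex m θ)) hv
    (fun m z hz => (((hd m z hz).const_mul _).mul_const _).hasFDerivWithinAt)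
    (fun m z hz => by
      rw [ContinuousLinearMap.norm_toSpanSingleton]
      exact (term_le le_rfl d m (z, θ)).trans (hb' m _ hz))
    (fun z hz => h.summable (y := (z, θ)) le_rfl hz) x hx
  have s1 := k.summable (y := (x, θ)) le_rfl hx
  refine key.hasDerivWithinAt.congr_deriv ?_
  have s2 : Summable fun m : ℤ => ContinuousLinearMap.toSpanSingleton ℝ
      (((m : ℂ) * I) ^ i * d m x * ex m θ) := .of_norm_bounded hv fun m => by
    rw [ContinuousLinearMap.norm_toSpanSingleton]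
    exact (term_le le_rfl d m (x, θ)).trans (hb' m _ hx)
  have := (ContinuousLinearMap.apply ℝ ℂ (1 : ℝ)).map_tsum s2
  simpa [Sy] using this

end Md

theorem Sy_add (h : Md J n c) (k : Md J n d) (hi : i ≤ n) {y : ℝ × ℝ} (hy : y.1 ∈ J) :
    Sy i (fun m x => c m x + d m x) y = Sy i c y + Sy i d y := by
  rw [Sy, Sy, Sy, ← (h.summable hi hy).tsum_add (k.summable hi hy)]
  exact tsum_congr fun m => by ring

theorem Sy_single (i : ℕ) (k : ℤ) (f : ℝ → ℂ) (y : ℝ × ℝ) :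
    Sy i (fun m x => if m = k then f x else 0) y = (k * I) ^ i * f y.1 * ex k y.2 := by
  rw [Sy, tsum_eq_single k fun m hm => by simp [hm]]; simp

/-- the modes are the Fourier coefficients -/
theorem integral_Sy (h : Md J n c) (hi : i ≤ n) {x : ℝ} (hx : x ∈ J) (k : ℤ) :
    ∫ θ in (0 : ℝ)..2 * Real.pi, ex (-k) θ * Sy i c (x, θ) =
      ((2 * Real.pi : ℝ) : ℂ) * ((k * I) ^ i * c k x) := by
  obtain ⟨u, hu, hb⟩ := h.bd
  have h1 := intervalIntegral.hasSum_integral_of_dominated_convergence (μ := MeasureTheory.volume)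
    (a := (0 : ℝ)) (b := 2 * Real.pi)
    (F := fun (m : ℤ) θ => ex (m - k) θ * (((m : ℂ) * I) ^ i * c m x))
    (f := fun θ => ex (-k) θ * Sy i c (x, θ)) (fun m _ => u m)
    (fun m => ((continuous_ex _).mul continuous_const).aestronglyMeasurable)
    (fun m => Eventually.of_forall fun θ _ => by
      have := (term_le hi c m (x, θ)).trans (hb m _ hx)
      simpa [norm_mul] using this)
    (Eventually.of_forall fun _ _ => hu) intervalIntegrable_const
    (Eventually.of_forall fun θ _ => by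
      have := (h.summable (y := (x, θ)) hi hx).hasSum.mul_left (ex (-k) θ)
      have e : ∀ m : ℤ, ex (m - k) θ * (((m : ℂ) * I) ^ i * c m x) =
          ex (-k) θ * (((m : ℂ) * I) ^ i * c m x * ex m θ) := fun m => by
        rw [sub_eq_neg_add, Wi.ex_add]; ring
      simp only [e]; exact this)
  refine h1.unique ?_
  simp only [intervalIntegral.integral_mul_const, Wi.integral_ex]
  have := hasSum_single (f := fun m : ℤ =>
    (if m - k = 0 then ((2 * Real.pi : ℝ) : ℂ) else 0) * (((m : ℂ) * I) ^ i * c m x)) k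
    fun m hm => by rw [if_neg (sub_ne_zero.2 hm), zero_mul]
  rwa [if_pos (sub_self k)] at this

/-! ### modes of an element of the Wiener algebra -/

section wiener

variable {K : Type*} [TopologicalSpace K] [CompactSpace K] {ω : WiW C(K, ℂ)}

/-- the modes of `u` read along `τ` -/
def md (τ : ℝ → K) (u : Wi ω) (m : ℤ) (x : ℝ) : ℂ := Wi.co u m (τ x)

variable (ω) in
/-- the weight gives `n` derivatives at `s` -/
def Gain (n : ℕ) (B : ℝ) (s : K) : Prop := ∀ m : ℤ, (1 + |(m : ℝ)|) ^ n * ‖ω.wi m s‖ ≤ B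

theorem gain_zero (s : K) : Gain ω 0 1 s := fun m => by
  simpa using ((ω.wi m).norm_coe_le_norm s).trans (ω.inv_le m)

theorem Gain.le {B : ℝ} {s : K} (h : Gain ω n B s) (u : Wi ω) (m : ℤ) :
    (1 + |(m : ℝ)|) ^ n * ‖Wi.co u m s‖ ≤ B * ‖Wi.raw u m‖ := by
  rw [Wi.co, ContinuousMap.mul_apply, norm_mul, ← mul_assoc]
  exact mul_le_mul (h m) ((Wi.raw u m).norm_coe_le_norm s) (norm_nonneg _)
    (le_trans (by positivity) (h m))

theorem md_Md {τ : ℝ → K} (hτ : ContinuousOn τ J) {B : ℝ} (h : ∀ x ∈ J, Gain ω n B (τ x))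
    (u : Wi ω) : Md J n (md τ u) :=
  ⟨fun m => (Wi.co u m).continuous.comp_continuousOn hτ, _, (Wi.summable_raw u).mul_left B,
    fun m x hx => (h x hx).le u m⟩

theorem norm_Sy_md {τ : ℝ → K} {B : ℝ} {y : ℝ × ℝ} (h : Gain ω n B (τ y.1)) (hi : i ≤ n)
    (u : Wi ω) : ‖Sy i (md τ u) y‖ ≤ B * ‖u‖ := by
  rw [Wi.norm_eq_raw]
  exact norm_Sy_le hi ((Wi.summable_raw u).hasSum.mul_left B) fun m => h.le u m

theorem Sy_zero_md (τ : ℝ → K) (u : Wi ω) (y : ℝ × ℝ) :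
    Sy 0 (md τ u) y = Wi.syn u y.2 (τ y.1) := by
  have := (Wi.hasSum_syn u y.2).mapL (ContinuousMap.evalCLM ℂ (τ y.1))
  refine (HasSum.tsum_eq ?_)
  simpa [md, mul_comm] using this

/-- the synthesis is a continuous linear functional -/
theorem exists_Sy_clm {τ : ℝ → K} {B : ℝ} {y : ℝ × ℝ} (h : Gain ω n B (τ y.1)) (hi : i ≤ n) :
    ∃ L : Wi ω →L[ℂ] ℂ, ‖L‖ ≤ B ∧ ∀ u, L u = Sy i (md τ u) y := by
  have hB : 0 ≤ B := le_trans (by positivity) (h 0)
  have hM : ∀ u : Wi ω, Md {y.1} n (md τ u) := fun u =>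
    md_Md (continuousOn_singleton _ _) (fun x hx => by rw [hx]; exact h) u
  refine ⟨LinearMap.mkContinuous ⟨⟨fun u => Sy i (md τ u) y, fun u v => ?_⟩, fun a u => ?_⟩ B
    fun u => norm_Sy_md h hi u, LinearMap.mkContinuous_norm_le _ hB _, fun _ => rfl⟩
  · rw [← Sy_add (hM u) (hM v) hi rfl]
    exact Sy_congr i fun m => by simp [md]
  · have := Sy_mul i (fun _ => a) (md τ u) y
    simp only [RingHom.id_apply, smul_eq_mul, ← this]
    exact Sy_congr i fun m => by simp [md]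

variable {τ : ℝ → K}

theorem Sy_hb {E : Type*} [NormedAddCommGroup E] [NormedSpace ℂ E] {V : Set E}
    (hτ : ContinuousOn τ J) {B : ℝ} (h : ∀ x ∈ J, Gain ω n B (τ x)) (hi : i ≤ n) {u : E → Wi ω}
    (hu : DifferentiableOn ℂ u V) {M : ℝ} (hM : ∀ p ∈ V, ‖u p‖ ≤ M) :
    (hb (J ×ˢ univ) V).S fun p => Sy i (md τ (u p)) := by
  refine ⟨fun p _ => (md_Md hτ h _).cSy hi, fun y hy => ?_, B * M, fun p hp y hy => ?_⟩
  · obtain ⟨L, -, hL⟩ := exists_Sy_clm (h _ hy.1) hi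
    simp only [← hL]
    exact L.differentiable.comp_differentiableOn hu
  · exact (norm_Sy_md (h _ hy.1) hi _).trans
      (mul_le_mul_of_nonneg_left (hM p hp) (le_trans (by positivity) (h _ hy.1 0)))

theorem Sy_lip {P : Type*} {U : Set P} {δ : P → P → ℝ} {hδ : ∀ p q, 0 ≤ δ p q}
    (hτ : ContinuousOn τ J) {B : ℝ} (hB : 0 ≤ B) (h : ∀ x ∈ J, Gain ω n B (τ x)) (hi : i ≤ n)
    {u : P → Wi ω} {M : ℝ} (hM0 : 0 ≤ M) (hM : ∀ p ∈ U, ‖u p‖ ≤ M)
    (hl : ∀ p ∈ U, ∀ q ∈ U, ‖u p - u q‖ ≤ M * δ p q) :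
    (lip U (J ×ˢ univ) δ hδ).S fun p => Sy i (md τ (u p)) := by
  refine ⟨fun p _ => (md_Md hτ h _).cSy hi, B * M, by positivity, fun p hp y hy => ?_,
    fun p hp q hq y hy => ?_⟩
  · exact (norm_Sy_md (h _ hy.1) hi _).trans (mul_le_mul_of_nonneg_left (hM p hp) hB)
  · obtain ⟨L, h1, hL⟩ := exists_Sy_clm (h _ hy.1) hi
    simp only [← hL, ← map_sub]
    rw [mul_assoc]
    exact (L.le_opNorm _).trans (mul_le_mul h1 (hl p hp q hq) (norm_nonneg _) hB)

end wiener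

end Crest.Agent.N250.Sm

end
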