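import Crest.Agent.N250.B1.Sm1
import Crest.Agent.N250.B1.Stm
import Crest.Agent.N250.B1.Gam

/-!
# Row 250, B1 S6 (helper95): jets of the end solver are jets of a function of `(x, θ)`
-/

set_option autoImplicit false
open Set Filter Topology Complex
open scoped ContDiff

noncomputable section

namespace Crest.Agent.N250.B1

open Sm

variable {ℓ : Ell} {R : ℝ} {X a : ℂ} {τ : ℝ → II} {S : Set ℝ} {J : Jt ℓ} {n : ℕ}

/-- `τ` reads the path `γ_X` in the real coordinate `x ∈ S` -/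
structure Rd (R : ℝ) (X : ℂ) (τ : ℝ → II) (S : Set ℝ) : Prop where
  cv : Convex ℝ S
  cont : ContinuousOn τ S
  gam : ∀ x ∈ S, gam R X (τ x) = x
  der : ∀ y y' : CI, Der y (dgam R X * y') → ∀ x ∈ S,
    HasDerivWithinAt (fun x => y (τ x)) (y' (τ x)) S x

theorem Rd.mono (h : Rd R X τ S) {S' : Set ℝ} (hc : Convex ℝ S') (hs : S' ⊆ S) : Rd R X τ S' :=
  ⟨hc, h.cont.mono hs, fun x hx => h.gam x (hs hx),
    fun y y' d x hx => (h.der y y' d x (hs hx)).mono hs⟩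

/-- the parameter of the point `x` of the strip -/
def tS (R x : ℝ) : II := projIcc 0 1 zero_le_one ((x - R) / 2)

theorem continuous_tS (R : ℝ) : Continuous (tS R) := by
  unfold tS; exact continuous_projIcc.comp (by fun_prop)

theorem tS_coe {x : ℝ} (hx : x ∈ Icc R (R + 1)) : (tS R x : ℝ) = (x - R) / 2 := by
  rw [tS, projIcc_of_mem _ ⟨by linarith [hx.1], by linarith [hx.2]⟩]

theorem cub_tS {x : ℝ} (hx : x ∈ Icc R (R + 1)) : cub (tS R x) = 0 := by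
  rw [tS_coe hx, cub]; exact max_eq_right (by linarith [hx.2])

theorem xr_tS (Y : ℝ) {x : ℝ} (hx : x ∈ Icc R (R + 1)) : xr R Y (tS R x) = x := by
  rw [xr, cub_tS hx, tS_coe hx]; ring

theorem rd_strip (R : ℝ) (X : ℂ) : Rd R X (tS R) (Icc R (R + 1)) := by
  refine ⟨convex_Icc _ _, (continuous_tS R).continuousOn, fun x hx => ?_, fun y y' d x hx => ?_⟩
  · rw [gam_apply, cub_tS hx, tS_coe hx]; push_cast; ring
  · have h1 : HasDerivWithinAt (fun x : ℝ => (x - R) / 2) (1 / 2) (Icc R (R + 1)) x :=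
      (((hasDerivAt_id x).sub_const R).div_const 2).hasDerivWithinAt
    have hm : MapsTo (fun x : ℝ => (x - R) / 2) (Icc R (R + 1)) (Icc 0 1) := fun x hx =>
      ⟨by have := hx.1; simp only; linarith, by have := hx.2; simp only; linarith⟩
    refine ((d.hasD (hm hx)).scomp x h1 hm).congr_deriv ?_
    change (1 / 2 : ℝ) • (dgam R X (tS R x) * y' (tS R x)) = _
    simp only [dgam, ContinuousMap.coe_mk, cub_tS hx, real_smul]; push_cast; ring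

/-- the `k`-th jet of `v` as a function of `(x, θ)` -/
def vk (R : ℝ) (X a : ℂ) (J : Jt ℓ) (τ : ℝ → II) (k : Fin 6) (y : ℝ × ℝ) : ℂ :=
  vj R X a J (τ y.1) y.2 k

theorem val_eq (u : Wi (om ℓ)) (τ : ℝ → II) (y : ℝ × ℝ) :
    val u (τ y.1) y.2 = Sy 0 (md τ u) y := (Sy_zero_md τ u y).symm

theorem vk0 (h : Rd R X τ S) {y : ℝ × ℝ} (hy : y.1 ∈ S) :
    vk R X a J τ 0 y = et a y.1 + Sy 0 (md τ (J 0)) y := by
  simp [vk, vj, h.gam _ hy, val_eq]

theorem vk1 (h : Rd R X τ S) {y : ℝ × ℝ} (hy : y.1 ∈ S) :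
    vk R X a J τ 1 y = a * y.1 + Sy 0 (md τ (J 1)) y := by
  simp [vk, vj, h.gam _ hy, val_eq]

theorem vk2 (y : ℝ × ℝ) : vk R X a J τ 2 y = a + Sy 0 (md τ (J 2)) y := by simp [vk, vj, val_eq]

theorem vk_per (k : Fin 6) (x θ : ℝ) :
    vk R X a J τ k (x, θ + 2 * Real.pi) = vk R X a J τ k (x, θ) := by
  fin_cases k <;> simp [vk, vj, val, Wi.syn_periodic]

namespace IsJet

variable {c : CI}

theorem md3 (h : IsJet c J) : md τ (J 3) = fun (m : ℤ) x => m * I * md τ (J 0) m x := by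
  funext m x; simp [md, h.t0]

theorem md4 (h : IsJet c J) : md τ (J 4) = fun (m : ℤ) x => m * I * md τ (J 1) m x := by
  funext m x; simp [md, h.t1]

theorem md5 (h : IsJet c J) : md τ (J 5) = fun (m : ℤ) x => m * I * md τ (J 3) m x := by
  funext m x
  simp only [md, h.t2, h.t0, ContinuousMap.smul_apply, smul_eq_mul]
  linear_combination (-(m : ℂ) ^ 2 * Wi.co (J 0) m (τ x)) * I_mul_I

theorem sy3 (h : IsJet c J) (i : ℕ) : Sy i (md τ (J 3)) = Sy (i + 1) (md τ (J 0)) := by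
  rw [h.md3, Sy_succ]

theorem sy4 (h : IsJet c J) (i : ℕ) : Sy i (md τ (J 4)) = Sy (i + 1) (md τ (J 1)) := by
  rw [h.md4, Sy_succ]

theorem sy5 (h : IsJet c J) (i : ℕ) : Sy i (md τ (J 5)) = Sy (i + 2) (md τ (J 0)) := by
  rw [h.md5, ← Sy_succ, h.sy3]

theorem vk3 (h : IsJet c J) : vk R X a J τ 3 = Sy 1 (md τ (J 0)) := by
  funext y; simp [vk, vj, val_eq, h.sy3]

theorem vk4 (h : IsJet c J) : vk R X a J τ 4 = Sy 1 (md τ (J 1)) := by
  funext y; simp [vk, vj, val_eq, h.sy4]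

theorem vk5 (h : IsJet c J) : vk R X a J τ 5 = Sy 2 (md τ (J 0)) := by
  funext y; simp [vk, vj, val_eq, h.sy5]

theorem md0 (h : IsJet c J) (m : ∀ k, Sm.Md S n (md τ (J k))) : Sm.Md S (n + 2) (md τ (J 0)) := by
  have h3 : Sm.Md S (n + 1) (md τ (J 3)) := (m 3).succ (by rw [← h.md5]; exact m 5)
  have h0 : Sm.Md S (n + 1) (md τ (J 0)) := (m 0).succ (by rw [← h.md3]; exact m 3)
  exact h0.succ (by rw [← h.md3]; exact h3)

theorem md1 (h : IsJet c J) (m : ∀ k, Sm.Md S n (md τ (J k))) : Sm.Md S (n + 1) (md τ (J 1)) :=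
  (m 1).succ (by rw [← h.md4]; exact m 4)

theorem dW (h : IsJet (dgam R X) J) (hr : Rd R X τ S) (m : ∀ k, Sm.Md S n (md τ (J k))) {i : ℕ}
    (hi : i ≤ n + 1) {y : ℝ × ℝ} (hy : y ∈ S ×ˢ (univ : Set ℝ)) :
    HasFDerivWithinAt (Sy i (md τ (J 0))) (D2 (Sy i (md τ (J 1)) y) (Sy (i + 1) (md τ (J 0)) y))
      (S ×ˢ univ) y :=
  Sm.Md.dF hr.cv ((h.md0 m).mono le_rfl (by omega)) ((h.md1 m).mono le_rfl hi)
    (fun k x hx => hr.der _ _ (h.d0 k) x hx) hy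

theorem dP (h : IsJet (dgam R X) J) (hr : Rd R X τ S) (m : ∀ k, Sm.Md S n (md τ (J k))) {i : ℕ}
    (hi : i ≤ n) {y : ℝ × ℝ} (hy : y ∈ S ×ˢ (univ : Set ℝ)) :
    HasFDerivWithinAt (Sy i (md τ (J 1))) (D2 (Sy i (md τ (J 2)) y) (Sy (i + 1) (md τ (J 1)) y))
      (S ×ˢ univ) y :=
  Sm.Md.dF hr.cv ((h.md1 m).mono le_rfl (by omega)) ((m 2).mono le_rfl hi)
    (fun k x hx => hr.der _ _ (h.d1 k) x hx) hy

end IsJet

theorem Rd.md (hr : Rd R X τ S) (u : Wi (om ℓ)) : Sm.Md S 0 (md τ u) :=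
  md_Md hr.cont (fun _ _ => gain_zero _) u

theorem fd_fst (s : Set (ℝ × ℝ)) (y : ℝ × ℝ) :
    HasFDerivWithinAt (fun y : ℝ × ℝ => (y.1 : ℂ)) (D2 1 0) s y :=
  (derF (univ : Set Unit) univ).fst () trivial y trivial |>.mono (subset_univ _)

section c2

variable (h : IsJet (dgam R X) J) (hr : Rd R X τ S) {y : ℝ × ℝ} (hy : y ∈ S ×ˢ (univ : Set ℝ))
include h hr hy

/-- `d v = v_x dx + v_θ dθ` -/
theorem IsJet.fd0 : HasFDerivWithinAt (vk R X a J τ 0)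
    (D2 (vk R X a J τ 1 y) (vk R X a J τ 3 y)) (S ×ˢ univ) y := by
  have h1 := ((((fd_fst (S ×ˢ univ) y).pow 2).sub_const 2).const_mul (a / 2)).const_add 1
  have h2 := h1.add (h.dW hr (fun k => hr.md (J k)) (i := 0) (by omega) hy)
  refine (h2.congr_fderiv (ContinuousLinearMap.ext fun v => ?_)).congr (fun z hz => ?_) ?_
  · rw [vk1 hr hy.1, h.vk3]; simp; ring
  · rw [vk0 hr hz.1, et]; simp; ring
  · rw [vk0 hr hy.1, et]; simp; ring

/-- `d v_x = v_xx dx + v_xθ dθ` -/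
theorem IsJet.fd1 : HasFDerivWithinAt (vk R X a J τ 1)
    (D2 (vk R X a J τ 2 y) (vk R X a J τ 4 y)) (S ×ˢ univ) y := by
  have h2 := ((fd_fst (S ×ˢ univ) y).const_mul a).add
    (h.dP hr (fun k => hr.md (J k)) (i := 0) le_rfl hy)
  refine (h2.congr_fderiv (ContinuousLinearMap.ext fun v => ?_)).congr (fun z hz => ?_) ?_
  · rw [vk2, h.vk4]; simp; ring
  · rw [vk1 hr hz.1]; simp
  · rw [vk1 hr hy.1]; simp

/-- `d v_θ = v_xθ dx + v_θθ dθ` -/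
theorem IsJet.fd3 : HasFDerivWithinAt (vk R X a J τ 3)
    (D2 (vk R X a J τ 4 y) (vk R X a J τ 5 y)) (S ×ˢ univ) y := by
  rw [h.vk3, h.vk4, h.vk5]
  exact h.dW hr (fun k => hr.md (J k)) (i := 1) le_rfl hy

end c2

theorem Rd.cont_vk (hr : Rd R X τ S) (k : Fin 6) : ContinuousOn (vk R X a J τ k) (S ×ˢ univ) := by
  have h1 : ∀ j, ContinuousOn (fun y : ℝ × ℝ => val (J j) (τ y.1) y.2) (S ×ˢ univ) := fun j => by
    simp only [val_eq]; exact (hr.md (J j)).cSy le_rfl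
  have h2 : ContinuousOn (fun y : ℝ × ℝ => B1.gam R X (τ y.1)) (S ×ˢ univ) :=
    (B1.gam R X).continuous.comp_continuousOn (hr.cont.comp continuousOn_fst fun y hy => hy.1)
  fin_cases k
  · exact (continuousOn_const.add ((continuousOn_const.mul
      ((h2.pow 2).sub continuousOn_const)).div_const 2)).add (h1 0)
  · exact (continuousOn_const.mul h2).add (h1 1)
  · exact continuousOn_const.add (h1 2)
  exacts [h1 3, h1 4, h1 5]

/-- a jet is the 2-jet of a `C²` function -/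
theorem IsJet.c2 (h : IsJet (dgam R X) J) (hr : Rd R X τ S) (hS : UniqueDiffOn ℝ S) :
    ContDiffOn ℝ 2 (vk R X a J τ 0) (S ×ˢ univ) := by
  have c0 : ∀ k, ((cc (univ : Set Unit) (S ×ˢ univ)).up 0).S fun _ => vk R X a J τ k :=
    fun k _ _ => hr.cont_vk k
  have c1 := Sm.Cl.up_succ (c0 1) (c0 2) (c0 4) fun _ _ y hy => h.fd1 hr hy
  have c3 := Sm.Cl.up_succ (c0 3) (c0 4) (c0 5) fun _ _ y hy => h.fd3 hr hy
  have d0 := Sm.Cl.up_succ (c0 0) (c0 1) (c0 3) fun _ _ y hy => h.fd0 hr hy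
  exact Sm.Cl.up_contDiffOn (hS.prod uniqueDiffOn_univ)
    (Sm.Cl.up_succ d0 c1 c3 fun _ _ y hy => h.fd0 hr hy) () trivial

/-! ### the equation solved for `v_xx` -/

/-- `v_xx` as a polynomial in the other jets, `iv = 1/v` and `iN = 1/(4 v² + v_θ²)` -/
def Fxx (x v vx vt vxt vtt iv iN : ℂ) : ℂ :=
  -(2 * v * iN * ((-(x / 2 * vx) + v - 1 + vtt * iv / 2 - vt ^ 2 * iv ^ 2 / 4) *
      (2 * v + vx ^ 2 + vt ^ 2 * iv / 2) -
    (vx * (2 * vx + vt * vxt * iv - vt ^ 2 * vx * iv ^ 2 / 2) +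
      vt * (2 * vt + 2 * vx * vxt + vt * vtt * iv - vt ^ 3 * iv ^ 2 / 2) * iv / 2) / 2))

theorem solve_EL {x v vx vt vxx vxt vtt : ℂ} (hv : v ≠ 0) (hQ : Po.QQ v vx vt ≠ 0)
    (hN : 4 * v ^ 2 + vt ^ 2 ≠ 0) (h : Po.EL x v vx vt vxx vxt vtt = 0) :
    vxx = Fxx x v vx vt vxt vtt v⁻¹ (4 * v ^ 2 + vt ^ 2)⁻¹ := by
  have hq : Po.QQ v vx vt = 2 * v + vx ^ 2 + vt ^ 2 * v⁻¹ / 2 := by rw [Po.QQ]; field_simp
  have e : Po.EL x v vx vt vxx vxt vtt = vxx + (-(x / 2 * vx) + v - 1 + vtt * v⁻¹ / 2 -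
      vt ^ 2 * v⁻¹ ^ 2 / 4) - ((vx * (2 * vx + vt * vxt * v⁻¹ - vt ^ 2 * vx * v⁻¹ ^ 2 / 2) +
      vt * (2 * vt + 2 * vx * vxt + vt * vtt * v⁻¹ - vt ^ 3 * v⁻¹ ^ 2 / 2) * v⁻¹ / 2) / 2 +
      vx ^ 2 * vxx) * (Po.QQ v vx vt)⁻¹ := by
    unfold Po.EL
    generalize Po.QQ v vx vt = Q at hQ
    field_simp
    ring
  rw [h] at e
  have h1 := mul_inv_cancel₀ hv
  have h2 := mul_inv_cancel₀ hN
  have h3 := mul_inv_cancel₀ hQ
  unfold Fxx
  rw [← hq]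
  generalize v⁻¹ = iv at *
  generalize (4 * v ^ 2 + vt ^ 2)⁻¹ = iN at *
  generalize (Po.QQ v vx vt)⁻¹ = iQ at *
  generalize Po.QQ v vx vt = Q at *
  generalize -(x / 2 * vx) + v - 1 + vtt * iv / 2 - vt ^ 2 * iv ^ 2 / 4 = A at *
  generalize (vx * (2 * vx + vt * vxt * iv - vt ^ 2 * vx * iv ^ 2 / 2) +
      vt * (2 * vt + 2 * vx * vxt + vt * vtt * iv - vt ^ 3 * iv ^ 2 / 2) * iv / 2) / 2 = B at *
  have k : A * Q - B = -((Q - vx ^ 2) * vxx) := by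
    linear_combination (-Q) * e + (B + vx ^ 2 * vxx) * h3
  rw [k, hq]
  linear_combination (-vxx) * h2 - vxx * iN * vt ^ 2 * h1

theorem Fxx_mem {P : Type*} {U : Set P} {Ω : Set (ℝ × ℝ)} (C : Sm.Cl U Ω)
    {x v vx vt vxt vtt iv iN : Fn P} (h1 : C.S x) (h2 : C.S v) (h3 : C.S vx) (h4 : C.S vt)
    (h5 : C.S vxt) (h6 : C.S vtt) (h7 : C.S iv) (h8 : C.S iN) : C.S fun p y =>
      Fxx (x p y) (v p y) (vx p y) (vt p y) (vxt p y) (vtt p y) (iv p y) (iN p y) := by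
  unfold Fxx
  repeat' first
    | assumption
    | exact C.const _
    | apply C.neg
    | apply C.sub
    | apply C.add
    | apply C.div_const
    | apply C.mul
    | apply C.pow

theorem et_mem {P : Type*} {U : Set P} {Ω : Set (ℝ × ℝ)} (C : Sm.Cl U Ω) {x a : Fn P} (h1 : C.S x)
    (h2 : C.S a) : C.S fun p y => et (a p y) (x p y) :=
  C.add (C.const 1) (C.div_const (C.mul h2 (C.sub (C.pow h1 2) (C.const 2))) 2)

/-- `4 v² + v_θ²` -/
def vN (R : ℝ) (X a : ℂ) (J : Jt ℓ) (τ : ℝ → II) (y : ℝ × ℝ) : ℂ :=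
  4 * vk R X a J τ 0 y ^ 2 + vk R X a J τ 3 y ^ 2

/-- **all jets of `v` up to order `n + 2` lie in the class `C`** -/
theorem up_vk {P : Type*} {U : Set P} (C : Sm.Cl U (S ×ˢ (univ : Set ℝ))) {z : P → Par ℓ}
    {J : P → Jt ℓ} (hr : ∀ p ∈ U, Rd R (z p).1 τ S) (hs : ∀ p ∈ U, Sol R (z p) (J p))
    (hm : ∀ p ∈ U, ∀ k, Sm.Md S n (md τ (J p k)))
    (hJ : ∀ k, ∀ i ≤ n, C.S fun p => Sy i (md τ (J p k))) (hx : C.S fun _ y => (y.1 : ℂ))
    (ha : C.S fun p _ => (z p).2.1)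
    (h0 : ∀ p ∈ U, ∀ y ∈ S ×ˢ (univ : Set ℝ), vk R (z p).1 (z p).2.1 (J p) τ 0 y ≠ 0 ∧
      vN R (z p).1 (z p).2.1 (J p) τ y ≠ 0 ∧ Po.QQ (vk R (z p).1 (z p).2.1 (J p) τ 0 y)
        (vk R (z p).1 (z p).2.1 (J p) τ 1 y) (vk R (z p).1 (z p).2.1 (J p) τ 3 y) ≠ 0)
    (hv : C.S fun p y => (vk R (z p).1 (z p).2.1 (J p) τ 0 y)⁻¹)
    (hN : C.S fun p y => (vN R (z p).1 (z p).2.1 (J p) τ y)⁻¹) :
    (C.up (n + 2)).S fun p => vk R (z p).1 (z p).2.1 (J p) τ 0 := by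
  have key := boot C n (W := fun i p => Sy i (md τ (J p 0))) (Pp := fun i p => Sy i (md τ (J p 1)))
    (Q := fun i p => Sy i (md τ (J p 2))) (fun i hi => ?_) (fun i hi => ?_)
    (fun i hi p hp y hy => (hs p hp).jet.dW (hr p hp) (hm p hp) hi hy)
    (fun i hi p hp y hy => (hs p hp).jet.dP (hr p hp) (hm p hp) hi hy)
    (fun i hi p hp y hy => (hm p hp 2).dt hi hy.1) (fun C' hE w0 w1 w2 p0 p1 => ?_) (n + 2)
  · have hE := (Ext.refl C).it (derF U _) (n + 2)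
    exact (C.up _).congr ((C.up _).add (et_mem _ (hE.fst hx) (hE.par ha)) (key.1 0 (by omega)))
      fun p hp y hy => vk0 (hr p hp) hy.1
  · obtain _ | _ | i := i
    · exact hJ 0 0 (by omega)
    · exact C.congr (hJ 3 0 (by omega)) fun p hp y _ => by rw [(hs p hp).jet.sy3]
    · exact C.congr (hJ 5 i (by omega)) fun p hp y _ => by rw [(hs p hp).jet.sy5]
  · obtain _ | i := i
    · exact hJ 1 0 (by omega)
    · exact C.congr (hJ 4 i (by omega)) fun p hp y _ => by rw [(hs p hp).jet.sy4]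
  · have x' := hE.fst hx
    have a' := hE.par ha
    have v0 : C'.S fun p => vk R (z p).1 (z p).2.1 (J p) τ 0 :=
      C'.congr (C'.add (et_mem _ x' a') w0) fun p hp y hy => vk0 (hr p hp) hy.1
    have v1 : C'.S fun p => vk R (z p).1 (z p).2.1 (J p) τ 1 :=
      C'.congr (C'.add (C'.mul a' x') p0) fun p hp y hy => vk1 (hr p hp) hy.1
    have v3 : C'.S fun p => vk R (z p).1 (z p).2.1 (J p) τ 3 :=
      C'.congr w1 fun p hp y _ => by rw [(hs p hp).jet.vk3]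
    have v4 : C'.S fun p => vk R (z p).1 (z p).2.1 (J p) τ 4 :=
      C'.congr p1 fun p hp y _ => by rw [(hs p hp).jet.vk4]
    have v5 : C'.S fun p => vk R (z p).1 (z p).2.1 (J p) τ 5 :=
      C'.congr w2 fun p hp y _ => by rw [(hs p hp).jet.vk5]
    have vn : C'.S fun p => vN R (z p).1 (z p).2.1 (J p) τ :=
      C'.add (C'.cmul 4 (C'.pow v0 2)) (C'.pow v3 2)
    have i1 := hE.inv v0 (fun p hp y hy => (h0 p hp y hy).1) hv
    have i2 := hE.inv vn (fun p hp y hy => (h0 p hp y hy).2.1) hN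
    refine C'.congr (C'.sub (Fxx_mem C' x' v0 v1 v3 v4 v5 i1 i2) a') fun p hp y hy => ?_
    have e := (hs p hp).eq (τ y.1) y.2
    rw [(hr p hp).gam _ hy.1] at e
    have := solve_EL (h0 p hp y hy).1 (h0 p hp y hy).2.2 (h0 p hp y hy).2.1 e
    rw [eq_sub_iff_add_eq, add_comm, ← vk2]
    exact this

end Crest.Agent.N250.B1

end
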