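import Crest.Agent.N250.B1.Sm4
import Crest.Agent.N250.B1.DrS

/-!
# Row 250, B1 S6 (helper95): closeness of the `v`-jets (`Xc`) gives closeness of all derivatives
-/

set_option autoImplicit false
open Set Filter Topology Complex
open scoped ContDiff

noncomputable section

namespace Crest.Agent.N250.B1

open Sm

variable {ℓ : Ell} {R K g g' ε e : ℝ} {n : ℕ} {X a : ℂ} {J : Jt ℓ} {τ : ℝ → II} {S : Set ℝ}

theorem val_add' (u v : Wi (om ℓ)) (s : II) (θ : ℝ) : val (u + v) s θ = val u s θ + val v s θ := by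
  simp [val, Wi.syn_add]

theorem val_cst' (f : CI) (s : II) (θ : ℝ) : val (Wi.cst (om ℓ) f) s θ = f s := by simp [val]

theorem val_vJ (k : Fin 6) (s : II) (θ : ℝ) : val (vJ R X a J k) s θ = vj R X a J s θ k := by
  have z0 : val (0 : Wi (om ℓ)) s θ = 0 := by simp [val, Wi.syn_zero]
  rw [vJ, Pi.add_apply, val_add']
  fin_cases k
  · exact (congrArg _ (val_cst' _ s θ)).trans (by
      change _ + (1 + a / 2 * (gam R X s ^ 2 - 2)) = et a (gam R X s) + val (J 0) s θ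
      rw [et, add_comm]; congr 1; ring)
  · exact (congrArg _ (val_cst' _ s θ)).trans (add_comm _ _)
  · exact (congrArg _ (val_cst' _ s θ)).trans (by simp [vj, add_comm])
  all_goals exact (congrArg _ z0).trans (add_zero _)

theorem vk_eq_sy (k : Fin 6) : vk R X a J τ k = Sy 0 (md τ (vJ R X a J k)) := by
  funext y; rw [← val_eq, val_vJ, vk]

theorem IsJet.vJ (h : IsJet (dgam R X) J) : IsJet (dgam R X) (vJ R X a J) := by
  have hg := der_gam R X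
  have h1 : Der (1 : CI) 0 := (der_cst 1).congr rfl |> fun k => by simpa [cst] using k
  have e0 : Der (1 + (a / 2) • (gam R X ^ 2 - 2)) (dgam R X * a • gam R X) := by
    have := h1.add (((hg.mul hg).sub (h1.smul 2)).smul (a / 2))
    rw [show (2 : ℂ) • (1 : CI) = 2 by ext s; exact mul_one (2 : ℂ), ← pow_two] at this
    refine this.congr ?_
    ext s; simp; ring
  have e1 : Der (a • gam R X) (dgam R X * a • (1 : CI)) := (hg.smul a).congr (by simp)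
  have z0 : Der (0 : CI) 0 := by simp [Der]
  refine ⟨fun m => ?_, fun m => ?_, fun m => ?_, fun m => ?_, fun m => ?_⟩
  · simp only [B1.vJ, Pi.add_apply, Matrix.cons_val_zero, Matrix.cons_val_one, Wi.co_add, Wi.co_cst,
      mul_add]
    split_ifs
    · exact (h.d0 m).add e0
    · simpa using h.d0 m
  · simp only [B1.vJ, Pi.add_apply, Matrix.cons_val_one, Matrix.cons_val, Wi.co_add, Wi.co_cst,
      mul_add]
    split_ifs
    · exact (h.d1 m).add e1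
    · simpa using h.d1 m
  · change Wi.co (J 3 + 0) m = _ • Wi.co (J 0 + Wi.cst _ _) m
    rw [add_zero, h.t0, Wi.co_add, Wi.co_cst]
    split_ifs with hm
    · subst hm; ext s; simp
    · rw [add_zero]
  · change Wi.co (J 4 + 0) m = _ • Wi.co (J 1 + Wi.cst _ _) m
    rw [add_zero, h.t1, Wi.co_add, Wi.co_cst]
    split_ifs with hm
    · subst hm; ext s; simp
    · rw [add_zero]
  · change Wi.co (J 5 + 0) m = _ • Wi.co (J 0 + Wi.cst _ _) m
    rw [add_zero, h.t2, Wi.co_add, Wi.co_cst]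
    split_ifs with hm
    · subst hm; ext s; simp
    · rw [add_zero]

/-- `up_vk` with hypotheses on the jets of `v` only -/
theorem up_v {P : Type*} {U : Set P} (C : Sm.Cl U (S ×ˢ (univ : Set ℝ))) {z : P → Par ℓ}
    {J : P → Jt ℓ} (hr : ∀ p ∈ U, Rd R (z p).1 τ S) (hs : ∀ p ∈ U, Sol R (z p) (J p))
    (hm : ∀ u : Wi (om ℓ), Sm.Md S n (md τ u))
    (hJ : ∀ k, ∀ i ≤ n, C.S fun p => Sy i (md τ (vJ R (z p).1 (z p).2.1 (J p) k)))
    (hx : C.S fun _ y => (y.1 : ℂ))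
    (h0 : ∀ p ∈ U, ∀ y ∈ S ×ˢ (univ : Set ℝ), vk R (z p).1 (z p).2.1 (J p) τ 0 y ≠ 0 ∧
      vN R (z p).1 (z p).2.1 (J p) τ y ≠ 0 ∧ Po.QQ (vk R (z p).1 (z p).2.1 (J p) τ 0 y)
        (vk R (z p).1 (z p).2.1 (J p) τ 1 y) (vk R (z p).1 (z p).2.1 (J p) τ 3 y) ≠ 0)
    (hv : C.S fun p y => (vk R (z p).1 (z p).2.1 (J p) τ 0 y)⁻¹)
    (hN : C.S fun p y => (vN R (z p).1 (z p).2.1 (J p) τ y)⁻¹) :
    (C.up (n + 2)).S fun p => vk R (z p).1 (z p).2.1 (J p) τ 0 := by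
  have hj : ∀ p ∈ U, IsJet (dgam R (z p).1) (vJ R (z p).1 (z p).2.1 (J p)) :=
    fun p hp => (hs p hp).jet.vJ
  have key := boot C n (W := fun i p => Sy i (md τ (vJ R (z p).1 (z p).2.1 (J p) 0)))
    (Pp := fun i p => Sy i (md τ (vJ R (z p).1 (z p).2.1 (J p) 1)))
    (Q := fun i p => Sy i (md τ (vJ R (z p).1 (z p).2.1 (J p) 2))) (fun i hi => ?_) (fun i hi => ?_)
    (fun i hi p hp y hy => (hj p hp).dW (hr p hp) (fun _ => hm _) hi hy)
    (fun i hi p hp y hy => (hj p hp).dP (hr p hp) (fun _ => hm _) hi hy)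
    (fun i hi p hp y hy => (hm _).dt hi hy.1) (fun C' hE w0 w1 w2 p0 p1 => ?_) (n + 2)
  · simp only [vk_eq_sy]; exact key.1 0 (by omega)
  · obtain _ | _ | i := i
    · exact hJ 0 0 (by omega)
    · exact C.congr (hJ 3 0 (by omega)) fun p hp y _ => by rw [(hj p hp).sy3]
    · exact C.congr (hJ 5 i (by omega)) fun p hp y _ => by rw [(hj p hp).sy5]
  · obtain _ | i := i
    · exact hJ 1 0 (by omega)
    · exact C.congr (hJ 4 i (by omega)) fun p hp y _ => by rw [(hj p hp).sy4]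
  · have v0 : C'.S fun p => vk R (z p).1 (z p).2.1 (J p) τ 0 := by simp only [vk_eq_sy]; exact w0
    have v1 : C'.S fun p => vk R (z p).1 (z p).2.1 (J p) τ 1 := by simp only [vk_eq_sy]; exact p0
    have v3 : C'.S fun p => vk R (z p).1 (z p).2.1 (J p) τ 3 :=
      C'.congr w1 fun p hp y _ => by rw [vk_eq_sy, (hj p hp).sy3]
    have v4 : C'.S fun p => vk R (z p).1 (z p).2.1 (J p) τ 4 :=
      C'.congr p1 fun p hp y _ => by rw [vk_eq_sy, (hj p hp).sy4]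
    have v5 : C'.S fun p => vk R (z p).1 (z p).2.1 (J p) τ 5 :=
      C'.congr w2 fun p hp y _ => by rw [vk_eq_sy, (hj p hp).sy5]
    have vn : C'.S fun p => vN R (z p).1 (z p).2.1 (J p) τ :=
      C'.add (C'.cmul 4 (C'.pow v0 2)) (C'.pow v3 2)
    have i1 := hE.inv v0 (fun p hp y hy => (h0 p hp y hy).1) hv
    have i2 := hE.inv vn (fun p hp y hy => (h0 p hp y hy).2.1) hN
    refine C'.congr (Fxx_mem C' (hE.fst hx) v0 v1 v3 v4 v5 i1 i2) fun p hp y hy => ?_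
    rw [← vk_eq_sy]
    exact solve_EL (h0 p hp y hy).1 (h0 p hp y hy).2.2 (h0 p hp y hy).2.1
      ((hs p hp).eq_vk (hr p hp) hy.1)

theorem SB.add {l : ℤ → ℝ} {u v : Wi (om ℓ)} {M N : ℝ} (h : SB l u M) (k : SB l v N) :
    SB l (u + v) (M + N) := by
  obtain ⟨β, hs, hM, hb⟩ := h
  obtain ⟨γ, ks, kM, kb⟩ := k
  refine ⟨fun m => β m + γ m, hs.add ks, by rw [hs.tsum_add ks]; linarith, fun m s hs => ?_⟩
  have := mul_le_mul_of_nonneg_left (norm_add_le (Wi.co u m s) (Wi.co v m s))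
    (Real.exp_pos (sig (2 * s) * l m)).le
  simp only [Wi.co_add, ContinuousMap.add_apply]
  linarith [hb m s hs, kb m s hs]

theorem sb_cst {l : ℤ → ℝ} (hl : l 0 = 0) {f : CI} {M : ℝ}
    (h : ∀ s : II, (s : ℝ) ≤ 1 / 2 → ‖f s‖ ≤ M) : SB l (Wi.cst (om ℓ) f) M := by
  refine ⟨fun m => if m = 0 then M else 0, (hasSum_ite_eq 0 M).summable, (tsum_ite_eq 0 _).le,
    fun m s hs => ?_⟩
  by_cases hm : m = 0
  · simpa [hm, hl, Wi.co_cst] using h s hs
  · simp [hm, Wi.co_cst]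

theorem SB.mono {l : ℤ → ℝ} {u : Wi (om ℓ)} {M N : ℝ} (h : SB l u M) (k : M ≤ N) : SB l u N := by
  obtain ⟨β, hs, hM, hb⟩ := h
  exact ⟨β, hs, hM.trans k, hb⟩

theorem Sl.sbv {z : Par ℓ} (h : Sl R K g g' ε e z J) (c : Sz R K g g' e) (k : Fin 6) :
    SB ℓ.l (vJ R z.1 z.2.1 J k) (6 * (R + 1) * e + (R + 3)) := by
  have hR := c.hR
  have hx : ∀ s : II, (s : ℝ) ≤ 1 / 2 → ∃ x ∈ Icc R (R + 1), gam R z.1 s = (x : ℝ) := fun s hs =>
    ⟨R + 2 * s, ⟨by linarith [s.2.1], by linarith⟩, by rw [gam_strip R _ hs]; push_cast; ring⟩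
  have z0 : SB ℓ.l (0 : Wi (om ℓ)) (R + 3) :=
    map_zero (Wi.cst (om ℓ)) ▸ sb_cst ℓ.zero fun _ _ => by simp; linarith
  have ha := h.a_le c
  refine (h.sb c k).add ?_
  fin_cases k
  · refine sb_cst ℓ.zero fun s hs => ?_
    obtain ⟨x, h1, h2⟩ := hx s hs
    have e1 : (1 + (z.2.1 / 2) • (gam R z.1 ^ 2 - 2) : CI) s = et z.2.1 x := by
      change 1 + z.2.1 / 2 * (gam R z.1 s ^ 2 - 2) = _
      rw [h2, et]; ring
    rw [e1]; linarith [(h.pt' c h1).norm_le]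
  · refine sb_cst ℓ.zero fun s hs => ?_
    obtain ⟨x, h1, h2⟩ := hx s hs
    rw [ContinuousMap.smul_apply, h2, norm_smul, norm_real, Real.norm_eq_abs,
      abs_of_nonneg (by linarith [h1.1])]
    nlinarith [h1.1, h1.2]
  · exact sb_cst ℓ.zero fun s hs => by simp; linarith
  all_goals exact z0

/-- class form -/
theorem strip_lipv {P : Type*} {U : Set P} {z : P → Par ℓ} {J : P → Jt ℓ} {δ : P → P → ℝ}
    (hδ : ∀ p q, 0 ≤ δ p q) (c : Sz R K g g' e) (h : ∀ p ∈ U, Sl R K g g' ε e (z p) (J p))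
    (hJ : ∀ p ∈ U, ∀ q ∈ U, ∀ k, ∀ i ≤ n, ∀ y ∈ S ×ˢ (univ : Set ℝ),
      ‖Sy i (md (tS R) (vJ R (z p).1 (z p).2.1 (J p) k)) y -
        Sy i (md (tS R) (vJ R (z q).1 (z q).2.1 (J q) k)) y‖ ≤ δ p q)
    {d B : ℝ} (hd : 0 ≤ d) (hG : Gn ℓ.l (sig d) n B) (hc : Convex ℝ S)
    (hS : S ⊆ Icc (R + d) (R + 1)) :
    ((lip U (S ×ˢ univ) δ hδ).up (n + 2)).S fun p => vk R (z p).1 (z p).2.1 (J p) (tS R) 0 := by
  have hS' := sub_strip hd hS
  have hr : ∀ X : ℂ, Rd R X (tS R) S := fun X => (rd_strip R X).mono hc hS'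
  have hg : ∀ x ∈ S, Gain (om ℓ) n B (tS R x) := fun x hx => hG.gain (sig_tS hd (hS hx))
  have hR := c.hR
  have hx : (lip U (S ×ˢ univ) δ hδ).S fun _ y => (y.1 : ℂ) :=
    ⟨fun _ _ => by fun_prop, R + 1, by linarith, fun _ _ y hy => by
      have := hS' hy.1
      rw [norm_real, Real.norm_eq_abs, abs_of_nonneg (by linarith [this.1])]; exact this.2,
      fun p _ q _ _ _ => by simpa using mul_nonneg (by linarith) (hδ p q)⟩
  have hj : ∀ k, ∀ i ≤ n, (lip U (S ×ˢ univ) δ hδ).S fun p =>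
      Sy i (md (tS R) (vJ R (z p).1 (z p).2.1 (J p) k)) := fun k i hi => by
    refine ⟨fun p _ => (md_Md (hr 0).cont hg _).cSy hi, |B * (6 * (R + 1) * e + (R + 3))| + 1,
      by positivity, fun p hp y hy => ?_, fun p hp q hq y hy => ?_⟩
    · have := ((h p hp).sbv c k).sy_le hG (tS_le (hS' hy.1)) (sig_tS hd (hS hy.1)) hi
      linarith [le_abs_self (B * (6 * (R + 1) * e + (R + 3)))]
    · have := hJ p hp q hq k i hi y hy
      nlinarith [hδ p q, abs_nonneg (B * (6 * (R + 1) * e + (R + 3)))]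
  have v0 : (lip U (S ×ˢ univ) δ hδ).S fun p => vk R (z p).1 (z p).2.1 (J p) (tS R) 0 := by
    simp only [vk_eq_sy]; exact hj 0 0 (by omega)
  have v3 : (lip U (S ×ˢ univ) δ hδ).S fun p => vk R (z p).1 (z p).2.1 (J p) (tS R) 3 := by
    simp only [vk_eq_sy]; exact hj 3 0 (by omega)
  have vn : (lip U (S ×ˢ univ) δ hδ).S fun p => vN R (z p).1 (z p).2.1 (J p) (tS R) :=
    (lip _ _ δ hδ).add ((lip _ _ δ hδ).cmul 4 ((lip _ _ δ hδ).pow v0 2)) ((lip _ _ δ hδ).pow v3 2)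
  exact up_v _ (fun p _ => hr _) (fun p hp => (h p hp).sol) (md_Md (hr 0).cont hg) hj hx
    (fun p hp y _ => (h p hp).ne c _ y)
    (lip_inv v0 one_half_pos fun p hp y hy => ((h p hp).lower_strip c (hS' hy.1)).1)
    (lip_inv vn one_pos fun p hp y hy => ((h p hp).lower_strip c (hS' hy.1)).2)

theorem SB.nonneg {l : ℤ → ℝ} {u : Wi (om ℓ)} {M : ℝ} (h : SB l u M) : 0 ≤ M := by
  obtain ⟨β, -, hM, hb⟩ := h
  exact (tsum_nonneg fun m => le_trans (by positivity) (hb m i0 (by simp [i0]))).trans hM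

/-- **two solutions whose `v`-jets are `N` close on the strip are `M N` close in `C^j`** -/
theorem strip_close (c : Sz R K g g' e) (ε : ℝ) {l : ℤ → ℝ} {c0 d : ℝ} (hc : 0 < c0)
    (hl : ∀ m : ℤ, c0 * |(m : ℝ)| ≤ ℓ.l m) (hl' : ∀ m : ℤ, c0 * |(m : ℝ)| ≤ l m) (hd : 0 < d)
    (j : ℕ) : ∃ M, 0 ≤ M ∧ ∀ (z z' : Par ℓ) (J J' : Jt ℓ) (N : ℝ), Sl R K g g' ε e z J →
      Sl R K g g' ε e z' J' → (∀ k, SB l (vJ R z.1 z.2.1 J k - vJ R z'.1 z'.2.1 J' k) N) →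
      ∀ y ∈ oS R d, ‖iteratedFDeriv ℝ j (vS R z J) y - iteratedFDeriv ℝ j (vS R z' J') y‖ ≤ M * N := by
  obtain ⟨B, hB⟩ := exists_gn hc hl (sig_pos hd) j
  obtain ⟨B', hB'⟩ := exists_gn hc hl' (sig_pos hd) j
  have hS : Ioo (R + d) (R + 1) ⊆ Icc (R + d) (R + 1) := Ioo_subset_Icc_self
  have hS' := sub_strip hd.le hS
  set A : Par ℓ × Jt ℓ → Par ℓ × Jt ℓ → Set ℝ := fun p q => {r | ∃ k, ∃ i ≤ j, ∃ y ∈ oS R d,
    r = ‖Sy i (md (tS R) (vJ R p.1.1 p.1.2.1 p.2 k)) y - Sy i (md (tS R) (vJ R q.1.1 q.1.2.1 q.2 k)) y‖}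
    with hA
  have h0 : ∀ p q, 0 ≤ sSup (A p q) := fun p q => Real.sSup_nonneg fun r ⟨_, _, _, _, _, h⟩ => by
    rw [h]; exact norm_nonneg _
  have k := strip_lipv (U := {p : Par ℓ × Jt ℓ | Sl R K g g' ε e p.1 p.2}) (z := Prod.fst)
    (J := Prod.snd) (δ := fun p q => sSup (A p q)) h0 c (fun _ hp => hp)
    (fun p hp q hq k i hi y hy => le_csSup ⟨_, fun r ⟨k, i, hi, y, hy, h⟩ => h.le.trans
      (norm_sub_le_of_le
        ((Sl.sbv hp c k).sy_le hB (tS_le (hS' hy.1)) (sig_tS hd.le (hS hy.1)) hi)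
        ((Sl.sbv hq c k).sy_le hB (tS_le (hS' hy.1)) (sig_tS hd.le (hS hy.1)) hi))⟩
      ⟨k, i, hi, y, hy, rfl⟩) hd.le hB (convex_Ioo _ _) hS
  obtain ⟨M, hM⟩ := Sm.Cl.up_lip (isOpen_oS R d).uniqueDiffOn (δ := fun p q => sSup (A p q))
    (fun f hf => by obtain ⟨-, M, -, -, h⟩ := hf; exact ⟨M, h⟩)
    (Sm.Cl.it_mono (show j ≤ j + 2 by omega) k)
  have hB0 : 0 ≤ B' := le_trans (by positivity) (hB'.2 0)
  refine ⟨|M| * B', by positivity, fun z z' J J' N h h' hN y hy => ?_⟩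
  have h1 : sSup (A (z, J) (z', J')) ≤ B' * N := by
    refine Real.sSup_le (fun r ⟨k, i, hi, w, hw, e⟩ => ?_) (mul_nonneg hB0 (hN 0).nonneg)
    obtain ⟨L, -, hL⟩ := exists_Sy_clm (hB.gain (sig_tS hd.le (hS hw.1))) hi
    have := (hN k).sy_le hB' (tS_le (hS' hw.1)) (sig_tS hd.le (hS hw.1)) hi
    simp only [← hL, map_sub] at this e
    rw [e]; exact this
  rw [← iteratedFDerivWithin_of_isOpen j (isOpen_oS R d) hy,
    ← iteratedFDerivWithin_of_isOpen j (isOpen_oS R d) hy, mul_assoc]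
  exact (hM (z, J) h (z', J') h' y hy).trans
    (mul_le_mul (le_abs_self M) h1 (h0 _ _) (abs_nonneg M))

/-- `Xc` gives the strip bound for the half symbol -/
theorem Xc.sb {X X' N : ℝ} {V' V : Jt ℓ} (h : Xc R X X' V' V N) (hR : 1 ≤ R) (hX : R + 2 ≤ X)
    (hX' : R + 2 ≤ X') (k : Fin 6) : SB (fun m => ℓ.l m / 2) (V' k - V k) ((R + 1) ^ 3 * N) := by
  obtain ⟨β, hs, hN, hb⟩ := h k
  refine ⟨fun m => (R + 1) ^ 3 * β m, hs.mul_left _, by rw [tsum_mul_left]; gcongr,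
    fun m s hs => ?_⟩
  have h0 := s.2.1
  have h1 := hb m (R + 2 * s) ⟨by linarith, by linarith⟩
  have e1 : mo R X' V' k m (R + 2 * s) = Wi.co (V' k) m s := by
    rw [mo, ← xr_strip R X' hs, fx_xr hX']
  have e2 : mo R X V k m (R + 2 * s) = Wi.co (V k) m s := by rw [mo, ← xr_strip R X hs, fx_xr hX]
  rw [e1, e2, add_sub_cancel_left, mul_div_assoc] at h1
  have hx : (1 : ℝ) ≤ R + 2 * s := by linarith
  have p1 : (R + 2 * s) ^ (7 / 8 : ℝ) ≤ R + 1 :=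
    (Real.rpow_le_self_of_one_le hx (by norm_num)).trans (by linarith)
  have p2 : (R + 2 * s) ^ (![0, 1, 2, 0, 1, 0] k : ℕ) ≤ (R + 1) ^ 2 :=
    (pow_le_pow_right₀ hx (by fin_cases k <;> simp)).trans
      (pow_le_pow_left₀ (by linarith) (by linarith) 2)
  have hb0 : 0 ≤ β m := nonneg_of_mul_nonneg_left (le_trans (by positivity) h1) (by positivity)
  have p3 := mul_le_mul p1 p2 (by positivity) (by linarith)
  simp only [Wi.co_sub, ContinuousMap.sub_apply]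
  exact h1.trans ((mul_le_mul_of_nonneg_left p3 hb0).trans (le_of_eq (by ring)))

/-- **DRIFT in `C^j` on the strip** -/
theorem Xc.close (c : Sz R K g g' e) (ε : ℝ) {c0 d : ℝ} (hc : 0 < c0)
    (hl : ∀ m : ℤ, c0 * |(m : ℝ)| ≤ ℓ.l m) (hd : 0 < d) (j : ℕ) :
    ∃ M, 0 ≤ M ∧ ∀ (X X' : ℝ) (a a' : ℂ) (D D' : Dat ℓ) (J J' : Jt ℓ) (N : ℝ),
      Sl R K g g' ε e ((X : ℂ), a, D) J → Sl R K g g' ε e ((X' : ℂ), a', D') J' →
      Xc R X X' (vJ R X' a' J') (vJ R X a J) N → ∀ y ∈ oS R d,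
        ‖iteratedFDeriv ℝ j (vS R ((X' : ℂ), a', D') J') y -
          iteratedFDeriv ℝ j (vS R ((X : ℂ), a, D) J) y‖ ≤ M * N := by
  obtain ⟨M, h0, hM⟩ := strip_close (ℓ := ℓ) c ε (l := fun m => ℓ.l m / 2) (half_pos hc)
    (fun m => by have := hl m; have := abs_nonneg (m : ℝ); nlinarith)
    (fun m => by have := hl m; linarith) hd j
  have hR := c.hR
  refine ⟨M * (R + 1) ^ 3, by positivity, fun X X' a a' D D' J J' N h h' hx y hy => ?_⟩
  have h1 := h.dom.1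
  have h2 := h'.dom.1
  simp only [ofReal_re] at h1 h2
  rw [mul_assoc]
  exact hM _ _ J' J _ h' h (hx.sb (by linarith) (by linarith) (by linarith)) y hy

end Crest.Agent.N250.B1

end
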