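import Crest.Agent.N250.B1.Nl

/-!
# Row 250, B1 (helper15): Lipschitz bound of the nonlinearity in a weaker norm `‖k * ·‖`
-/

set_option autoImplicit false
set_option linter.unusedSectionVars false

noncomputable section

namespace Crest.Agent.N250.Nl

variable {R : Type*} [NormedCommRing R] [NormOneClass R] [NormedAlgebra ℂ R] [CompleteSpace R]

/-- two elements of size `A` whose difference has weighted size `δ` -/
structure Lp (k a a' : R) (A δ : ℝ) : Prop where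
  l : ‖a‖ ≤ A
  r : ‖a'‖ ≤ A
  d : ‖k * (a - a')‖ ≤ δ

namespace Lp

variable {k a a' b b' : R} {A B δ ε : ℝ}

lemma mono (h : Lp k a a' A δ) (h1 : A ≤ B) (h2 : δ ≤ ε) : Lp k a a' B ε :=
  ⟨h.l.trans h1, h.r.trans h1, h.d.trans h2⟩

lemma const (k : R) (h : ‖a‖ ≤ A) : Lp k a a A 0 := ⟨h, h, by simp⟩

lemma add (h : Lp k a a' A δ) (g : Lp k b b' B ε) : Lp k (a + b) (a' + b') (A + B) (δ + ε) :=
  ⟨add_le h.l g.l, add_le h.r g.r, by
    rw [show k * (a + b - (a' + b')) = k * (a - a') + k * (b - b') by ring]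
    exact add_le h.d g.d⟩

lemma sub (h : Lp k a a' A δ) (g : Lp k b b' B ε) : Lp k (a - b) (a' - b') (A + B) (δ + ε) :=
  ⟨sub_le h.l g.l, sub_le h.r g.r, by
    rw [show k * (a - b - (a' - b')) = k * (a - a') - k * (b - b') by ring]
    exact sub_le h.d g.d⟩

lemma mul (h : Lp k a a' A δ) (g : Lp k b b' B ε) :
    Lp k (a * b) (a' * b') (A * B) (A * ε + B * δ) :=
  ⟨mul_le h.l g.l, mul_le h.r g.r, by
    rw [show k * (a * b - a' * b') = a * (k * (b - b')) + b' * (k * (a - a')) by ring]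
    exact add_le (mul_le h.l g.d) (mul_le g.r h.d)⟩

lemma sq (h : Lp k a a' A δ) : Lp k (a ^ 2) (a' ^ 2) (A ^ 2) (2 * A * δ) := by
  simpa only [pow_two] using (h.mul h).mono le_rfl (le_of_eq (by ring))

lemma inv (h : Lp k a a' (1 / 2) δ) :
    Lp k (Ring.inverse (1 + a)) (Ring.inverse (1 + a')) 2 (4 * δ) := by
  refine ⟨inv_le h.l, inv_le h.r, ?_⟩
  have e1 := Ring.inverse_mul_cancel _ (unit_of h.l)
  have e2 := Ring.inverse_mul_cancel _ (unit_of h.r)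
  have e : k * (Ring.inverse (1 + a) - Ring.inverse (1 + a')) =
      -(Ring.inverse (1 + a) * Ring.inverse (1 + a') * (k * (a - a'))) := by
    linear_combination (-k * Ring.inverse (1 + a)) * e2 + (k * Ring.inverse (1 + a')) * e1
  rw [e, norm_neg]
  exact (mul_le (mul_le (inv_le h.l) (inv_le h.r)) h.d).trans (le_of_eq (by ring))

lemma shift {ξ : R} (h : Lp (k * ξ ^ 2) a a' A δ) (hξ : ‖ξ‖ ≤ 1) :
    Lp k (ξ ^ 2 * a) (ξ ^ 2 * a') A δ :=
  ⟨(mul_le (pow_le hξ 2) h.l).trans (le_of_eq (by ring)),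
    (mul_le (pow_le hξ 2) h.r).trans (le_of_eq (by ring)), by
    rw [show k * (ξ ^ 2 * a - ξ ^ 2 * a') = k * ξ ^ 2 * (a - a') by ring]; exact h.d⟩

end Lp

/-- **weak Lipschitz bound**, anisotropic: `Z` and `V` are measured against `k ξ²`, `ξ = 1/x` -/
theorem G_lip {k x ξ e y T TT Z S V y' T' TT' Z' S' V' : R} {ε δ : ℝ} (hx : x * ξ = 1)
    (hξ : ‖ξ‖ ≤ 1) (he : ‖e‖ ≤ 2) (hε : ε ≤ 1 / 64) (hy : Lp k y y' ε δ) (hT : Lp k T T' ε δ)
    (hTT : Lp k TT TT' ε δ) (hS : Lp k S S' ε δ) (hZ : Lp (k * ξ ^ 2) Z Z' ε δ)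
    (hV : Lp (k * ξ ^ 2) V V' 1 δ) (hxT : ‖x * T‖ ≤ ε) (hxS : ‖x * S‖ ≤ ε) :
    ‖k * (G y T TT Z S V (e * ξ ^ 2) - G y' T' TT' Z' S' V' (e * ξ ^ 2))‖ ≤ 200 * ε * δ := by
  have h0 : 0 ≤ ε := (norm_nonneg _).trans hy.l
  have hδ : 0 ≤ δ := (norm_nonneg _).trans hy.d
  have hεδ : 0 ≤ ε * δ := mul_nonneg h0 hδ
  have hle : ε * δ ≤ δ / 64 := by nlinarith
  have hee : ε * ε ≤ ε / 64 := by nlinarith
  have he3 : ε * ε * δ ≤ ε * δ / 64 := by nlinarith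
  have hh := Lp.const k (hf_le (R := R))
  have hh2 := Lp.const k (pow_le (hf_le (R := R)) 2)
  have hh3 := Lp.const k (pow_le (hf_le (R := R)) 3)
  have hh4 := Lp.const k (pow_le (hf_le (R := R)) 4)
  have hE := Lp.const k he
  have hu : Lp k (uu y) (uu y') 2 (4 * δ) := (hy.mono (by linarith) le_rfl).inv
  have hu2 : Lp k (uu y ^ 2) (uu y' ^ 2) 4 (16 * δ) := hu.sq.mono (by norm_num) (by linarith)
  have hu3 : Lp k (uu y ^ 3) (uu y' ^ 3) 8 (48 * δ) := by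
    simpa only [← pow_succ] using (hu2.mul hu).mono (B := 8) (ε := 48 * δ) (by norm_num)
      (by linarith)
  have hZ2 : Lp (k * ξ ^ 2) (Z ^ 2) (Z' ^ 2) (ε / 64) (2 * (ε * δ)) :=
    hZ.sq.mono (by nlinarith) (by linarith)
  have hV1 : Lp (k * ξ ^ 2) (1 + V) (1 + V') 2 δ :=
    ((Lp.const _ (norm_one (α := R)).le).add hV).mono (by norm_num) (by linarith)
  have P1 : Lp k (e * (ξ ^ 2 * Z ^ 2)) (e * (ξ ^ 2 * Z' ^ 2)) ε (4 * (ε * δ)) :=
    (hE.mul (hZ2.shift hξ)).mono (by linarith) (by linarith)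
  have P2 : Lp k (e * (ξ ^ 2 * (Z ^ 2 * (1 + V)))) (e * (ξ ^ 2 * (Z' ^ 2 * (1 + V')))) ε
      (9 * (ε * δ)) := (hE.mul ((hZ2.mul hV1).shift hξ)).mono (by linarith) (by linarith)
  have sm : ∀ {a a' b b' : R}, Lp k a a' ε δ → Lp k b b' ε δ →
      Lp k (a * b) (a' * b') (ε / 64) (2 * (ε * δ)) := fun ha hb =>
    (ha.mul hb).mono hee (by linarith)
  have p1 := sm hy hTT
  have p2 := sm hT hT
  have p3 := sm hT hS
  have P3 : Lp k (Z * (T * S)) (Z' * (T' * S')) ε (ε * δ) := by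
    refine ⟨(mul_le hZ.l p3.l).trans (by linarith), (mul_le hZ.r p3.r).trans (by linarith), ?_⟩
    have e1 : k * (Z * (T * S) - Z' * (T' * S')) =
        x * T * (x * S) * (k * ξ ^ 2 * (Z - Z')) + Z' * (k * (T * S - T' * S')) := by
      linear_combination (-(k * T * S * (Z - Z')) * (x * ξ + 1)) * hx
    rw [e1]
    exact (add_le (mul_le (mul_le hxT hxS) hZ.d) (mul_le hZ.r p3.d)).trans (by linarith)
  have hT2 : Lp k (T ^ 2) (T' ^ 2) (1 / 4) δ := by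
    simpa only [pow_two] using p2.mono (B := 1 / 4) (ε := δ) (by linarith) (by linarith)
  have hTT1 : Lp k TT TT' 1 δ := hTT.mono (by linarith) le_rfl
  have eQ : ∀ y T Z : R, Qm y T Z (e * ξ ^ 2) =
      y + hf R * (e * (ξ ^ 2 * Z ^ 2)) + hf R ^ 2 * uu y * T ^ 2 := fun y T Z => by
    rw [Qm, Qp]; ring
  have hQ : Lp k (Qm y T Z (e * ξ ^ 2)) (Qm y' T' Z' (e * ξ ^ 2)) (1 / 2) (2 * δ) := by
    rw [eQ, eQ]
    exact ((hy.add (hh.mul P1)).add ((hh2.mul hu).mul hT2)).mono (by linarith) (by linarith)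
  have hj : Lp k (jj y T Z (e * ξ ^ 2)) (jj y' T' Z' (e * ξ ^ 2)) 2 (8 * δ) :=
    hQ.inv.mono le_rfl (by linarith)
  have P1' := P1.mono (B := 1) (ε := δ) (by linarith) (by linarith)
  have q : Lp k _ _ (2 * ε) (12 * (ε * δ)) :=
    ((((((hh.mul P2).add ((hh.mul hu).mul P3)).sub (((hh3.mul hu2).mul P1').mul p2)).add
      ((hh2.mul hu).mul p2)).add (((hh3.mul hu2).mul hTT1).mul p2)).sub
      (((hh4.mul hu3).mul hT2).mul p2)).mono (by linarith) (by linarith)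
  have := ((((hh.mul hu).mul p1).add ((hh2.mul hu2).mul p2)).add (hj.mul q)).d
  have eG : ∀ y T TT Z S V : R, G y T TT Z S V (e * ξ ^ 2) =
      hf R * uu y * (y * TT) + hf R ^ 2 * uu y ^ 2 * (T * T) + jj y T Z (e * ξ ^ 2) *
        (hf R * (e * (ξ ^ 2 * (Z ^ 2 * (1 + V)))) + hf R * uu y * (Z * (T * S)) -
          hf R ^ 3 * uu y ^ 2 * (e * (ξ ^ 2 * Z ^ 2)) * (T * T) + hf R ^ 2 * uu y * (T * T) +
          hf R ^ 3 * uu y ^ 2 * TT * (T * T) - hf R ^ 4 * uu y ^ 3 * T ^ 2 * (T * T)) :=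
    fun y T TT Z S V => by rw [G, Gp]; ring
  rw [eG, eG]
  exact this.trans (by linarith)

end Crest.Agent.N250.Nl

end
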